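import Vale.Agent.P011.H973.LowOpen
import Vale.Agent.P011.H380.Model

/-!
# Lower bound of the mass of open sets in the unitary group

`low_unitary` : (LOW) in the unitary group of `E`, from `LowIn Lam`.
-/

set_option autoImplicit false
set_option linter.unusedSectionVars false

open MeasureTheory Filter Topology Set Module
open scoped ENNReal NNReal Pointwise

namespace Vale.Agent.P011.H973

open Vale.Agent.P011.H544 Vale.Agent.P011.H380.UpBC Vale.Agent.P011.H380.UnitsTop

section Main

variable {k R A E ι : Type*} [Field k] [CommRing R] [TopologicalSpace R] [IsTopologicalRing R]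
  [Algebra k R] [DivisionRing A] [StarRing A] [Algebra k A] [StarLin k A] [Ring E] [StarRing E]
  [TopologicalSpace E] [IsTopologicalRing E] [Algebra R E] [Fintype ι] [DecidableEq ι]
  (B : BC k R A E ι) [Nontrivial R] [LocallyCompactSpace R] [T2Space R]

/-- **(LOW) in the unitary group.** -/
theorem low_unitary {O : Subring k} (hG : Good k R O) (hd : DenseRange (algebraMap k R))
    {Lam : Subring A} [Countable Lam] (H : IsOrd B.a O Lam) {w0 : A}
    (hw : ∀ x, w0 * x = x * w0) (hne : w0 ≠ star w0) (hlow : LowIn Lam)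
    {P : Type*} (u : P → unitary A) (hu : Function.Surjective u) {p0 : P} (hp0 : u p0 ≠ 1)
    {V : Set (unitary E)} (hV : IsOpen V) (hpV : jU B (u p0) ∈ V) :
    ∃ c : ℝ, 0 < c ∧ ∀ᶠ x : ℝ in 𝓝[>] 1, ∃ F : Finset P, (∀ p ∈ F, jU B (u p) ∈ V) ∧
      c ≤ ∑ p ∈ F, (x - 1) * (H699.den Lam (u p : A) : ℝ) ^ (-x) := by
  classical
  obtain ⟨V', hV', rfl⟩ := isOpen_induced_iff.1 hV
  obtain ⟨c, hc, hev⟩ := low_open B hG.disc hG.coc hG.frac H hG.units hd hw hne hlow
    (x0 := (u p0 : A)) (Unitary.mem_iff.1 (u p0).2).2 (fun h => hp0 (Subtype.ext h)) hV' hpV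
  refine ⟨c, hc, hev.mono ?_⟩
  rintro x ⟨F, hF1, hF2⟩
  have hmem : ∀ y ∈ F, y ∈ unitary A := fun y hy =>
    Unitary.mem_iff.2 ⟨(hF1 y hy).1, (hF1 y hy).2.1⟩
  choose g hg using hu
  set f : F → P := fun y => g ⟨(y : A), hmem y y.2⟩ with hf
  have hfu : ∀ y : F, (u (f y) : A) = y := fun y => by rw [hf]; simp only; rw [hg]
  have hfi : Function.Injective f := by
    intro y y' h
    have := congrArg (fun p => (u p : A)) h
    simp only [hfu] at this
    exact Subtype.ext this
  refine ⟨Finset.univ.image f, ?_, ?_⟩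
  · intro p hp
    obtain ⟨y, -, rfl⟩ := Finset.mem_image.1 hp
    have h1 := (hF1 y y.2).2.2
    show ((jU B (u (f y)) : unitary E) : E) ∈ V'
    rw [coe_jU, hfu]
    exact h1
  · rw [Finset.sum_image fun y _ y' _ h => hfi h]
    refine hF2.trans (le_of_eq ?_)
    rw [← Finset.sum_coe_sort F]
    exact Finset.sum_congr rfl fun y _ => by rw [hfu]

end Main

end Vale.Agent.P011.H973
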