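import Vale.Agent.P011.H271.PlaceK
import Mathlib.RingTheory.Valuation.LocalSubring

/-!
# Places above a place of a global function field
-/

namespace Vale.Agent.P011.H973.PF

open Vale.Agent.P011.H738 Vale.Agent.P011.H271

set_option linter.unusedSectionVars false

noncomputable section

variable {F E : Type} [Field F] [Field E] [Algebra F E]

/-- the place `W` of `E` lies above the place `v` of `F` -/
def Av' (W : Place E) (v : Place F) : Prop := ∀ x : F, W.abv (algebraMap F E x) ≤ 1 ↔ v.abv x ≤ 1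

section av

variable {W : Place E} {v v' : Place F}

theorem Av'.lt_one (h : Av' W v) (x : F) : W.abv (algebraMap F E x) < 1 ↔ v.abv x < 1 := by
  by_cases hx : x = 0
  · subst hx
    rw [map_zero, map_zero, map_zero]
  · have hx' : algebraMap F E x ≠ 0 := (map_ne_zero _).2 hx
    have h1 := h x⁻¹
    rw [map_inv₀, map_inv₀, map_inv₀, inv_le_one₀ (W.abv.pos hx'), inv_le_one₀ (v.abv.pos hx)] at h1
    rw [← not_le, ← not_le, h1]

theorem Av'.eq_one (h : Av' W v) (x : F) : W.abv (algebraMap F E x) = 1 ↔ v.abv x = 1 := by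
  have h1 := h x
  have h2 := h.lt_one x
  constructor
  · intro h3
    exact le_antisymm (h1.1 h3.le) (not_lt.1 fun h4 => absurd (h2.2 h4) (by rw [h3]; exact lt_irrefl _))
  · intro h3
    exact le_antisymm (h1.2 h3.le) (not_lt.1 fun h4 => absurd (h2.1 h4) (by rw [h3]; exact lt_irrefl _))

theorem Av'.le_iff (h : Av' W v) (x y : F) :
    W.abv (algebraMap F E x) ≤ W.abv (algebraMap F E y) ↔ v.abv x ≤ v.abv y := by
  by_cases hy : y = 0
  · subst hy
    rw [map_zero, map_zero, map_zero, AbsoluteValue.nonpos_iff, AbsoluteValue.nonpos_iff,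
      map_eq_zero]
  · have hy' : algebraMap F E y ≠ 0 := (map_ne_zero _).2 hy
    have h1 := h (x / y)
    rwa [map_div₀, map_div₀, map_div₀, div_le_one (W.abv.pos hy'), div_le_one (v.abv.pos hy)] at h1

theorem place_ext' [GFF F] (h : ∀ x : F, v.abv x ≤ 1 ↔ v'.abv x ≤ 1) : v = v' := by
  apply toPl_injective
  apply Subtype.ext
  ext x
  rw [(toPl v).mem_iff, (toPl v').mem_iff, toPl_le_one, toPl_le_one, h]

theorem Av'.unique [GFF F] (h : Av' W v) (h' : Av' W v') : v = v' :=
  place_ext' fun x => by rw [← h x, ← h' x]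

end av

/-- **there is a place above every place** -/
theorem exists_aboveF [GFF E] (v : Place F) : ∃ W : Place E, Av' W v := by
  -- the image of the valuation ring and of its maximal ideal
  let A : Subring E := (integers v.abv v.nonarch).map (algebraMap F E)
  have hA : ∀ x : E, x ∈ A ↔ ∃ y : F, v.abv y ≤ 1 ∧ algebraMap F E y = x := fun x => Iff.rfl
  let I : Ideal A :=
    { carrier := {x | ∃ y : F, v.abv y < 1 ∧ algebraMap F E y = (x : E)}
      add_mem' := by
        rintro a b ⟨x, hx, hx'⟩ ⟨y, hy, hy'⟩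
        exact ⟨x + y, (v.nonarch x y).trans_lt (max_lt hx hy), by
          rw [map_add, hx', hy']
          rfl⟩
      zero_mem' := ⟨0, by rw [map_zero]; exact one_pos, by rw [map_zero]; rfl⟩
      smul_mem' := by
        rintro c b ⟨y, hy, hy'⟩
        obtain ⟨z, hz, hz'⟩ := c.2
        refine ⟨z * y, ?_, ?_⟩
        · rw [map_mul]
          exact mul_lt_one_of_nonneg_of_lt_one_right hz (v.abv.nonneg _) hy
        · rw [map_mul, hy', hz']
          rfl }
  have hI : I ≠ ⊤ := by
    rw [Ideal.ne_top_iff_one]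
    rintro ⟨y, hy, hy'⟩
    have h1 : y = 1 := (algebraMap F E).injective (hy'.trans (map_one _).symm)
    rw [h1, map_one] at hy
    exact lt_irrefl _ hy
  obtain ⟨B, hB1, hB2⟩ := Ideal.image_subset_nonunits_valuationSubring I hI
  have hB3 : ∀ x : F, algebraMap F E x ∈ B ↔ v.abv x ≤ 1 := by
    intro x
    constructor
    · intro hx
      by_contra hcon
      rw [not_le] at hcon
      have hx0 : x ≠ 0 := by
        rintro rfl
        rw [map_zero] at hcon
        linarith
      have h1 : v.abv x⁻¹ < 1 := by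
        rw [map_inv₀]
        exact inv_lt_one_of_one_lt₀ hcon
      have h2 : (algebraMap F E x)⁻¹ ∈ B.nonunits := by
        refine hB2 ⟨⟨(algebraMap F E x)⁻¹, x⁻¹, h1.le, map_inv₀ _ _⟩, ⟨x⁻¹, h1, map_inv₀ _ _⟩, rfl⟩
      rw [B.inv_mem_nonunits_iff] at h2
      rcases h2 with h2 | h2
      · exact hx0 ((map_eq_zero _).1 h2)
      · exact h2 hx
    · intro hx
      exact hB1 ⟨x, hx, rfl⟩
  have hBt : B ≠ ⊤ := by
    intro h
    obtain ⟨x, hx⟩ := v.normalized.2.1
    have h1 : v.abv x ≤ 1 := by
      rw [← hB3, h]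
      trivial
    have h2 : v.abv x = qq v := hx
    rw [h2] at h1
    exact absurd h1 (not_le.2 (one_lt_qq' v))
  obtain ⟨W, hW⟩ := toPl_surjective (k := E) ⟨B, hBt⟩
  refine ⟨W, fun x => ?_⟩
  rw [← hB3, ← toPl_le_one, ← (toPl W).mem_iff, hW]

end

end Vale.Agent.P011.H973.PF
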