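import Vale.Agent.P011.H973.PlCls
import Vale.Agent.P011.H973.AbovePl
import Vale.Agent.P011.Arith.QuadAlg

/-!
# Places of a quadratic extension of a global function field of odd characteristic
-/

namespace Vale.Agent.P011.H973.PF

open Vale.Agent.P011.H738 Vale.Agent.P011.H271 Vale.Agent.P011.Arith

set_option linter.unusedSectionVars false

noncomputable section

/-! ### general facts -/

section gen

variable {F : Type} [Field F]

theorem natCast_le (v : Place F) (n : ℕ) : v.abv (n : F) ≤ 1 := by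
  induction n with
  | zero => rw [Nat.cast_zero, map_zero]; exact zero_le_one
  | succ n ih =>
    rw [Nat.cast_succ]
    exact (v.nonarch _ _).trans (max_le ih (by rw [map_one]))

theorem abv_add_lt (v : Place F) {x y : F} {c : ℝ} (hx : v.abv x < c) (hy : v.abv y < c) :
    v.abv (x + y) < c := (v.nonarch x y).trans_lt (max_lt hx hy)

theorem abv_sub_lt (v : Place F) {x y : F} {c : ℝ} (hx : v.abv x < c) (hy : v.abv y < c) :
    v.abv (x - y) < c := by
  rw [sub_eq_add_neg]
  exact abv_add_lt v hx (by rwa [v.abv.map_neg])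

theorem abv_add_le (v : Place F) {x y : F} {c : ℝ} (hx : v.abv x ≤ c) (hy : v.abv y ≤ c) :
    v.abv (x + y) ≤ c := (v.nonarch x y).trans (max_le hx hy)

theorem abv_sub_le' (v : Place F) {x y : F} {c : ℝ} (hx : v.abv x ≤ c) (hy : v.abv y ≤ c) :
    v.abv (x - y) ≤ c := by
  rw [sub_eq_add_neg]
  exact abv_add_le v hx (by rwa [v.abv.map_neg])

/-- close elements have the same absolute value -/
theorem abv_eq_of_sub_lt (v : Place F) {x y : F} (h : v.abv (x - y) < v.abv y) :
    v.abv x = v.abv y := by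
  apply le_antisymm
  · have e : x = (x - y) + y := by ring
    rw [e]
    exact abv_add_le v h.le le_rfl
  · by_contra hcon
    rw [not_le] at hcon
    have e : y = x - (x - y) := by ring
    have h1 := abv_sub_lt v hcon h
    rw [← e] at h1
    exact lt_irrefl _ h1

theorem ml_le_iff (v : Place F) {x : F} (hx : x ≠ 0) (n : ℤ) :
    ml v x ≤ n ↔ v.abv x ≤ (qq v : ℝ) ^ n := by
  rw [ml_spec v hx, zpow_le_zpow_iff_right₀ (one_lt_qq' v)]

theorem exists_ml (v : Place F) (n : ℤ) : ∃ z : F, z ≠ 0 ∧ ml v z = n := by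
  obtain ⟨x, hx⟩ := v.normalized.2.1
  have hx' : v.abv x = qq v := hx
  have hx0 : x ≠ 0 := by
    rintro rfl
    rw [map_zero] at hx'
    exact (qq_pos v).ne hx'
  refine ⟨x ^ n, zpow_ne_zero _ hx0, ml_unique v (zpow_ne_zero _ hx0) ?_⟩
  rw [map_zpow₀, hx']

theorem ml_inv' (v : Place F) {x : F} (hx : x ≠ 0) : ml v x⁻¹ = -ml v x := by
  refine ml_unique v (inv_ne_zero hx) ?_
  rw [map_inv₀, ml_spec v hx, zpow_neg]

theorem ml_mul' (v : Place F) {x y : F} (hx : x ≠ 0) (hy : y ≠ 0) :
    ml v (x * y) = ml v x + ml v y := by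
  refine ml_unique v (mul_ne_zero hx hy) ?_
  rw [map_mul, ml_spec v hx, ml_spec v hy, zpow_add₀ (qq_pos v).ne']

theorem ml_zpow (v : Place F) {x : F} (hx : x ≠ 0) (n : ℤ) : ml v (x ^ n) = n * ml v x := by
  refine ml_unique v (zpow_ne_zero _ hx) ?_
  rw [map_zpow₀, ml_spec v hx, ← zpow_mul, mul_comm]

theorem ml_zero_iff (v : Place F) {x : F} (hx : x ≠ 0) : ml v x = 0 ↔ v.abv x = 1 := by
  rw [ml_spec v hx, ← zpow_zero (qq v : ℝ)]
  exact (zpow_right_injective₀ (qq_pos v) (one_lt_qq' v).ne').eq_iff.symm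

theorem ml_neg_iff (v : Place F) {x : F} (hx : x ≠ 0) : ml v x < 0 ↔ v.abv x < 1 := by
  rw [ml_spec v hx, ← zpow_zero (qq v : ℝ), zpow_lt_zpow_iff_right₀ (one_lt_qq' v)]

variable [GFF F]

theorem abv_two' (h2 : (2 : F) ≠ 0) (v : Place F) : v.abv 2 = 1 := by
  have h1 : {x : F | ∀ v : Place F, v.abv x ≤ (fun _ : Place F => (1 : ℝ)) v}.Finite :=
    place_finite_le _ (by
      convert Set.finite_empty
      ext v
      simp)
  have hmem : ∀ m : ℕ, (2 : F) ^ m ∈ {x : F | ∀ v : Place F, v.abv x ≤ (fun _ : Place F => (1 : ℝ)) v} := by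
    intro m u
    have e : (2 : F) ^ m = ((2 ^ m : ℕ) : F) := by push_cast; rfl
    rw [e]
    exact natCast_le u _
  have := h1.to_subtype
  obtain ⟨i, j, hij, h⟩ := Finite.exists_ne_map_eq_of_infinite
    (fun m : ℕ => (⟨(2 : F) ^ m, hmem m⟩ :
      {x : F | ∀ v : Place F, v.abv x ≤ (fun _ : Place F => (1 : ℝ)) v}))
  have h3 : (2 : F) ^ i = 2 ^ j := congrArg Subtype.val h
  have h4 : v.abv 2 ^ i = v.abv 2 ^ j := by rw [← map_pow, ← map_pow, h3]
  by_contra hne
  exact hij ((pow_right_injective₀ (v.abv.pos h2) hne) h4)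

theorem place_isEquiv {v w : Place F} (h : v.abv.IsEquiv w.abv) : v = w := by
  refine place_ext' fun x => ?_
  have := h x 1
  rwa [map_one, map_one] at this

theorem place_nontriv (v : Place F) : v.abv.IsNontrivial := by
  obtain ⟨x, hx⟩ := v.normalized.2.1
  have hx' : v.abv x = qq v := hx
  refine ⟨x, ?_, ?_⟩
  · rintro rfl
    rw [map_zero] at hx'
    exact (qq_pos v).ne hx'
  · rw [hx']
    exact (one_lt_qq' v).ne'

/-- weak approximation -/
theorem weakP (T : Finset (Place F)) (x : Place F → F) {ε : ℝ} (hε : 0 < ε) :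
    ∃ y : F, ∀ v ∈ T, v.abv (y - x v) < ε := by
  have hd := AbsoluteValue.denseRange_algebraMap_pi (F := F)
    (v := fun v : T => (v : Place F).abv) (fun v => place_nontriv (v : Place F))
    (fun v w hvw h => hvw (Subtype.ext (place_isEquiv h)))
  obtain ⟨f, hf⟩ := (Metric.denseRange_iff.mp hd) (fun v : T => WithAbs.toAbs _ (x v)) ε hε
  refine ⟨f, fun v hv => ?_⟩
  rw [dist_pi_lt_iff hε] at hf
  have h1 := hf ⟨v, hv⟩
  rw [dist_comm, dist_eq_norm] at h1
  exact h1

end gen

/-! ### the conjugate place -/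

section conj

variable {F E : Type} [Field F] [Field E] [Algebra F E]

/-- the integers of the conjugate place -/
def conjInt (σ : E ≃ₐ[F] E) (a b : AbsoluteValue E ℝ) (ha : ∀ x y, a (x + y) ≤ max (a x) (a y))
    (hb : ∀ x y, b (x + y) ≤ max (b x) (b y)) (h : ∀ x, b x = a (σ x)) :
    integers b hb ≃+* integers a ha where
  toFun x := ⟨σ x, by
    have : b (x : E) ≤ 1 := x.2
    rw [h] at this
    exact this⟩
  invFun x := ⟨σ.symm x, by
    have h1 : a (x : E) ≤ 1 := x.2
    change b _ ≤ 1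
    rw [h, AlgEquiv.apply_symm_apply]
    exact h1⟩
  left_inv x := Subtype.ext (σ.symm_apply_apply _)
  right_inv x := Subtype.ext (σ.apply_symm_apply _)
  map_mul' x y := Subtype.ext (map_mul σ _ _)
  map_add' x y := Subtype.ext (map_add σ _ _)

/-- the conjugate of a place -/
def conjP (σ : E ≃ₐ[F] E) (W : Place E) : Place E where
  abv := W.abv.comp (f := (σ : E →+* E)) σ.injective
  nonarch x y := by
    change W.abv (σ (x + y)) ≤ max (W.abv (σ x)) (W.abv (σ y))
    rw [map_add]
    exact W.nonarch _ _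
  normalized := by
    have hna : ∀ x y, (W.abv.comp (f := (σ : E →+* E)) σ.injective) (x + y) ≤
        max ((W.abv.comp (f := (σ : E →+* E)) σ.injective) x)
          ((W.abv.comp (f := (σ : E →+* E)) σ.injective) y) := by
      intro x y
      change W.abv (σ (x + y)) ≤ max (W.abv (σ x)) (W.abv (σ y))
      rw [map_add]
      exact W.nonarch _ _
    have hq : Nat.card (integers (W.abv.comp (f := (σ : E →+* E)) σ.injective) hna ⧸
        maxIdeal (W.abv.comp (f := (σ : E →+* E)) σ.injective) hna) =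
        Nat.card (integers W.abv W.nonarch ⧸ maxIdeal W.abv W.nonarch) :=
      card_quot_eq (conjInt σ W.abv _ W.nonarch hna fun x => rfl) _ _ fun x => Iff.rfl
    refine ⟨?_, ?_, ?_⟩
    · refine Nat.finite_of_card_ne_zero ?_
      rw [hq]
      exact (lt_trans one_pos (one_lt_qq W)).ne'
    · obtain ⟨x, hx⟩ := W.normalized.2.1
      refine ⟨σ.symm x, ?_⟩
      rw [hq, ← hx]
      change W.abv (σ (σ.symm x)) = _
      rw [AlgEquiv.apply_symm_apply]
    · intro x hx
      obtain ⟨m, hm⟩ := W.normalized.2.2 (σ x) ((map_ne_zero σ).2 hx)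
      refine ⟨m, ?_⟩
      rw [hq, ← hm]
      rfl

theorem conjP_abv (σ : E ≃ₐ[F] E) (W : Place E) (x : E) : (conjP σ W).abv x = W.abv (σ x) := rfl

theorem conjP_qq (σ : E ≃ₐ[F] E) (W : Place E) : qq (conjP σ W) = qq W :=
  card_quot_eq (conjInt σ W.abv _ W.nonarch _ fun x => rfl) _ _ fun x => Iff.rfl

theorem conjP_ml (σ : E ≃ₐ[F] E) (W : Place E) {x : E} (hx : x ≠ 0) :
    ml (conjP σ W) x = ml W (σ x) := by
  refine ml_unique _ hx ?_
  rw [conjP_abv, conjP_qq, ml_spec W ((map_ne_zero σ).2 hx)]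

theorem conjP_av (σ : E ≃ₐ[F] E) (W : Place E) (v : Place F) : Av' (conjP σ W) v ↔ Av' W v := by
  refine forall_congr' fun x => ?_
  rw [conjP_abv, AlgEquiv.commutes]

end conj

/-! ### the exponent of ramification -/

section ram

variable {F E : Type} [Field F] [Field E] [Algebra F E] {W : Place E} {v : Place F}

theorem exists_ram (h : Av' W v) : ∃ e : ℕ, e ≠ 0 ∧ ∀ x : F, x ≠ 0 →
    ml W (algebraMap F E x) = e * ml v x := by
  obtain ⟨t, ht0, ht⟩ := exists_ml v (-1)
  have htE : algebraMap F E t ≠ 0 := (map_ne_zero _).2 ht0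
  have h1 : ml W (algebraMap F E t) < 0 := by
    rw [ml_neg_iff W htE, h.lt_one, ← ml_neg_iff v ht0, ht]
    norm_num
  refine ⟨(ml W (algebraMap F E t)).natAbs, by omega, fun x hx => ?_⟩
  have hxE : algebraMap F E x ≠ 0 := (map_ne_zero _).2 hx
  have h2 : ml v (x * t ^ ml v x) = 0 := by
    rw [ml_mul' v hx (zpow_ne_zero _ ht0), ml_zpow v ht0, ht]
    ring
  rw [ml_zero_iff v (mul_ne_zero hx (zpow_ne_zero _ ht0)), ← h.eq_one,
    ← ml_zero_iff W ((map_ne_zero _).2 (mul_ne_zero hx (zpow_ne_zero _ ht0))), map_mul, map_zpow₀,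
    ml_mul' W hxE (zpow_ne_zero _ htE), ml_zpow W htE] at h2
  have h3 : ((ml W (algebraMap F E t)).natAbs : ℤ) = -ml W (algebraMap F E t) := by omega
  rw [h3]
  linear_combination h2

end ram

/-! ### quadratic extensions -/

section quad

variable {F E : Type} [Field F] [GFF F] [Field E] [GFF E] [Algebra F E]
  {a : Fˣ} {θ : E} {σ : E ≃ₐ[F] E}

theorem conj_conjP (Q : QD a θ σ) (W : Place E) : conjP σ (conjP σ W) = W := by
  refine place_ext' fun x => ?_
  rw [conjP_abv, conjP_abv, Q.conj_conj]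

theorem norm_mem' (Q : QD a θ σ) (z : E) : ∃ x : F, z * σ z = algebraMap F E x := by
  obtain ⟨p, q, rfl⟩ := coords Q.h2 Q.sq Q.ns z
  exact ⟨_, Q.norm_coords p q⟩

/-- the places above a place are conjugate -/
theorem conj_trans (Q : QD a θ σ) {W W' : Place E} {v : Place F} (h : Av' W v) (h' : Av' W' v) :
    W' = W ∨ W' = conjP σ W := by
  classical
  by_contra hcon
  rw [not_or] at hcon
  obtain ⟨h1, h2⟩ := hcon
  have h3 : conjP σ W' ≠ W := by
    intro h3
    apply h2
    rw [← h3, conj_conjP Q]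
  have h4 : conjP σ W' ≠ conjP σ W := by
    intro h4
    apply h1
    rw [← conj_conjP Q W', h4, conj_conjP Q]
  obtain ⟨y, hy⟩ := weakP {W, conjP σ W, W', conjP σ W'}
    (fun P => if P = W' ∨ P = conjP σ W' then (1 : E) else 0) one_pos
  have y1 : W.abv y < 1 := by
    have := hy W (by simp)
    rwa [if_neg (by
      rintro (h6 | h6)
      · exact h1 h6.symm
      · exact h3 h6.symm), sub_zero] at this
  have y2 : W.abv (σ y) < 1 := by
    have := hy (conjP σ W) (by simp)
    rwa [if_neg (by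
      rintro (h6 | h6)
      · exact h2 h6.symm
      · exact h4 h6.symm), sub_zero] at this
  have y3 : W'.abv y = 1 := by
    have := hy W' (by simp)
    rw [if_pos (Or.inl rfl)] at this
    have h5 := abv_eq_of_sub_lt W' (x := y) (y := 1) (by rwa [map_one])
    rwa [map_one] at h5
  have y4 : W'.abv (σ y) = 1 := by
    have := hy (conjP σ W') (by simp)
    rw [if_pos (Or.inr rfl)] at this
    have h5 := abv_eq_of_sub_lt (conjP σ W') (x := y) (y := 1) (by rwa [map_one])
    rwa [map_one] at h5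
  obtain ⟨z, hz⟩ := norm_mem' Q y
  have h5 : W.abv (algebraMap F E z) < 1 := by
    rw [← hz, map_mul]
    exact mul_lt_one_of_nonneg_of_lt_one_left (W.abv.nonneg _) y1 y2.le
  have h6 : W'.abv (algebraMap F E z) = 1 := by rw [← hz, map_mul, y3, y4, one_mul]
  rw [h.lt_one] at h5
  rw [h'.eq_one] at h6
  exact absurd h6 h5.ne

/-- **unramified places** -/
theorem ml_unram (Q : QD a θ σ) (h2 : (2 : F) ≠ 0) {W : Place E} {v : Place F} (h : Av' W v)
    (ha : v.abv (a : F) = 1) {x : F} (hx : x ≠ 0) : ml W (algebraMap F E x) = ml v x := by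
  classical
  obtain ⟨e, he, hv⟩ := exists_ram h
  suffices e = 1 by rw [hv x hx, this, Nat.cast_one, one_mul]
  have h2E : (2 : E) ≠ 0 := by
    rw [← map_ofNat (algebraMap F E) 2]
    exact (map_ne_zero _).2 h2
  have hW2 : W.abv 2 = 1 := abv_two' h2E W
  have hWθ : W.abv θ = 1 := by
    have h3 : W.abv (θ ^ 2) = 1 := by rw [Q.sq, h.eq_one, ha]
    rw [map_pow] at h3
    exact (pow_eq_one_iff_of_nonneg (W.abv.nonneg _) two_ne_zero).1 h3
  by_cases hU : conjP σ W = W
  · obtain ⟨ϖ, hϖ0, hϖ⟩ := exists_ml W (-1)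
    obtain ⟨p, q, hpq⟩ := coords Q.h2 Q.sq Q.ns ϖ
    have hb1 : W.abv ϖ ≤ (qq W : ℝ) ^ (-1 : ℤ) := (ml_le_iff W hϖ0 _).1 hϖ.le
    have hb2 : W.abv (σ ϖ) ≤ (qq W : ℝ) ^ (-1 : ℤ) := by
      rw [← conjP_abv, hU]
      exact hb1
    have hp : W.abv (algebraMap F E p) ≤ (qq W : ℝ) ^ (-1 : ℤ) := by
      have h3 : ϖ + σ ϖ = 2 * algebraMap F E p := by
        rw [hpq, Q.conj_coords]; ring
      have h4 := abv_add_le W hb1 hb2
      rwa [h3, map_mul, hW2, one_mul] at h4
    have hq : W.abv (algebraMap F E q) ≤ (qq W : ℝ) ^ (-1 : ℤ) := by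
      have h3 : ϖ - σ ϖ = 2 * algebraMap F E q * θ := by
        rw [hpq, Q.conj_coords]; ring
      have h4 := abv_sub_le' W hb1 hb2
      rwa [h3, map_mul, map_mul, hW2, one_mul, hWθ, mul_one] at h4
    have key : ∀ p : F, W.abv (algebraMap F E p) ≤ (qq W : ℝ) ^ (-1 : ℤ) →
        W.abv (algebraMap F E p) ≤ (qq W : ℝ) ^ (-(e : ℤ)) := by
      intro p hp
      by_cases hp0 : p = 0
      · subst hp0
        rw [map_zero, map_zero]
        exact (zpow_pos (qq_pos W) _).le
      have hpE : algebraMap F E p ≠ 0 := (map_ne_zero _).2 hp0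
      rw [← ml_le_iff W hpE, hv p hp0] at hp ⊢
      have hk0 : ml v p < 0 := by
        by_contra hk0
        push Not at hk0
        have : 0 ≤ (e : ℤ) * ml v p := by positivity
        omega
      nlinarith
    have hfin : W.abv ϖ ≤ (qq W : ℝ) ^ (-(e : ℤ)) := by
      rw [hpq]
      refine abv_add_le W (key p hp) ?_
      rw [map_mul, hWθ, mul_one]
      exact key q hq
    rw [← ml_le_iff W hϖ0, hϖ] at hfin
    omega
  · obtain ⟨ϖ, hϖ0, hϖ⟩ := exists_ml W (-1)
    have hqpos : (0 : ℝ) < (qq W : ℝ) ^ (-1 : ℤ) := zpow_pos (qq_pos W) _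
    have hq1 : (qq W : ℝ) ^ (-1 : ℤ) < 1 := zpow_lt_one_of_neg₀ (one_lt_qq' W) (by norm_num)
    have hϖa : W.abv ϖ = (qq W : ℝ) ^ (-1 : ℤ) := by rw [ml_spec W hϖ0, hϖ]
    obtain ⟨y, hy⟩ := weakP {W, conjP σ W} (fun P => if P = W then ϖ else 1) hqpos
    have y1 : W.abv y = (qq W : ℝ) ^ (-1 : ℤ) := by
      have h3 := hy W (by simp)
      rw [if_pos rfl] at h3
      rw [← hϖa]
      exact abv_eq_of_sub_lt W (by rwa [hϖa])
    have y2 : W.abv (σ y) = 1 := by
      have h3 := hy (conjP σ W) (by simp)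
      rw [if_neg hU] at h3
      have h4 := abv_eq_of_sub_lt (conjP σ W) (x := y) (y := 1) (by
        rw [map_one]
        exact h3.trans hq1)
      rwa [map_one] at h4
    have hy0 : y ≠ 0 := by
      rintro rfl
      rw [map_zero] at y1
      exact hqpos.ne y1
    obtain ⟨z, hz⟩ := norm_mem' Q y
    have hz0 : z ≠ 0 := by
      rintro rfl
      rw [map_zero] at hz
      exact (mul_ne_zero hy0 ((map_ne_zero σ).2 hy0)) hz
    have h5 : ml W (algebraMap F E z) = -1 := by
      refine ml_unique W ((map_ne_zero _).2 hz0) ?_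
      rw [← hz, map_mul, y1, y2, mul_one]
    rw [hv z hz0] at h5
    have h6 : (e : ℤ) ∣ 1 := ⟨-ml v z, by linarith⟩
    have h7 := Int.eq_one_of_dvd_one (by positivity) h6
    exact_mod_cast h7

/-- local squares, formulated inside the field -/
def SqN (v : Place F) (b : F) : Prop := ∃ y : F, y ≠ 0 ∧ v.abv (b / y ^ 2 - 1) < 1

/-- **the splitting of places** -/
theorem split_iffP (Q : QD a θ σ) (h2 : (2 : F) ≠ 0) {W : Place E} {v : Place F} (h : Av' W v) :
    SqN v (a : F) ↔ conjP σ W ≠ W := by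
  classical
  have h2E : (2 : E) ≠ 0 := by
    rw [← map_ofNat (algebraMap F E) 2]
    exact (map_ne_zero _).2 h2
  have ha0 : (a : F) ≠ 0 := a.ne_zero
  have hW2 : W.abv 2 = 1 := abv_two' h2E W
  constructor
  · rintro ⟨y, hy0, hy⟩ hU
    have hyE : algebraMap F E y ≠ 0 := (map_ne_zero _).2 hy0
    set e0 : F := ((a : F) / y ^ 2 - 1) / 4 with he0
    have h4 : v.abv 4 = 1 := by
      rw [show (4 : F) = 2 * 2 by norm_num, map_mul, abv_two' h2 v, one_mul]
    have h40 : (4 : F) ≠ 0 := by
      rw [show (4 : F) = 2 * 2 by norm_num]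
      exact mul_ne_zero h2 h2
    have h40E : (4 : E) ≠ 0 := by
      rw [show (4 : E) = 2 * 2 by norm_num]
      exact mul_ne_zero h2E h2E
    have hv0 : v.abv e0 < 1 := by
      rw [he0, map_div₀, h4, div_one]
      exact hy
    set z : E := (θ / algebraMap F E y - 1) / 2 with hz
    have hσz : σ z = (-θ / algebraMap F E y - 1) / 2 := by
      rw [hz, map_div₀, map_sub, map_div₀, Q.conj, σ.commutes, map_one, map_ofNat]
    have hmul : z * σ z = -algebraMap F E e0 := by
      rw [hσz, hz, he0]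
      simp only [map_div₀, map_sub, map_pow, map_one, map_ofNat, ← Q.sq]
      field_simp
      ring
    have hadd : z + σ z = -1 := by
      rw [hσz, hz]
      field_simp
      ring
    have hσ : W.abv (σ z) = W.abv z := by rw [← conjP_abv, hU]
    have h1 : W.abv z * W.abv z < 1 := by
      have : W.abv z * W.abv z = W.abv (z * σ z) := by rw [map_mul, hσ]
      rw [this, hmul, W.abv.map_neg, h.lt_one]
      exact hv0
    have h3 : W.abv z < 1 := by
      by_contra hcon
      push Not at hcon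
      exact absurd h1 (not_lt.mpr (one_le_mul_of_one_le_of_one_le hcon hcon))
    have h5 := abv_add_lt W h3 (by rw [hσ]; exact h3 : W.abv (σ z) < 1)
    rw [hadd, W.abv.map_neg, map_one] at h5
    exact lt_irrefl _ h5
  · intro hU
    have hθ0 : θ ≠ 0 := Q.theta_ne
    have hθp : 0 < W.abv θ := W.abv.pos hθ0
    obtain ⟨t, ht⟩ := weakP {W, conjP σ W} (fun P => if P = W then θ else 0) hθp
    have t1 : W.abv (t - θ) < W.abv θ := by
      have := ht W (by simp)
      rwa [if_pos rfl] at this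
    have t2 : W.abv (σ t) < W.abv θ := by
      have := ht (conjP σ W) (by simp)
      rwa [if_neg hU, sub_zero] at this
    obtain ⟨p, q, rfl⟩ := coords Q.h2 Q.sq Q.ns t
    set y : F := 2 * p with hy
    have h1 : W.abv (algebraMap F E y - θ) < W.abv θ := by
      have e1 : algebraMap F E y - θ = (algebraMap F E p + algebraMap F E q * θ - θ) +
          σ (algebraMap F E p + algebraMap F E q * θ) := by
        rw [Q.conj_coords, hy, map_mul, map_ofNat]; ring
      rw [e1]
      exact abv_add_lt W t1 t2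
    have hyθ : W.abv (algebraMap F E y) = W.abv θ := abv_eq_of_sub_lt W h1
    have hy0 : y ≠ 0 := by
      intro h0
      rw [h0, map_zero, map_zero] at hyθ
      exact hθp.ne hyθ
    have hyE : algebraMap F E y ≠ 0 := (map_ne_zero _).2 hy0
    refine ⟨y, hy0, ?_⟩
    rw [← h.lt_one]
    have e1 : algebraMap F E ((a : F) / y ^ 2 - 1) =
        (θ - algebraMap F E y) * (θ + algebraMap F E y) / algebraMap F E y ^ 2 := by
      rw [map_sub, map_div₀, map_pow, map_one, ← Q.sq]
      field_simp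
      ring
    have h3 : W.abv (θ + algebraMap F E y) ≤ W.abv θ := abv_add_le W le_rfl hyθ.le
    have h4 : W.abv (θ - algebraMap F E y) < W.abv θ := by
      rw [← W.abv.map_neg, neg_sub]
      exact h1
    rw [e1, map_div₀, map_mul, map_pow, hyθ, div_lt_one (by positivity), pow_two]
    calc _ ≤ W.abv (θ - algebraMap F E y) * W.abv θ :=
          mul_le_mul_of_nonneg_left h3 (W.abv.nonneg _)
      _ < W.abv θ * W.abv θ := mul_lt_mul_of_pos_right h4 hθp

theorem above_eq (Q : QD a θ σ) {W : Place E} {v : Place F} (h : Av' W v) :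
    {W' : Place E | Av' W' v} = {W, conjP σ W} := by
  ext W'
  simp only [Set.mem_ofPred_eq, Set.mem_insert_iff, Set.mem_singleton_iff]
  constructor
  · exact fun h' => conj_trans Q h h'
  · rintro (rfl | rfl)
    · exact h
    · exact (conjP_av σ W v).2 h

theorem above_fin (Q : QD a θ σ) (v : Place F) : {W' : Place E | Av' W' v}.Finite := by
  obtain ⟨W, hW⟩ := exists_aboveF (E := E) v
  rw [above_eq Q hW]
  exact Set.toFinite _

/-- the number of places above a place -/
theorem card_aboveP (Q : QD a θ σ) (h2 : (2 : F) ≠ 0) (v : Place F) :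
    {W : Place E | Av' W v}.ncard + ({v' | v' = v ∧ ¬ SqN v' (a : F)} : Set (Place F)).ncard = 2 := by
  classical
  obtain ⟨W, hW⟩ := exists_aboveF (E := E) v
  rw [above_eq Q hW]
  have h := split_iffP Q h2 hW
  by_cases hs : SqN v (a : F)
  · have h1 : ({v' | v' = v ∧ ¬ SqN v' (a : F)} : Set (Place F)) = ∅ := by
      ext v'
      simp only [Set.mem_ofPred_eq, Set.mem_empty_iff_false, iff_false]
      rintro ⟨rfl, h3⟩
      exact h3 hs
    rw [h1, Set.ncard_empty, Set.ncard_pair (h.1 hs).symm]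
  · have h1 : ({v' | v' = v ∧ ¬ SqN v' (a : F)} : Set (Place F)) = {v} := by
      ext v'
      simp only [Set.mem_ofPred_eq, Set.mem_singleton_iff]
      constructor
      · exact fun h3 => h3.1
      · rintro rfl
        exact ⟨rfl, hs⟩
    have h3 : conjP σ W = W := by
      by_contra h3
      exact hs (h.2 h3)
    rw [h1, h3, Set.ncard_singleton, Set.pair_eq_singleton, Set.ncard_singleton]

/-- the places above a set -/
def ovP (E : Type) [Field E] [Algebra F E] (S : Set (Place F)) : Set (Place E) :=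
  {W | ∃ v ∈ S, Av' W v}

theorem mem_ovP_iff {S : Set (Place F)} {W : Place E} {v : Place F} (h : Av' W v) :
    W ∈ ovP E S ↔ v ∈ S := by
  constructor
  · rintro ⟨v', hv', h'⟩
    rwa [h.unique h']
  · exact fun hv => ⟨v, hv, h⟩

theorem ovP_finite (Q : QD a θ σ) {S : Set (Place F)} (hS : S.Finite) : (ovP E S).Finite := by
  have : ovP E S = ⋃ v ∈ S, {W : Place E | Av' W v} := by
    ext W
    simp [ovP]
  rw [this]
  exact hS.biUnion fun v _ => above_fin Q v

/-- the number of places above a finite set -/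
theorem card_ovP (Q : QD a θ σ) (h2 : (2 : F) ≠ 0) {S : Set (Place F)} (hS : S.Finite) :
    (ovP E S).ncard + {v | v ∈ S ∧ ¬ SqN v (a : F)}.ncard = 2 * S.ncard := by
  classical
  induction S, hS using Set.Finite.induction_on with
  | empty =>
    have h1 : ovP E (∅ : Set (Place F)) = ∅ := by
      ext W
      simp [ovP]
    rw [h1]
    simp
  | @insert v S hv hS ih =>
    have h1 : ovP E (insert v S) = {W : Place E | Av' W v} ∪ ovP E S := by
      ext W
      simp only [ovP, Set.mem_ofPred_eq, Set.mem_union, Set.mem_insert_iff]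
      constructor
      · rintro ⟨v', rfl | hv', h⟩
        · exact Or.inl h
        · exact Or.inr ⟨v', hv', h⟩
      · rintro (h | ⟨v', hv', h⟩)
        · exact ⟨v, Or.inl rfl, h⟩
        · exact ⟨v', Or.inr hv', h⟩
    have h3 : {v' | v' ∈ insert v S ∧ ¬ SqN v' (a : F)} =
        {v' | v' = v ∧ ¬ SqN v' (a : F)} ∪ {v' | v' ∈ S ∧ ¬ SqN v' (a : F)} := by
      ext v'
      simp only [Set.mem_ofPred_eq, Set.mem_union, Set.mem_insert_iff]
      tauto
    have hd1 : Disjoint {W : Place E | Av' W v} (ovP E S) := by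
      rw [Set.disjoint_left]
      intro W hW hW'
      exact hv ((mem_ovP_iff hW).1 hW')
    have hd2 : Disjoint {v' | v' = v ∧ ¬ SqN v' (a : F)} {v' | v' ∈ S ∧ ¬ SqN v' (a : F)} := by
      rw [Set.disjoint_left]
      rintro v' ⟨rfl, _⟩ ⟨h, _⟩
      exact hv h
    have hf1 : ({v' | v' = v ∧ ¬ SqN v' (a : F)} : Set (Place F)).Finite :=
      (Set.finite_singleton v).subset fun v' h => h.1
    rw [h1, h3, Set.ncard_union_eq hd1 (above_fin Q v) (ovP_finite Q hS),
      Set.ncard_union_eq hd2 hf1 (hS.subset fun v' h => h.1), Set.ncard_insert_of_notMem hv hS]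
    have := card_aboveP (E := E) Q h2 v
    omega

end quad

end

end Vale.Agent.P011.H973.PF
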