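import Vale.Agent.P011.H973.LowRing
import Vale.Agent.P011.H74.LowFF
import Vale.Agent.P011.H74.GTop
import Vale.Agent.P011.H74.CocK
import Vale.Agent.P011.H738.ProsolvFF
import Vale.Agent.P011.H698.DensFF
import Vale.Agent.P011.H380.UpFF

/-!
# Lower bound of the mass of open sets, function fields

`low_ff` : **(LOW)** for the points `iotaU B (KSF S) y`, `y` in `UA A`, every anisotropic ring `A`
with involution of the second kind, every characteristic.
-/

set_option autoImplicit false
set_option linter.unusedSectionVars false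

open MeasureTheory Filter Topology Set Module
open scoped ENNReal NNReal Pointwise

namespace Vale.Agent.P011.H973

open Vale.Agent.P011.H74 Vale.Agent.P011.H698 Vale.Agent.P011.H738 Vale.Agent.P011.H271
  Vale.Agent.P011.H380.UpBC

section dens

variable {k : Type} [Field k]

theorem infinite_of_place (v : Place k) : Infinite k := by
  obtain ⟨x, hx⟩ := v.normalized.2.1
  have hx' : v.abv x = qq v := hx
  have h1 : 1 < v.abv x := by
    rw [hx']
    exact one_lt_qq' v
  refine Infinite.of_injective (fun n : ℕ => x ^ n) fun m n h => ?_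
  have h2 := congrArg v.abv h
  simp only [map_pow] at h2
  exact (pow_right_injective₀ (zero_lt_one.trans h1) h1.ne') h2

/-- **Weak approximation.** -/
theorem denseRange_KSF (S : Finset (Place k)) : DenseRange (algebraMap k (KSF S)) := by
  classical
  intro r
  rw [Metric.mem_closure_iff]
  intro ε hε
  obtain ⟨a, ha⟩ := place_weak S r (η := ε / 2) (half_pos hε)
  refine ⟨_, ⟨a, rfl⟩, lt_of_le_of_lt ?_ (half_lt_self hε)⟩
  refine (dist_pi_le_iff (half_pos hε).le).2 fun v => ?_
  rw [dist_comm, dist_eq_norm]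
  exact (ha v).le

end dens

section ff

variable {k K A : Type} [Field k] [GFF k] [Field K] [StarRing K] [Ring A] [StarRing A]
  [Algebra k K] [Algebra k A] [Algebra K A] [IsScalarTower k K A] [StarModule K A] {n N : ℕ}

/-- **(LOW) for function fields.** -/
theorem low_ff [StarLinR k A] (hA : Anis k K A n) (hn : n ≠ 0) (B : Basis (Fin N) k A) :
    ∃ S₀ : Finset (Place k), ∀ S : Finset (Place k), S₀ ⊆ S → S.Nonempty →
      ∀ (x0 : UA A) (V : Set (unitary (BR B (KSF S)))), IsOpen V → iotaU B (KSF S) x0 ∈ V →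
      ∃ c : ℝ, 0 < c ∧ ∀ᶠ x : ℝ in 𝓝[>] 1, ∃ F : Finset (UA A),
        (∀ y ∈ F, iotaU B (KSF S) y ∈ V) ∧
        c ≤ ∑ y ∈ F, (x - 1) * (H699.den (ordO B (OSF S)) ((y : Aˣ) : A) : ℝ) ^ (-x) := by
  obtain ⟨S₀, hS₀⟩ := exists_low_FF hA hn B
  refine ⟨S₀, fun S hS hSne x0 V hV hxV => ?_⟩
  obtain ⟨c, hc, hev⟩ := hS₀ S hS
  have hlow : LowIn (ordO B (OSF S)) := ⟨c, hc, hev.mono fun x ⟨T, h1, h2, _, h4⟩ =>
    ⟨T, h1, h2, h4⟩⟩
  obtain ⟨w, hw⟩ := hA.star_ne
  have hK : Module.Finite K A := Anis.finiteDimensional hA hn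
  have hinf : Infinite k := infinite_of_place hSne.choose
  have hnt : Nontrivial (KSF S) := KSF_nontrivial hSne
  have hfix : ∀ c : k, star (algebraMap k K c) = algebraMap k K c := fun c =>
    (hA.fixed _).2 ⟨c, rfl⟩
  have hck : Countable k := countable_GFF k
  have hcA : Countable A := B.equivFun.toEquiv.countable_iff.2 inferInstance
  have hcL : Countable (ordO B (OSF S)) := inferInstance
  have hstA : star (algebraMap K A w) = algebraMap K A (star w) := by
    rw [Algebra.algebraMap_eq_smul_one, Algebra.algebraMap_eq_smul_one, star_smul, star_one]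
  have hwu : IsUnit (algebraMap K A w - star (algebraMap K A w)) := by
    rw [hstA, ← map_sub]
    exact (IsUnit.mk0 _ (sub_ne_zero.2 (Ne.symm hw))).map (algebraMap K A)
  obtain ⟨d, -, hden⟩ := exists_denR B (OSF S) (OSF_den hSne)
  exact Rg.low_points (bcrT B (KSF S)) (good_KSF hSne) (denseRange_KSF S)
    (isOrdR_ordO B hden).1 (w0 := algebraMap K A w) (fun x => Algebra.commutes w x) hwu
    hA.anisotropic hlow (fun y : UA A => ((y : Aˣ) : A))
    (fun y h1 h2 => ⟨⟨⟨y, star y, h2, h1⟩, h2⟩, rfl⟩) (fun y => iotaU B (KSF S) y)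
    (fun y => rfl) (p0 := x0) (ua_mul_star x0) (Rg.exists_twist hfix hw _) hV hxV

end ff

end Vale.Agent.P011.H973
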