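import Vale.Agent.P011.H973.GoodPrime
import Vale.Agent.P011.H973.EulerLow
import Vale.Agent.P011.H228.EulerFF
import Vale.Agent.P011.H699.Den

/-!
# Lower bound of the height zeta function of the symmetric elements
-/

set_option autoImplicit false
set_option linter.unusedSectionVars false

open IsDedekindDomain Filter Topology

universe u

namespace Vale.Agent.P011.H973

/-- Euler products over the degree one primes (outside any finite set) are at least `c / (s - 1)`.
It holds for rings of integers (`hasEuler_ringOfIntegers`) and for finite free Dedekind extensions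
of `F[X]`, `F` a finite field (`hasEuler_ff`). -/
def HasEuler (R : Type*) [CommRing R] [IsDedekindDomain R] : Prop :=
  ∀ B : Set (HeightOneSpectrum R), B.Finite → ∃ c : ℝ, 0 < c ∧ ∀ᶠ s : ℝ in 𝓝[>] 1,
    ∃ V : Finset (HeightOneSpectrum R), (∀ v ∈ V, v ∉ B ∧ Finite (R ⧸ v.asIdeal)) ∧
      c / (s - 1) ≤ ∏ v ∈ V, (1 + (1 - 1 / (Nat.card (R ⧸ v.asIdeal) : ℝ)) *
        (Nat.card (R ⧸ v.asIdeal) : ℝ) ^ (-s))

theorem hasEuler_ringOfIntegers (k : Type*) [Field k] [NumberField k] :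
    HasEuler (NumberField.RingOfIntegers k) := by
  intro B hB
  obtain ⟨c, hc, h⟩ := exists_finset_prod k hB
  refine ⟨c, hc, ?_⟩
  filter_upwards [h] with s hs
  obtain ⟨V, hV, hVs⟩ := hs
  refine ⟨V, fun v hv => ⟨(hV v hv).1, ?_⟩, hVs⟩
  exact Ideal.finiteQuotientOfFreeOfNeBot _ v.ne_bot

theorem hasEuler_ff (F : Type*) [Field F] [Finite F] (S : Type*) [CommRing S] [IsDedekindDomain S]
    [Algebra (Polynomial F) S] [Module.Finite (Polynomial F) S] [Module.Free (Polynomial F) S] :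
    HasEuler S := by
  classical
  have hfin := H228.hasFiniteQuotients F S
  intro B hB
  obtain ⟨c, hc, h⟩ := H228.euler_ff F (hB.toFinset.image fun v : HeightOneSpectrum S => v.asIdeal)
  refine ⟨c, hc, ?_⟩
  have h1 : Set.Ioc (1 : ℝ) 2 ∈ 𝓝[>] (1 : ℝ) := Ioc_mem_nhdsGT (by norm_num)
  filter_upwards [h1] with s hs
  obtain ⟨T, hT, hTs⟩ := h s hs.1 hs.2
  let e : {P // P ∈ T} → HeightOneSpectrum S := fun P => ⟨P.1, (hT P.1 P.2).1, (hT P.1 P.2).2.1⟩
  have he : Function.Injective e := by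
    intro P Q h
    exact Subtype.ext (congrArg HeightOneSpectrum.asIdeal h)
  refine ⟨Finset.univ.image e, ?_, ?_⟩
  · intro v hv
    obtain ⟨P, -, rfl⟩ := Finset.mem_image.1 hv
    refine ⟨fun h => (hT P.1 P.2).2.2 ?_, hfin.finiteQuotient (hT P.1 P.2).2.1⟩
    exact Finset.mem_image.2 ⟨e P, by simpa using h, rfl⟩
  · rw [Finset.prod_image (fun x _ y _ h => he h)]
    refine hTs.trans (le_of_eq ?_)
    rw [← Finset.prod_attach T]
    refine Finset.prod_congr rfl fun P _ => ?_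
    rw [mul_comm]

section Main

variable {R k K : Type*} {D : Type u} [CommRing R] [IsDedekindDomain R] [Field k] [Algebra R k]
  [IsFractionRing R k] [Field K] [Ring D] [StarRing D] [Algebra k K] [Algebra k D] [Algebra K D]
  [IsScalarTower k K D] [Algebra R D] [IsScalarTower R k D]

theorem den_eq (O : Subring D) (s : D) : den O.toAddSubgroup s = H699.den O s := by
  unfold den H699.den
  have : H699.colon O s = O.toAddSubgroup.comap (AddMonoidHom.mulLeft s) ⊓ O.toAddSubgroup := by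
    ext x
    rw [H699.mem_colon, AddSubgroup.mem_inf]
    exact and_comm
  rw [this, AddSubgroup.inf_relIndex_right]

/-- the local factor -/
theorem local_factor {A : Type*} [Ring A] [StarRing A] [Finite A] {q n : ℕ} (hq : 2 ≤ q)
    (hn : n ≠ 0) (h : q ^ (2 * n - 2) * (q - 1) ≤
      Nat.card {e : A // star e = e ∧ rkc e = q ^ (2 * n)}) (x : ℝ) [Fintype {e : A // star e = e}] :
    1 + (1 - 1 / (q : ℝ)) * (q : ℝ) ^ (-(1 + 2 * n * (x - 1))) ≤
      ∑ e : {e : A // star e = e}, (rkc e.1 : ℝ) ^ (-x) := by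
  classical
  have hq0 : (0 : ℝ) < q := by positivity
  have h0 : rkc (0 : A) = 1 := by
    unfold rkc
    simp
  set z : {e : A // star e = e} := ⟨0, star_zero A⟩ with hz
  have hsub : insert z (Finset.univ.filter fun e : {e : A // star e = e} => rkc e.1 = q ^ (2 * n)) ⊆
      Finset.univ := Finset.subset_univ _
  have hzn : z ∉ Finset.univ.filter fun e : {e : A // star e = e} => rkc e.1 = q ^ (2 * n) := by
    rw [Finset.mem_filter, not_and]
    intro _
    rw [hz]
    show rkc (0 : A) ≠ _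
    rw [h0]
    exact (Nat.one_lt_pow (by omega) (by omega)).ne
  refine le_trans ?_ (Finset.sum_le_sum_of_subset_of_nonneg hsub fun e _ _ => by positivity)
  rw [Finset.sum_insert hzn]
  have hz1 : (rkc z.1 : ℝ) ^ (-x) = 1 := by
    rw [hz]
    show (rkc (0 : A) : ℝ) ^ (-x) = 1
    rw [h0, Nat.cast_one, Real.one_rpow]
  rw [hz1]
  refine add_le_add le_rfl ?_
  have h2 : ∑ e ∈ Finset.univ.filter (fun e : {e : A // star e = e} => rkc e.1 = q ^ (2 * n)),
      (rkc e.1 : ℝ) ^ (-x) = (Nat.card {e : A // star e = e ∧ rkc e = q ^ (2 * n)} : ℝ) *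
        ((q ^ (2 * n) : ℕ) : ℝ) ^ (-x) := by
    rw [Finset.sum_congr rfl (g := fun _ => ((q ^ (2 * n) : ℕ) : ℝ) ^ (-x))]
    · rw [Finset.sum_const, nsmul_eq_mul]
      congr 2
      rw [← Fintype.card_subtype, ← Nat.card_eq_fintype_card]
      exact Nat.card_congr (Equiv.subtypeSubtypeEquivSubtypeInter (fun e : A => star e = e)
        (fun e : A => rkc e = q ^ (2 * n)))
    · intro e he
      rw [(Finset.mem_filter.1 he).2]
  rw [h2]
  have h3 : ((q ^ (2 * n - 2) * (q - 1) : ℕ) : ℝ) = (q : ℝ) ^ (2 * n - 1 : ℝ) * (1 - 1 / q) := by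
    have h4 : (q : ℝ) ^ (2 * n - 1 : ℝ) = (q : ℝ) ^ (2 * n - 2 : ℕ) * q := by
      rw [← pow_succ, ← Real.rpow_natCast]
      congr 1
      have : 2 ≤ 2 * n := by omega
      push_cast [Nat.cast_sub this]
      ring
    rw [h4]
    push_cast [Nat.cast_sub (show 1 ≤ q by omega)]
    field_simp
  calc (1 - 1 / (q : ℝ)) * (q : ℝ) ^ (-(1 + 2 * n * (x - 1))) =
      ((q ^ (2 * n - 2) * (q - 1) : ℕ) : ℝ) * ((q ^ (2 * n) : ℕ) : ℝ) ^ (-x) := by
        have h5 : ((q ^ (2 * n) : ℕ) : ℝ) ^ (-x) = (q : ℝ) ^ (((2 * n : ℕ) : ℝ) * -x) := by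
          rw [Nat.cast_pow, ← Real.rpow_natCast, ← Real.rpow_mul hq0.le]
        rw [h3, h5, mul_comm ((q : ℝ) ^ (2 * (n : ℝ) - 1)), mul_assoc (1 - 1 / (q : ℝ)),
          ← Real.rpow_add hq0]
        congr 2
        push_cast
        ring
    _ ≤ _ := by
        refine mul_le_mul_of_nonneg_right ?_ (by positivity)
        exact_mod_cast h

/-- **Lower bound, product form.** -/
theorem exists_low_prod {O : Subalgebra R D}
    (hstar : ∀ c : k, star (algebraMap k D c) = algebraMap k D c)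
    (hO : ∀ x ∈ O, star x ∈ O) {V : Finset (HeightOneSpectrum R)} {n : ℕ} (hn : n ≠ 0)
    (hfin : ∀ v ∈ V, Finite (R ⧸ v.asIdeal))
    (hV : ∀ v ∈ V, ∃ (A : Type u) (_ : Ring A) (_ : StarRing A) (ρ : Res k O v.asIdeal A),
      Finite A ∧ Nat.card (R ⧸ v.asIdeal) ^ (2 * n - 2) * (Nat.card (R ⧸ v.asIdeal) - 1) ≤
          Nat.card {e : A // star e = e ∧ rkc e = Nat.card (R ⧸ v.asIdeal) ^ (2 * n)} ∧
        ∃ τ τ' : O, (τ' : D) = star (τ : D) ∧ (∀ x : O, x * τ' = τ' * x) ∧ ρ.π (τ + τ') = 1) :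
    ∃ F : Finset D, (∀ s ∈ F, star s = s) ∧ (∀ s ∈ F, ∀ t ∈ F, s - t ∈ O → s = t) ∧
      (∀ s ∈ F, ∀ a ∈ ∏ v ∈ V, v.asIdeal, a • s ∈ O) ∧
      (∀ s ∈ F, H699.den O.toSubring s ≠ 0) ∧
      ∀ x : ℝ, ∏ v ∈ V, (1 + (1 - 1 / (Nat.card (R ⧸ v.asIdeal) : ℝ)) *
        (Nat.card (R ⧸ v.asIdeal) : ℝ) ^ (-(1 + 2 * n * (x - 1)))) ≤
        ∑ s ∈ F, (H699.den O.toSubring s : ℝ) ^ (-x) := by
  classical
  choose A iA sA ρ hA hcard hτ using fun v : V => hV v.1 v.2
  have hvinj : Function.Injective fun v : V => v.1 := Subtype.val_injective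
  obtain ⟨s, hs1, hs2, hs3, hs4⟩ := exists_family (k := k) (v := fun v : V => v.1) hstar hO hvinj ρ hτ
  have hfinS : ∀ v : V, Finite {e : A v // star e = e} := fun v => Subtype.finite
  let hft : ∀ v : V, Fintype {e : A v // star e = e} := fun v => Fintype.ofFinite _
  have hinj : Function.Injective s := fun g g' h => hs3 g g' (by
    rw [h, sub_self]
    exact O.zero_mem)
  refine ⟨Finset.univ.image s, ?_, ?_, ?_, ?_, ?_⟩
  · intro t ht
    obtain ⟨g, -, rfl⟩ := Finset.mem_image.1 ht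
    exact hs1 g
  · intro t ht t' ht' h
    obtain ⟨g, -, rfl⟩ := Finset.mem_image.1 ht
    obtain ⟨g', -, rfl⟩ := Finset.mem_image.1 ht'
    rw [hs3 g g' h]
  · intro t ht a ha
    obtain ⟨g, -, rfl⟩ := Finset.mem_image.1 ht
    refine hs4 g a ?_
    rw [Finset.prod_coe_sort V (fun v => v.asIdeal)]
    exact ha
  · intro t ht
    obtain ⟨g, -, rfl⟩ := Finset.mem_image.1 ht
    rw [← den_eq]
    show den O.toSubring.toAddSubgroup (s g) ≠ 0
    rw [hs2]
    refine Finset.prod_ne_zero_iff.2 fun v _ => ?_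
    unfold rkc
    have : Finite (Set.range fun x : A v => (g v).1 * x) := Subtype.finite
    exact Nat.card_pos.ne'
  · intro x
    rw [Finset.sum_image fun g _ g' _ h => hinj h, ← Finset.prod_coe_sort V]
    have h1 : ∀ g, (H699.den O.toSubring (s g) : ℝ) ^ (-x) = ∏ v : V, (rkc (g v).1 : ℝ) ^ (-x) := by
      intro g
      rw [← den_eq]
      show (den O.toSubring.toAddSubgroup (s g) : ℝ) ^ (-x) = _
      rw [hs2, Nat.cast_prod, Real.finsetProd_rpow]
      intro v _
      positivity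
    rw [Finset.sum_congr rfl fun g _ => h1 g]
    have h0 := Finset.prod_univ_sum (fun v : V => (Finset.univ : Finset {e : A v // star e = e}))
      (fun v e => (rkc e.1 : ℝ) ^ (-x))
    rw [Fintype.piFinset_univ] at h0
    rw [← h0]
    refine Finset.prod_le_prod (fun v _ => ?_) fun v _ => ?_
    · have : Finite (R ⧸ v.1.asIdeal) := hfin v.1 v.2
      have h2 : 1 ≤ Nat.card (R ⧸ v.1.asIdeal) := Nat.card_pos
      have h3 : (1 : ℝ) ≤ Nat.card (R ⧸ v.1.asIdeal) := by exact_mod_cast h2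
      have h4 : 1 / (Nat.card (R ⧸ v.1.asIdeal) : ℝ) ≤ 1 := by
        rw [div_le_one (by linarith)]
        exact h3
      have h5 : 0 ≤ 1 - 1 / (Nat.card (R ⧸ v.1.asIdeal) : ℝ) := by linarith
      positivity
    · have : Finite (R ⧸ v.1.asIdeal) := hfin v.1 v.2
      have h2 : 2 ≤ Nat.card (R ⧸ v.1.asIdeal) := by
        have : Nontrivial (R ⧸ v.1.asIdeal) := Ideal.Quotient.nontrivial_iff.2 v.1.isPrime.ne_top
        exact Finite.one_lt_card
      have := hA v
      exact local_factor h2 hn (hcard v) x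

/-- **Lower bound of the height zeta function.**  `R` Dedekind with fraction field `k`, `O` an
`R`-order of `D` (locally free at almost all primes with the given basis), `D` central simple over
`K = k(θ)`, `θ^2 = T θ - N`, `θ^* = T - θ`.  For `x -> 1+` there are symmetric elements, pairwise
incongruent modulo `O`, integral at the primes of `B₁`, with `∑ den(s)^(-x) ≥ c / (x - 1)`. -/
theorem exists_low [IsSimpleRing D] [Algebra.IsCentral K D] (hE : HasEuler R) {O : Subalgebra R D}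
    (hstar : ∀ c : k, star (algebraMap k D c) = algebraMap k D c)
    (hO : ∀ x ∈ O, star x ∈ O) {θ : K} {T N : R}
    (hθs : star (algebraMap K D θ) = algebraMap R D T - algebraMap K D θ)
    (hθO : algebraMap K D θ ∈ O)
    (hθθ : θ * θ = algebraMap k K (algebraMap R k T) * θ - algebraMap k K (algebraMap R k N))
    (hdisc : T ^ 2 - 4 * N ≠ 0)
    (hK : ∀ α β : k, algebraMap k K α + algebraMap k K β * θ = 0 → α = 0 ∧ β = 0)
    {ι : Type*} [Fintype ι] (b : Module.Basis ι K D) (hbO : ∀ l, b l ∈ O)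
    (hfrac : ∀ x : D, ∃ a : R, a ≠ 0 ∧ a • x ∈ O) {B₀ B₁ : Set (HeightOneSpectrum R)}
    (hB₀ : B₀.Finite) (hB₁ : B₁.Finite) (hLF : ∀ v ∉ B₀, ∀ x ∈ O, ∃ m ∉ v.asIdeal,
      ∃ α β : ι → R, m • x = comb (algebraMap K D θ) b α β) {n : ℕ} (hn : n ≠ 0)
    (hι : Fintype.card ι = n ^ 2) :
    ∃ c : ℝ, 0 < c ∧ ∀ᶠ x : ℝ in 𝓝[>] 1, ∃ F : Finset D, (∀ s ∈ F, star s = s) ∧
      (∀ s ∈ F, ∀ t ∈ F, s - t ∈ O → s = t) ∧
      (∃ a : R, (∀ w ∈ B₁, a ∉ w.asIdeal) ∧ ∀ s ∈ F, a • s ∈ O) ∧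
      (∀ s ∈ F, H699.den O.toSubring s ≠ 0) ∧
      c / (x - 1) ≤ ∑ s ∈ F, (H699.den O.toSubring s : ℝ) ^ (-x) := by
  classical
  obtain ⟨B, hB, hB₀B, hgood⟩ := exists_good hstar hO hθs hθO hθθ hdisc hK b hbO hfrac hB₀ hLF hn hι
  obtain ⟨c, hc, hev⟩ := hE (B ∪ B₁) (hB.union hB₁)
  have h2n : (0 : ℝ) < 2 * n := by positivity
  refine ⟨c / (2 * n), by positivity, ?_⟩
  have htend : Tendsto (fun x : ℝ => 1 + 2 * n * (x - 1)) (𝓝[>] 1) (𝓝[>] 1) := by
    refine tendsto_nhdsWithin_iff.2 ⟨?_, ?_⟩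
    · have h1 : Continuous fun x : ℝ => 1 + 2 * n * (x - 1) := by fun_prop
      have h2 := h1.tendsto 1
      simp only [sub_self, mul_zero, add_zero] at h2
      exact h2.mono_left nhdsWithin_le_nhds
    · filter_upwards [self_mem_nhdsWithin] with x hx
      have hx' : (1 : ℝ) < x := hx
      show (1 : ℝ) < 1 + 2 * n * (x - 1)
      have : 0 < 2 * n * (x - 1) := mul_pos h2n (by linarith)
      linarith
  filter_upwards [htend.eventually hev, self_mem_nhdsWithin] with x hx hx1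
  have hx1' : (1 : ℝ) < x := hx1
  obtain ⟨V, hV, hVs⟩ := hx
  obtain ⟨F, h1, h2, h3, h4, h5⟩ := exists_low_prod (V := V) hstar hO hn (fun v hv => (hV v hv).2)
    (fun v hv => hgood v (fun h => (hV v hv).1 (Or.inl h)) (hV v hv).2)
  refine ⟨F, h1, h2, ?_, h4, ?_⟩
  · -- prime avoidance
    have h6 : ¬ ((∏ v ∈ V, v.asIdeal : Ideal R) : Set R) ⊆
        ⋃ P ∈ (↑(hB₁.toFinset.image fun w : HeightOneSpectrum R => w.asIdeal) : Set (Ideal R)),
          (P : Set R) := by
      rw [Ideal.subset_union_prime (⊤ : Ideal R) ⊤ (fun P hP _ _ => by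
        obtain ⟨w, -, rfl⟩ := Finset.mem_image.1 hP
        exact w.isPrime)]
      rintro ⟨P, hP, hle⟩
      obtain ⟨w, hw, rfl⟩ := Finset.mem_image.1 hP
      obtain ⟨v, hv, hvw⟩ := (Ideal.IsPrime.prod_le w.isPrime).1 hle
      have h7 : v = w := HeightOneSpectrum.ext (v.isMaximal.eq_of_le w.isPrime.ne_top hvw)
      exact (hV v hv).1 (Or.inr (by rw [h7]; simpa using hw))
    rw [Set.not_subset] at h6
    obtain ⟨a, ha, ha'⟩ := h6
    refine ⟨a, fun w hw h => ha' ?_, fun s hs => h3 s hs a ha⟩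
    simp only [Set.mem_iUnion]
    exact ⟨w.asIdeal, by
      rw [Finset.mem_coe]
      exact Finset.mem_image.2 ⟨w, by simpa using hw, rfl⟩, h⟩
  · refine le_trans ?_ (h5 x)
    refine le_trans (le_of_eq ?_) hVs
    have : x - 1 ≠ 0 := by linarith
    field_simp
    ring

end Main

end Vale.Agent.P011.H973
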