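import Vale.Agent.P011.H973.ZetaLow

/-!
# Lower bound of the height zeta function: arbitrary orders
-/

set_option autoImplicit false
set_option linter.unusedSectionVars false

open IsDedekindDomain Filter Topology

universe u

namespace Vale.Agent.P011.H973

section Main

variable {R k K : Type*} {D : Type u} [CommRing R] [IsDedekindDomain R] [Field k] [Algebra R k]
  [IsFractionRing R k] [Field K] [Ring D] [StarRing D] [Algebra k K] [Algebra k D] [Algebra K D]
  [IsScalarTower k K D] [Algebra R D] [IsScalarTower R k D]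

/-- common denominators -/
theorem exists_denom {ι : Type*} [Finite ι] (P : ι → R → Prop) (h : ∀ i, ∃ a ≠ 0, P i a)
    (hP : ∀ i a b, P i a → P i (a * b)) : ∃ a : R, a ≠ 0 ∧ ∀ i, P i a := by
  classical
  have : Fintype ι := Fintype.ofFinite ι
  choose a ha0 ha using h
  refine ⟨∏ i, a i, Finset.prod_ne_zero_iff.2 fun i _ => ha0 i, fun i => ?_⟩
  rw [← Finset.mul_prod_erase _ _ (Finset.mem_univ i)]
  exact hP _ _ _ (ha i)

/-- an element of `k` times a nonzero element of `R` is in `R` -/
theorem exists_mul_mem (z : k) : ∃ a : R, a ≠ 0 ∧ ∃ r : R, algebraMap R k r = algebraMap R k a * z := by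
  obtain ⟨⟨r, a⟩, h⟩ := IsLocalization.surj (nonZeroDivisors R) z
  exact ⟨a, nonZeroDivisors.ne_zero a.2, r, by rw [← h, mul_comm]⟩

variable [IsSimpleRing D] [Algebra.IsCentral K D]

/-- the involution on the centre -/
theorem exists_sigma (z : K) : ∃ w : K, algebraMap K D w = star (algebraMap K D z) := by
  have h : star (algebraMap K D z) ∈ Subalgebra.center K D := by
    rw [Subalgebra.mem_center_iff]
    intro x
    have := congrArg star (Algebra.commutes z (star x))
    rw [star_mul, star_mul, star_star] at this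
    exact this
  rw [Algebra.IsCentral.center_eq_bot] at h
  exact h

/-- a generator of the quadratic extension -/
theorem exists_theta (h2 : Module.finrank k K = 2)
    (hstar : ∀ c : k, star (algebraMap k D c) = algebraMap k D c)
    (hne : ∃ z : K, star (algebraMap K D z) ≠ algebraMap K D z) :
    ∃ (θ : K) (T N : k), star (algebraMap K D θ) = algebraMap k D T - algebraMap K D θ ∧
      θ * θ = algebraMap k K T * θ - algebraMap k K N ∧ T ^ 2 - 4 * N ≠ 0 ∧
      (∀ α β : k, algebraMap k K α + algebraMap k K β * θ = 0 → α = 0 ∧ β = 0) ∧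
      ∀ z : K, ∃ α β : k, z = algebraMap k K α + algebraMap k K β * θ := by
  have hinj : Function.Injective (algebraMap K D) := (algebraMap K D).injective
  have hkinj : Function.Injective (algebraMap k K) := (algebraMap k K).injective
  obtain ⟨θ, hθ⟩ := hne
  have hstar' : ∀ c : k, star (algebraMap K D (algebraMap k K c)) = algebraMap K D (algebraMap k K c) := by
    intro c
    rw [← IsScalarTower.algebraMap_apply, hstar]
  have hind : ∀ z : K, star (algebraMap K D z) ≠ algebraMap K D z →
      ∀ α β : k, algebraMap k K α + algebraMap k K β * z = 0 → α = 0 ∧ β = 0 := by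
    intro z hz α β h
    have hβ : β = 0 := by
      by_contra hβ
      apply hz
      have h1 : algebraMap k K β ≠ 0 := fun h => hβ (hkinj (by rw [h, map_zero]))
      have h3 : z = algebraMap k K (-α / β) := by
        rw [map_div₀, map_neg]
        field_simp
        linear_combination h
      rw [h3, hstar']
    refine ⟨?_, hβ⟩
    rw [hβ, map_zero, zero_mul, add_zero] at h
    exact hkinj (by rw [h, map_zero])
  have hspan : ∀ w : K, (∀ α β : k, algebraMap k K α + algebraMap k K β * w = 0 → α = 0 ∧ β = 0) →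
      ∀ z : K, ∃ α β : k, z = algebraMap k K α + algebraMap k K β * w := by
    intro w hw z
    have hli : LinearIndependent k ![(1 : K), w] := by
      rw [LinearIndependent.pair_iff]
      intro s t h
      refine hw s t ?_
      rw [← h, Algebra.smul_def, Algebra.smul_def, mul_one]
    have : Module.Finite k K := Module.finite_of_finrank_pos (by omega)
    have hsp := hli.span_eq_top_of_card_eq_finrank (by rw [h2]; rfl)
    have hz : z ∈ Submodule.span k (Set.range ![(1 : K), w]) := by rw [hsp]; trivial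
    rw [Matrix.range_cons, Matrix.range_cons, Matrix.range_empty, Set.union_empty,
      Set.singleton_union, Submodule.mem_span_pair] at hz
    obtain ⟨α, β, h⟩ := hz
    exact ⟨α, β, by rw [← h, Algebra.smul_def, Algebra.smul_def, mul_one]⟩
  have hfix : ∀ z : K, star (algebraMap K D z) = algebraMap K D z → ∃ c : k, algebraMap k K c = z := by
    intro z hz
    by_contra hcon
    push Not at hcon
    obtain ⟨α, β, h⟩ := hspan z (by
      intro α β h
      have hβ : β = 0 := by
        by_contra hβ
        have h1 : algebraMap k K β ≠ 0 := fun h => hβ (hkinj (by rw [h, map_zero]))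
        apply hcon (-α / β)
        rw [map_div₀, map_neg]
        field_simp
        linear_combination -h
      refine ⟨?_, hβ⟩
      rw [hβ, map_zero, zero_mul, add_zero] at h
      exact hkinj (by rw [h, map_zero])) θ
    apply hθ
    rw [h, map_add, map_mul, star_add, star_mul, hstar', hstar', hz, Algebra.commutes]
  obtain ⟨θ', hθ'⟩ := exists_sigma (K := K) (D := D) θ
  have hθ'' : star (algebraMap K D θ') = algebraMap K D θ := by rw [hθ', star_star]
  obtain ⟨T, hT⟩ := hfix (θ + θ') (by
    rw [map_add, star_add, hθ'', ← hθ', add_comm])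
  obtain ⟨N, hN⟩ := hfix (θ * θ') (by
    rw [map_mul, star_mul, hθ'', ← hθ', ← map_mul])
  refine ⟨θ, T, N, ?_, ?_, ?_, hind θ hθ, hspan θ (hind θ hθ)⟩
  · rw [← hθ', IsScalarTower.algebraMap_apply k K D, hT, map_add, add_sub_cancel_left]
  · rw [hT, hN]
    ring
  · intro h
    have h3 : (θ - θ') * (θ - θ') = 0 := by
      have := congrArg (algebraMap k K) h
      rw [map_sub, map_pow, map_mul, hT, hN, map_zero, map_ofNat] at this
      linear_combination this
    have h4 := sub_eq_zero.1 (mul_self_eq_zero.1 h3)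
    exact hθ (by rw [← hθ', ← h4])

/-- **Lower bound of the height zeta function, arbitrary orders.** -/
theorem exists_low_order (hE : HasEuler R) (h2 : Module.finrank k K = 2)
    (hstar : ∀ c : k, star (algebraMap k D c) = algebraMap k D c)
    (hne : ∃ z : K, star (algebraMap K D z) ≠ algebraMap K D z)
    {n : ℕ} (hn : n ≠ 0) (hdim : Module.finrank K D = n ^ 2) {O : Subalgebra R D}
    (hO : ∀ x ∈ O, star x ∈ O) (hfg : (Subalgebra.toSubmodule O).FG)
    (hfrac : ∀ x : D, ∃ a : R, a ≠ 0 ∧ a • x ∈ O) {B₁ : Set (HeightOneSpectrum R)}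
    (hB₁ : B₁.Finite) :
    ∃ c : ℝ, 0 < c ∧ ∀ᶠ x : ℝ in 𝓝[>] 1, ∃ F : Finset D, (∀ s ∈ F, star s = s) ∧
      (∀ s ∈ F, ∀ t ∈ F, s - t ∈ O → s = t) ∧
      (∃ a : R, (∀ w ∈ B₁, a ∉ w.asIdeal) ∧ ∀ s ∈ F, a • s ∈ O) ∧
      (∀ s ∈ F, H699.den O.toSubring s ≠ 0) ∧
      c / (x - 1) ≤ ∑ s ∈ F, (H699.den O.toSubring s : ℝ) ^ (-x) := by
  classical
  have hRinj : Function.Injective (algebraMap R k) := IsFractionRing.injective R k
  obtain ⟨θ₀, T₀, N₀, hθs, hθθ, hdisc, hK, hsp⟩ := exists_theta (D := D) h2 hstar hne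
  have hfinD : Module.Finite K D := Module.finite_of_finrank_pos (by rw [hdim]; positivity)
  let b₀ := Module.finBasis K D
  -- the scaling factor
  obtain ⟨a, ha0, ha⟩ : ∃ a : R, a ≠ 0 ∧ ∀ i : Fin (Module.finrank K D) ⊕ Fin 3,
      Sum.elim (fun l => a • b₀ l ∈ O) (![a • algebraMap K D θ₀ ∈ O,
        ∃ r : R, algebraMap R k r = algebraMap R k a * T₀,
        ∃ r : R, algebraMap R k r = algebraMap R k a * N₀]) i := by
    have hmul : ∀ (x : D) (a b : R), a • x ∈ O → (a * b) • x ∈ O := by
      intro x a b h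
      rw [mul_comm, mul_smul]
      exact O.smul_mem h b
    have hmul' : ∀ (z : k) (a b : R), (∃ r : R, algebraMap R k r = algebraMap R k a * z) →
        ∃ r : R, algebraMap R k r = algebraMap R k (a * b) * z := by
      rintro z a b ⟨r, hr⟩
      refine ⟨b * r, ?_⟩
      rw [map_mul, hr, map_mul]
      ring
    refine exists_denom (fun i a => Sum.elim (fun l => a • b₀ l ∈ O) (![a • algebraMap K D θ₀ ∈ O,
        ∃ r : R, algebraMap R k r = algebraMap R k a * T₀,
        ∃ r : R, algebraMap R k r = algebraMap R k a * N₀]) i) ?_ ?_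
    · rintro (l | j)
      · exact hfrac _
      · fin_cases j
        · exact hfrac _
        · exact exists_mul_mem T₀
        · exact exists_mul_mem N₀
    · rintro (l | j) a b h
      · exact hmul _ _ _ h
      · fin_cases j
        · exact hmul _ _ _ h
        · exact hmul' _ _ _ h
        · exact hmul' _ _ _ h
  have haK : algebraMap k K (algebraMap R k a) ≠ 0 := by
    rw [Ne, map_eq_zero, map_eq_zero_iff _ hRinj]
    exact ha0
  obtain ⟨T, hT⟩ := ha (Sum.inr 1)
  obtain ⟨N, hN⟩ := ha (Sum.inr 2)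
  have hθO : a • algebraMap K D θ₀ ∈ O := ha (Sum.inr 0)
  set aK : K := algebraMap k K (algebraMap R k a) with haKdef
  set θ : K := aK * θ₀ with hθ
  have haD : ∀ x : D, a • x = algebraMap K D aK * x := by
    intro x
    rw [haKdef, ← IsScalarTower.algebraMap_apply, ← IsScalarTower.algebraMap_apply,
      Algebra.smul_def]
  have haDs : star (algebraMap K D aK) = algebraMap K D aK := by
    rw [haKdef, ← IsScalarTower.algebraMap_apply, hstar]
  let b : Module.Basis (Fin (Module.finrank K D)) K D :=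
    b₀.isUnitSMul (w := fun _ => aK) (fun _ => (Ne.isUnit haK))
  have hb : ∀ l, b l = a • b₀ l := by
    intro l
    rw [Module.Basis.isUnitSMul_apply, haD, Algebra.smul_def]
  have hK' : ∀ α β : k, algebraMap k K α + algebraMap k K β * θ = 0 → α = 0 ∧ β = 0 := by
    intro α β h
    have := hK α (β * algebraMap R k a) (by rw [map_mul, ← h, hθ, haKdef]; ring)
    refine ⟨this.1, (mul_eq_zero.1 this.2).resolve_right ?_⟩
    rw [map_eq_zero_iff _ hRinj]
    exact ha0
  have hsp' : ∀ z : K, ∃ α β : k, z = algebraMap k K α + algebraMap k K β * θ := by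
    intro z
    obtain ⟨α, β, h⟩ := hsp z
    refine ⟨α, β / algebraMap R k a, ?_⟩
    rw [h, map_div₀, hθ, ← haKdef]
    field_simp
  -- local freeness
  have hcoord : ∀ x : D, ∃ m : R, m ≠ 0 ∧ ∃ α β : Fin (Module.finrank K D) → R,
      m • x = comb (algebraMap K D θ) b α β := by
    intro x
    choose α β hαβ using fun l => hsp' (b.repr x l)
    obtain ⟨m, hm0, hm⟩ := exists_denom (R := R) (ι := Fin (Module.finrank K D))
      (fun l m => (∃ r : R, algebraMap R k r = algebraMap R k m * α l) ∧
        ∃ r : R, algebraMap R k r = algebraMap R k m * β l) (by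
        intro l
        obtain ⟨m, hm, r, hr⟩ := exists_mul_mem (R := R) (α l)
        obtain ⟨m', hm', r', hr'⟩ := exists_mul_mem (R := R) (β l)
        refine ⟨m * m', mul_ne_zero hm hm', ⟨r * m', ?_⟩, r' * m, ?_⟩
        · rw [map_mul, hr, map_mul]
          ring
        · rw [map_mul, hr', map_mul]
          ring) (by
        rintro l m m' ⟨⟨r, hr⟩, r', hr'⟩
        refine ⟨⟨r * m', ?_⟩, r' * m', ?_⟩
        · rw [map_mul, hr, map_mul]
          ring
        · rw [map_mul, hr', map_mul]
          ring)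
    choose r hr using fun l => (hm l).1
    choose r' hr' using fun l => (hm l).2
    refine ⟨m, hm0, r, r', ?_⟩
    unfold comb
    conv_lhs => rw [← b.sum_repr x]
    rw [Finset.smul_sum]
    refine Finset.sum_congr rfl fun l _ => ?_
    have f : ∀ y : R, algebraMap R D y = algebraMap K D (algebraMap k K (algebraMap R k y)) := by
      intro y
      rw [← IsScalarTower.algebraMap_apply k K D, ← IsScalarTower.algebraMap_apply R k D]
    rw [hαβ l, Algebra.smul_def, Algebra.smul_def, ← mul_assoc]
    congr 1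
    rw [f, f, f, ← map_mul, ← map_mul, ← map_add]
    congr 1
    rw [hr, hr', map_mul, map_mul]
    ring
  obtain ⟨S, hS⟩ := hfg
  obtain ⟨m, hm0, hm⟩ := exists_denom (R := R) (ι := S)
    (fun x m => ∃ α β : Fin (Module.finrank K D) → R,
      m • (x : D) = comb (algebraMap K D θ) b α β) (fun x => by
        obtain ⟨m, hm, h⟩ := hcoord x
        exact ⟨m, hm, h⟩) (by
        rintro x m m' ⟨α, β, h⟩
        exact ⟨m' • α, m' • β, by rw [comb_smul, ← h, smul_smul, mul_comm]⟩)
  have hall : ∀ x ∈ O, ∃ α β : Fin (Module.finrank K D) → R,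
      m • x = comb (algebraMap K D θ) b α β := by
    intro x hx
    have hx' : x ∈ Submodule.span R (S : Set D) := by
      rw [hS]
      exact hx
    clear hx
    induction hx' using Submodule.span_induction with
    | mem x hx => exact hm ⟨x, hx⟩
    | zero => exact ⟨0, 0, by simp [comb]⟩
    | add x y _ _ hx hy =>
      obtain ⟨α, β, h⟩ := hx
      obtain ⟨α', β', h'⟩ := hy
      exact ⟨α + α', β + β', by rw [comb_add, smul_add, h, h']⟩
    | smul r x _ hx =>
      obtain ⟨α, β, h⟩ := hx
      exact ⟨r • α, r • β, by rw [comb_smul, ← h, smul_smul, smul_smul, mul_comm]⟩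
  have hB₀ : {v : HeightOneSpectrum R | m ∈ v.asIdeal}.Finite := by
    have h1 : Ideal.span {m} ≠ 0 := by
      rw [Ne, Ideal.zero_eq_bot, Ideal.span_singleton_eq_bot]
      exact hm0
    refine (Ideal.finite_factors h1).subset fun v hv => ?_
    show v.asIdeal ∣ Ideal.span {m}
    rw [Ideal.dvd_span_singleton]
    exact hv
  refine exists_low (T := T) (N := a * N) hE hstar hO (θ := θ) ?_ ?_ ?_ ?_ hK' b ?_ hfrac hB₀ hB₁
    (fun v hv x hx => ⟨m, hv, hall x hx⟩) hn (by rw [Fintype.card_fin, hdim])
  · have e1 : algebraMap R D T = algebraMap K D (algebraMap k K (algebraMap R k T)) := by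
      rw [← IsScalarTower.algebraMap_apply k K D, ← IsScalarTower.algebraMap_apply R k D]
    rw [hθ, map_mul, star_mul, hθs, IsScalarTower.algebraMap_apply k K D T₀, e1, haDs, ← map_mul,
      ← map_sub, ← map_sub, ← map_mul]
    congr 1
    rw [hT, map_mul]
    ring
  · rw [hθ, map_mul, ← haD]
    exact hθO
  · have e2 : algebraMap k K (algebraMap R k T) = aK * algebraMap k K T₀ := by
      rw [hT, map_mul]
    have e3 : algebraMap k K (algebraMap R k (a * N)) = aK * (aK * algebraMap k K N₀) := by
      rw [map_mul, hN, map_mul, map_mul]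
    rw [e2, e3, hθ]
    linear_combination aK ^ 2 * hθθ
  · intro h
    apply hdisc
    have h3 := congrArg (algebraMap R k) h
    rw [map_sub, map_pow, map_mul, map_mul, hT, hN, map_zero, map_ofNat] at h3
    have h4 : (algebraMap R k a) ^ 2 * (T₀ ^ 2 - 4 * N₀) = 0 := by linear_combination h3
    refine (mul_eq_zero.1 h4).resolve_left ?_
    rw [sq, mul_self_eq_zero, map_eq_zero_iff _ hRinj]
    exact ha0
  · intro l
    rw [hb]
    exact ha (Sum.inl l)

omit [IsSimpleRing D] [Algebra.IsCentral K D] in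
/-- denominators do not change under localisation away from the denominator -/
theorem den_loc {O O' : Subalgebra R D} (hOO : O ≤ O') {M : Set R}
    (hM : ∀ y ∈ O', ∃ t ∈ M, t • y ∈ O) {a : R} (ha : ∀ t ∈ M, IsCoprime a t) {s : D}
    (hs : a • s ∈ O) : H699.den O'.toSubring s = H699.den O.toSubring s := by
  have hmem : ∀ x ∈ O', a • x ∈ O → x ∈ O := by
    intro x hx hax
    obtain ⟨t, ht, htx⟩ := hM x hx
    obtain ⟨u, w, huw⟩ := ha t ht
    have h1 : x = u • (a • x) + w • (t • x) := by
      rw [smul_smul, smul_smul, ← add_smul, huw, one_smul]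
    rw [h1]
    exact O.add_mem (O.smul_mem hax u) (O.smul_mem htx w)
  have hcolon : ∀ x ∈ O, x ∈ H699.colon O'.toSubring s ↔ x ∈ H699.colon O.toSubring s := by
    intro x hx
    rw [H699.mem_colon, H699.mem_colon]
    constructor
    · rintro ⟨-, h⟩
      refine ⟨hx, hmem _ h ?_⟩
      rw [← smul_mul_assoc]
      exact O.mul_mem hs hx
    · rintro ⟨-, h⟩
      exact ⟨hOO hx, hOO h⟩
  let inc : O.toSubring.toAddSubgroup →+ O'.toSubring.toAddSubgroup := AddSubgroup.inclusion hOO
  let φ : O.toSubring.toAddSubgroup →+ (O'.toSubring.toAddSubgroup ⧸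
      (H699.colon O'.toSubring s).addSubgroupOf O'.toSubring.toAddSubgroup) :=
    (QuotientAddGroup.mk' _).comp inc
  have hker : φ.ker = (H699.colon O.toSubring s).addSubgroupOf O.toSubring.toAddSubgroup := by
    ext x
    rw [AddMonoidHom.mem_ker, AddSubgroup.mem_addSubgroupOf, ← hcolon x x.2]
    show (QuotientAddGroup.mk' _) _ = 0 ↔ _
    rw [QuotientAddGroup.mk'_apply, QuotientAddGroup.eq_zero_iff, AddSubgroup.mem_addSubgroupOf]
    rfl
  have hsurj : Function.Surjective φ := by
    intro z
    obtain ⟨y, rfl⟩ := QuotientAddGroup.mk_surjective z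
    obtain ⟨t, ht, hty⟩ := hM y y.2
    obtain ⟨u, w, huw⟩ := ha t ht
    let z : O.toSubring.toAddSubgroup := ⟨w • (t • (y : D)), O.smul_mem hty w⟩
    refine ⟨z, ?_⟩
    have h0 : φ z = QuotientAddGroup.mk (inc z) := rfl
    rw [h0, QuotientAddGroup.eq, AddSubgroup.mem_addSubgroupOf, H699.mem_colon]
    have h1 : ((-(inc z) + y : O'.toSubring.toAddSubgroup) : D) = u • (a • (y : D)) := by
      show -(w • (t • (y : D))) + (y : D) = u • (a • (y : D))
      have h2 : (y : D) = u • (a • (y : D)) + w • (t • (y : D)) := by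
        rw [smul_smul, smul_smul, ← add_smul, huw, one_smul]
      conv_lhs =>
        rhs
        rw [h2]
      abel
    rw [h1]
    refine ⟨O'.smul_mem (O'.smul_mem y.2 a) u, ?_⟩
    rw [mul_smul_comm, mul_smul_comm, ← smul_mul_assoc]
    exact O'.smul_mem (O'.mul_mem (hOO hs) y.2) u
  have h1 : H699.den O.toSubring s = φ.ker.index := by
    rw [hker]
    rfl
  have h2 : H699.den O'.toSubring s = Nat.card (O'.toSubring.toAddSubgroup ⧸
      (H699.colon O'.toSubring s).addSubgroupOf O'.toSubring.toAddSubgroup) := rfl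
  rw [h1, h2, AddSubgroup.index_ker, AddMonoidHom.range_eq_top.2 hsurj]
  exact (Nat.card_congr AddSubgroup.topEquiv.toEquiv).symm

/-- **Lower bound, localised orders** `O' = O[M^-1]`. -/
theorem exists_low_loc (hE : HasEuler R) (h2 : Module.finrank k K = 2)
    (hstar : ∀ c : k, star (algebraMap k D c) = algebraMap k D c)
    (hne : ∃ z : K, star (algebraMap K D z) ≠ algebraMap K D z)
    {n : ℕ} (hn : n ≠ 0) (hdim : Module.finrank K D = n ^ 2) {O : Subalgebra R D}
    (hO : ∀ x ∈ O, star x ∈ O) (hfg : (Subalgebra.toSubmodule O).FG)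
    (hfrac : ∀ x : D, ∃ a : R, a ≠ 0 ∧ a • x ∈ O) {O' : Subalgebra R D} (hOO : O ≤ O') {M : Set R}
    (hM : ∀ y ∈ O', ∃ t ∈ M, t • y ∈ O) {B₁ : Set (HeightOneSpectrum R)}
    (hB₁ : B₁.Finite) (hMB : ∀ t ∈ M, t ≠ 0 ∧ ∀ w : HeightOneSpectrum R, t ∈ w.asIdeal → w ∈ B₁) :
    ∃ c : ℝ, 0 < c ∧ ∀ᶠ x : ℝ in 𝓝[>] 1, ∃ F : Finset D, (∀ s ∈ F, star s = s) ∧
      (∀ s ∈ F, ∀ t ∈ F, s - t ∈ O' → s = t) ∧
      (∃ a : R, (∀ w ∈ B₁, a ∉ w.asIdeal) ∧ ∀ s ∈ F, a • s ∈ O) ∧
      (∀ s ∈ F, H699.den O'.toSubring s ≠ 0) ∧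
      c / (x - 1) ≤ ∑ s ∈ F, (H699.den O'.toSubring s : ℝ) ^ (-x) := by
  obtain ⟨c, hc, h⟩ := exists_low_order hE h2 hstar hne hn hdim hO hfg hfrac hB₁
  refine ⟨c, hc, ?_⟩
  filter_upwards [h] with x hx
  obtain ⟨F, h1, h2, ⟨a, ha, haF⟩, h4, h5⟩ := hx
  have hcop : ∀ t ∈ M, IsCoprime a t := by
    intro t ht
    rw [← Ideal.isCoprime_span_singleton_iff, Ideal.isCoprime_iff_sup_eq]
    by_contra hne'
    obtain ⟨P, hP, hle⟩ := Ideal.exists_le_maximal _ hne'
    have hat : t ∈ P := hle (Ideal.mem_sup_right (Ideal.mem_span_singleton_self t))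
    have haa : a ∈ P := hle (Ideal.mem_sup_left (Ideal.mem_span_singleton_self a))
    let w : HeightOneSpectrum R := ⟨P, hP.isPrime, fun h => (hMB t ht).1 (by
      rw [h] at hat
      simpa using hat)⟩
    exact ha w ((hMB t ht).2 w hat) haa
  have hden : ∀ s ∈ F, H699.den O'.toSubring s = H699.den O.toSubring s := fun s hs =>
    den_loc hOO hM hcop (haF s hs)
  refine ⟨F, h1, ?_, ⟨a, ha, haF⟩, ?_, ?_⟩
  · intro s hs t ht hst
    refine h2 s hs t ht ?_
    obtain ⟨m, hm, hms⟩ := hM _ hst
    obtain ⟨u, w, huw⟩ := hcop m hm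
    have h6 : s - t = u • (a • s - a • t) + w • (m • (s - t)) := by
      rw [← smul_sub, smul_smul, smul_smul, ← add_smul, huw, one_smul]
    rw [h6]
    exact O.add_mem (O.smul_mem (O.sub_mem (haF s hs) (haF t ht)) u) (O.smul_mem hms w)
  · intro s hs
    rw [hden s hs]
    exact h4 s hs
  · refine h5.trans (le_of_eq ?_)
    exact Finset.sum_congr rfl fun s hs => by rw [hden s hs]

end Main

end Vale.Agent.P011.H973
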