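import Vale.Agent.P011.H401.GoodFF
import Vale.Agent.P011.H973.OrderLow

/-!
# Almost all primes are good: arbitrary orders
-/

set_option autoImplicit false
set_option linter.unusedSectionVars false

open IsDedekindDomain Filter Topology

universe u

namespace Vale.Agent.P011.H973

section Data

variable {R k K : Type*} {D : Type u} [CommRing R] [IsDedekindDomain R] [Field k] [Algebra R k]
  [IsFractionRing R k] [Field K] [Ring D] [StarRing D] [Algebra k K] [Algebra k D] [Algebra K D]
  [IsScalarTower k K D] [Algebra R D] [IsScalarTower R k D]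

variable [IsSimpleRing D] [Algebra.IsCentral K D]

/-- a basis and a generator of the centre adapted to an order -/
theorem exists_data (h2 : Module.finrank k K = 2)
    (hstar : ∀ c : k, star (algebraMap k D c) = algebraMap k D c)
    (hne : ∃ z : K, star (algebraMap K D z) ≠ algebraMap K D z)
    {n : ℕ} (hn : n ≠ 0) (hdim : Module.finrank K D = n ^ 2) {O : Subalgebra R D}
    (hfg : (Subalgebra.toSubmodule O).FG)
    (hfrac : ∀ x : D, ∃ a : R, a ≠ 0 ∧ a • x ∈ O) :
    ∃ (θ : K) (T N m : R) (b : Module.Basis (Fin (Module.finrank K D)) K D),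
      (∀ x ∈ O, ∃ α β : Fin (Module.finrank K D) → R,
        m • x = comb (algebraMap K D θ) b α β) ∧ m ≠ 0 ∧
      (∀ α β : k, algebraMap k K α + algebraMap k K β * θ = 0 → α = 0 ∧ β = 0) ∧
      star (algebraMap K D θ) = algebraMap R D T - algebraMap K D θ ∧
      algebraMap K D θ ∈ O ∧
      θ * θ = algebraMap k K (algebraMap R k T) * θ - algebraMap k K (algebraMap R k N) ∧
      T ^ 2 - 4 * N ≠ 0 ∧ ∀ l, b l ∈ O := by
  classical
  have hRinj : Function.Injective (algebraMap R k) := IsFractionRing.injective R k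
  obtain ⟨θ₀, T₀, N₀, hθs, hθθ, hdisc, hK, hsp⟩ := exists_theta (D := D) h2 hstar hne
  have hfinD : Module.Finite K D := Module.finite_of_finrank_pos (by rw [hdim]; positivity)
  let b₀ := Module.finBasis K D
  -- the scaling factor
  obtain ⟨a, ha0, ha⟩ : ∃ a : R, a ≠ 0 ∧ ∀ i : Fin (Module.finrank K D) ⊕ Fin 3,
      Sum.elim (fun l => a • b₀ l ∈ O) (![a • algebraMap K D θ₀ ∈ O,
        ∃ r : R, algebraMap R k r = algebraMap R k a * T₀,
        ∃ r : R, algebraMap R k r = algebraMap R k a * N₀]) i := by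
    have hmul : ∀ (x : D) (a b : R), a • x ∈ O → (a * b) • x ∈ O := by
      intro x a b h
      rw [mul_comm, mul_smul]
      exact O.smul_mem h b
    have hmul' : ∀ (z : k) (a b : R), (∃ r : R, algebraMap R k r = algebraMap R k a * z) →
        ∃ r : R, algebraMap R k r = algebraMap R k (a * b) * z := by
      rintro z a b ⟨r, hr⟩
      refine ⟨b * r, ?_⟩
      rw [map_mul, hr, map_mul]
      ring
    refine exists_denom (fun i a => Sum.elim (fun l => a • b₀ l ∈ O) (![a • algebraMap K D θ₀ ∈ O,
        ∃ r : R, algebraMap R k r = algebraMap R k a * T₀,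
        ∃ r : R, algebraMap R k r = algebraMap R k a * N₀]) i) ?_ ?_
    · rintro (l | j)
      · exact hfrac _
      · fin_cases j
        · exact hfrac _
        · exact exists_mul_mem T₀
        · exact exists_mul_mem N₀
    · rintro (l | j) a b h
      · exact hmul _ _ _ h
      · fin_cases j
        · exact hmul _ _ _ h
        · exact hmul' _ _ _ h
        · exact hmul' _ _ _ h
  have haK : algebraMap k K (algebraMap R k a) ≠ 0 := by
    rw [Ne, map_eq_zero, map_eq_zero_iff _ hRinj]
    exact ha0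
  obtain ⟨T, hT⟩ := ha (Sum.inr 1)
  obtain ⟨N, hN⟩ := ha (Sum.inr 2)
  have hθO : a • algebraMap K D θ₀ ∈ O := ha (Sum.inr 0)
  set aK : K := algebraMap k K (algebraMap R k a) with haKdef
  set θ : K := aK * θ₀ with hθ
  have haD : ∀ x : D, a • x = algebraMap K D aK * x := by
    intro x
    rw [haKdef, ← IsScalarTower.algebraMap_apply, ← IsScalarTower.algebraMap_apply,
      Algebra.smul_def]
  have haDs : star (algebraMap K D aK) = algebraMap K D aK := by
    rw [haKdef, ← IsScalarTower.algebraMap_apply, hstar]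
  let b : Module.Basis (Fin (Module.finrank K D)) K D :=
    b₀.isUnitSMul (w := fun _ => aK) (fun _ => (Ne.isUnit haK))
  have hb : ∀ l, b l = a • b₀ l := by
    intro l
    rw [Module.Basis.isUnitSMul_apply, haD, Algebra.smul_def]
  have hK' : ∀ α β : k, algebraMap k K α + algebraMap k K β * θ = 0 → α = 0 ∧ β = 0 := by
    intro α β h
    have := hK α (β * algebraMap R k a) (by rw [map_mul, ← h, hθ, haKdef]; ring)
    refine ⟨this.1, (mul_eq_zero.1 this.2).resolve_right ?_⟩
    rw [map_eq_zero_iff _ hRinj]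
    exact ha0
  have hsp' : ∀ z : K, ∃ α β : k, z = algebraMap k K α + algebraMap k K β * θ := by
    intro z
    obtain ⟨α, β, h⟩ := hsp z
    refine ⟨α, β / algebraMap R k a, ?_⟩
    rw [h, map_div₀, hθ, ← haKdef]
    field_simp
  -- local freeness
  have hcoord : ∀ x : D, ∃ m : R, m ≠ 0 ∧ ∃ α β : Fin (Module.finrank K D) → R,
      m • x = comb (algebraMap K D θ) b α β := by
    intro x
    choose α β hαβ using fun l => hsp' (b.repr x l)
    obtain ⟨m, hm0, hm⟩ := exists_denom (R := R) (ι := Fin (Module.finrank K D))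
      (fun l m => (∃ r : R, algebraMap R k r = algebraMap R k m * α l) ∧
        ∃ r : R, algebraMap R k r = algebraMap R k m * β l) (by
        intro l
        obtain ⟨m, hm, r, hr⟩ := exists_mul_mem (R := R) (α l)
        obtain ⟨m', hm', r', hr'⟩ := exists_mul_mem (R := R) (β l)
        refine ⟨m * m', mul_ne_zero hm hm', ⟨r * m', ?_⟩, r' * m, ?_⟩
        · rw [map_mul, hr, map_mul]
          ring
        · rw [map_mul, hr', map_mul]
          ring) (by
        rintro l m m' ⟨⟨r, hr⟩, r', hr'⟩
        refine ⟨⟨r * m', ?_⟩, r' * m', ?_⟩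
        · rw [map_mul, hr, map_mul]
          ring
        · rw [map_mul, hr', map_mul]
          ring)
    choose r hr using fun l => (hm l).1
    choose r' hr' using fun l => (hm l).2
    refine ⟨m, hm0, r, r', ?_⟩
    unfold comb
    conv_lhs => rw [← b.sum_repr x]
    rw [Finset.smul_sum]
    refine Finset.sum_congr rfl fun l _ => ?_
    have f : ∀ y : R, algebraMap R D y = algebraMap K D (algebraMap k K (algebraMap R k y)) := by
      intro y
      rw [← IsScalarTower.algebraMap_apply k K D, ← IsScalarTower.algebraMap_apply R k D]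
    rw [hαβ l, Algebra.smul_def, Algebra.smul_def, ← mul_assoc]
    congr 1
    rw [f, f, f, ← map_mul, ← map_mul, ← map_add]
    congr 1
    rw [hr, hr', map_mul, map_mul]
    ring
  obtain ⟨S, hS⟩ := hfg
  obtain ⟨m, hm0, hm⟩ := exists_denom (R := R) (ι := S)
    (fun x m => ∃ α β : Fin (Module.finrank K D) → R,
      m • (x : D) = comb (algebraMap K D θ) b α β) (fun x => by
        obtain ⟨m, hm, h⟩ := hcoord x
        exact ⟨m, hm, h⟩) (by
        rintro x m m' ⟨α, β, h⟩
        exact ⟨m' • α, m' • β, by rw [comb_smul, ← h, smul_smul, mul_comm]⟩)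
  have hall : ∀ x ∈ O, ∃ α β : Fin (Module.finrank K D) → R,
      m • x = comb (algebraMap K D θ) b α β := by
    intro x hx
    have hx' : x ∈ Submodule.span R (S : Set D) := by
      rw [hS]
      exact hx
    clear hx
    induction hx' using Submodule.span_induction with
    | mem x hx => exact hm ⟨x, hx⟩
    | zero => exact ⟨0, 0, by simp [comb]⟩
    | add x y _ _ hx hy =>
      obtain ⟨α, β, h⟩ := hx
      obtain ⟨α', β', h'⟩ := hy
      exact ⟨α + α', β + β', by rw [comb_add, smul_add, h, h']⟩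
    | smul r x _ hx =>
      obtain ⟨α, β, h⟩ := hx
      exact ⟨r • α, r • β, by rw [comb_smul, ← h, smul_smul, smul_smul, mul_comm]⟩
  refine ⟨θ, T, a * N, m, b, hall, hm0, hK', ?_, ?_, ?_, ?_, ?_⟩
  · have e1 : algebraMap R D T = algebraMap K D (algebraMap k K (algebraMap R k T)) := by
      rw [← IsScalarTower.algebraMap_apply k K D, ← IsScalarTower.algebraMap_apply R k D]
    rw [hθ, map_mul, star_mul, hθs, IsScalarTower.algebraMap_apply k K D T₀, e1, haDs, ← map_mul,
      ← map_sub, ← map_sub, ← map_mul]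
    congr 1
    rw [hT, map_mul]
    ring
  · rw [hθ, map_mul, ← haD]
    exact hθO
  · have e2 : algebraMap k K (algebraMap R k T) = aK * algebraMap k K T₀ := by
      rw [hT, map_mul]
    have e3 : algebraMap k K (algebraMap R k (a * N)) = aK * (aK * algebraMap k K N₀) := by
      rw [map_mul, hN, map_mul, map_mul]
    rw [e2, e3, hθ]
    linear_combination aK ^ 2 * hθθ
  · intro h
    apply hdisc
    have h3 := congrArg (algebraMap R k) h
    rw [map_sub, map_pow, map_mul, map_mul, hT, hN, map_zero, map_ofNat] at h3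
    have h4 : (algebraMap R k a) ^ 2 * (T₀ ^ 2 - 4 * N₀) = 0 := by linear_combination h3
    refine (mul_eq_zero.1 h4).resolve_left ?_
    rw [sq, mul_self_eq_zero, map_eq_zero_iff _ hRinj]
    exact ha0
  · intro l
    rw [hb]
    exact ha (Sum.inl l)

/-- almost all primes are good, orders -/
theorem exists_good_order (h2 : Module.finrank k K = 2)
    (hstar : ∀ c : k, star (algebraMap k D c) = algebraMap k D c)
    (hne : ∃ z : K, star (algebraMap K D z) ≠ algebraMap K D z)
    {n : ℕ} (hn : n ≠ 0) (hdim : Module.finrank K D = n ^ 2) {O : Subalgebra R D}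
    (hO : ∀ x ∈ O, star x ∈ O) (hfg : (Subalgebra.toSubmodule O).FG)
    (hfrac : ∀ x : D, ∃ a : R, a ≠ 0 ∧ a • x ∈ O) :
    ∃ B : Set (HeightOneSpectrum R), B.Finite ∧ ∀ v ∉ B, Finite (R ⧸ v.asIdeal) →
      ∃ (A : Type u) (_ : Ring A) (_ : StarRing A) (ρ : Res k O v.asIdeal A), Finite A ∧
        Nat.card A ≤ Nat.card (R ⧸ v.asIdeal) ^ (2 * n ^ 2) ∧
        Nat.card (R ⧸ v.asIdeal) ^ (2 * n - 2) * (Nat.card (R ⧸ v.asIdeal) - 1) ≤
          Nat.card {e : A // star e = e ∧ rkc e = Nat.card (R ⧸ v.asIdeal) ^ (2 * n)} ∧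
        (∃ τ τ' : O, (τ' : D) = star (τ : D) ∧ (∀ x : O, x * τ = τ * x) ∧
          (∀ x : O, x * τ' = τ' * x) ∧ ρ.π (τ + τ') = 1) ∧
        ∀ e : A, star e = e → e ≠ 0 → ∃ (r : ℕ) (x y : Fin r → A), ∑ i, x i * e * y i = 1 := by
  obtain ⟨θ, T, N, m, b, hall, hm0, hK, hθs, hθO, hθθ, hdisc, hbO⟩ :=
    exists_data (D := D) h2 hstar hne hn hdim hfg hfrac
  have hB₀ : {v : HeightOneSpectrum R | m ∈ v.asIdeal}.Finite := by
    have h1 : Ideal.span {m} ≠ 0 := by
      rw [Ne, Ideal.zero_eq_bot, Ideal.span_singleton_eq_bot]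
      exact hm0
    refine (Ideal.finite_factors h1).subset fun v hv => ?_
    show v.asIdeal ∣ Ideal.span {m}
    rw [Ideal.dvd_span_singleton]
    exact hv
  obtain ⟨B, hB, -, h⟩ := H401.exists_good' hstar hO hθs hθO hθθ hdisc hK b hbO hfrac hB₀
    (fun v hv x hx => ⟨m, hv, hall x hx⟩) hn (by rw [Fintype.card_fin, hdim])
  exact ⟨B, hB, h⟩

end Data

end Vale.Agent.P011.H973
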