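import Vale.Agent.P011.H40.Tv
import Vale.Agent.P011.H973.GoodOrder
import Vale.Agent.P011.H704.Local

/-!
# The local package at a good prime (statement: H40/Spec2)

The torsion module `Tv` is the space of symmetric elements of the residue algebra; local lower
bound and local Fourier bound.
-/

set_option autoImplicit false
set_option linter.unusedSectionVars false

open IsDedekindDomain Filter Topology

universe u

namespace Vale.Agent.P011.H973

section Fin

variable {A : Type*} [Ring A]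

theorem rkc_zero : rkc (0 : A) = 1 := by
  unfold rkc
  simp

theorem rkc_unit_mul {u v : A} (h : v * u = 1) (e : A) : rkc (u * e) = rkc e := by
  unfold rkc
  refine Nat.card_congr (Equiv.ofBijective (fun z => ⟨v * z.1, ?_⟩) ⟨?_, ?_⟩)
  · obtain ⟨x, hx⟩ := z.2
    refine ⟨x, ?_⟩
    rw [← hx]
    simp only [← mul_assoc, h, one_mul]
  · rintro ⟨_, x, rfl⟩ ⟨_, y, rfl⟩ hxy
    simp only [Subtype.mk.injEq, ← mul_assoc, h, one_mul] at hxy
    apply Subtype.ext
    simp only [mul_assoc, hxy]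
  · rintro ⟨_, x, rfl⟩
    refine ⟨⟨u * e * x, x, rfl⟩, ?_⟩
    apply Subtype.ext
    simp only [← mul_assoc, h, one_mul]

theorem rkc_mul_unit {u v : A} (h : u * v = 1) (e : A) : rkc (e * u) = rkc e := by
  unfold rkc
  congr 2
  ext z
  constructor
  · rintro ⟨x, rfl⟩
    exact ⟨u * x, by simp only [mul_assoc]⟩
  · rintro ⟨x, rfl⟩
    exact ⟨v * x, by simp only [mul_assoc]; rw [← mul_assoc u v x, h, one_mul]⟩

theorem rkc_conj [StarRing A] [Finite A] {g g' : A} (h : g * g' = 1) (e : A) :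
    rkc (g * e * star g) = rkc e := by
  have h' : g' * g = 1 := by
    have hinj : Function.Injective fun x : A => g' * x := by
      intro x y hxy
      have h1 := congrArg (fun z => g * z) hxy
      simp only [← mul_assoc, h, one_mul] at h1
      exact h1
    obtain ⟨z, hz⟩ := (Finite.injective_iff_surjective.1 hinj) 1
    have hz' : g' * z = 1 := hz
    have : g = z := by
      calc g = g * (g' * z) := by rw [hz', mul_one]
        _ = z := by rw [← mul_assoc, h, one_mul]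
    rw [this]
    exact hz'
  have h3 : star g * star g' = 1 := by rw [← star_mul, h', star_one]
  rw [rkc_mul_unit h3, rkc_unit_mul h']

theorem one_le_rkc [Finite A] (e : A) : 1 ≤ rkc e := by
  unfold rkc
  have : Finite (Set.range fun x : A => e * x) := Subtype.finite
  have : Nonempty (Set.range fun x : A => e * x) := ⟨⟨_, 0, rfl⟩⟩
  exact Nat.card_pos

end Fin

section Nat

theorem pow_big (N l : ℕ) (hl : 2 * N + 10 ≤ l) : N * (l + 1) + 8 ≤ 2 ^ l := by
  induction l, hl using Nat.le_induction with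
  | base =>
    have h1 : N + 1 ≤ 2 ^ N := Nat.lt_two_pow_self
    have h2 : 2 ^ (2 * N + 10) = 1024 * (2 ^ N * 2 ^ N) := by
      rw [pow_add, two_mul, pow_add]
      ring
    have h3 : (N + 1) * (N + 1) ≤ 2 ^ N * 2 ^ N := Nat.mul_le_mul h1 h1
    rw [h2]
    nlinarith
  | succ l hl ih =>
    rw [pow_succ]
    have : N ≤ N * (l + 1) := Nat.le_mul_of_pos_right _ (by omega)
    nlinarith

theorem log_bound (N q c : ℕ) (hq : 2 ^ (2 * N + 10) ≤ q) (hc : c ≤ q ^ N) :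
    Nat.log 2 c + 8 ≤ q := by
  have hq0 : q ≠ 0 := by
    have : 0 < 2 ^ (2 * N + 10) := by positivity
    omega
  have h1 : q < 2 ^ (Nat.log 2 q + 1) := Nat.lt_pow_succ_log_self (by norm_num) q
  have h2 : c ≤ 2 ^ (N * (Nat.log 2 q + 1)) := by
    refine hc.trans ?_
    rw [mul_comm, pow_mul]
    exact Nat.pow_le_pow_left h1.le _
  have h3 : Nat.log 2 c ≤ N * (Nat.log 2 q + 1) := by
    calc Nat.log 2 c ≤ Nat.log 2 (2 ^ (N * (Nat.log 2 q + 1))) := Nat.log_mono_right h2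
      _ = _ := Nat.log_pow (by norm_num) _
  have h4 : 2 * N + 10 ≤ Nat.log 2 q := by
    have := Nat.log_mono_right (b := 2) hq
    rwa [Nat.log_pow (by norm_num)] at this
  have h5 := pow_big N _ h4
  have h6 : 2 ^ Nat.log 2 q ≤ q := Nat.pow_log_le_self 2 hq0
  omega

end Nat

section Loc

variable {R k : Type*} {D : Type*} [CommRing R] [IsDedekindDomain R] [Field k] [Algebra R k]
  [IsFractionRing R k] [Ring D] [StarRing D] [Algebra k D]
  [Algebra R D] [IsScalarTower R k D] {A : Type*} [Ring A] [StarRing A] {O O' : Subalgebra R D}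
  {v : HeightOneSpectrum R}

theorem exists_inv_mod {t : R} (ht : t ∉ v.asIdeal) : ∃ d : R, 1 - d * t ∈ v.asIdeal := by
  obtain ⟨d, m, hm, hdm⟩ := v.isMaximal.exists_inv ht
  refine ⟨d, ?_⟩
  rw [← hdm, add_sub_cancel_left]
  exact hm

theorem pi_eq_zero_of_mem (ρ : Res k O v.asIdeal A) {ϖ : k}
    (hϖ' : ∃ a ∈ v.asIdeal, ∃ b ∉ v.asIdeal, algebraMap R k b = ϖ * algebraMap R k a) {t : R}
    (ht : t ∉ v.asIdeal) {x : O} (h : t • (ϖ • (x : D)) ∈ O) : ρ.π x = 0 := by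
  obtain ⟨a, ha, b, hb, hab⟩ := hϖ'
  obtain ⟨z, hz⟩ : ∃ z : O, (z : D) = t • (ϖ • (x : D)) := ⟨⟨_, h⟩, rfl⟩
  have h4 : a • z = (t * b) • x := by
    apply Subtype.ext
    show a • (z : D) = (t * b) • (x : D)
    rw [hz, ← algebraMap_smul k t, ← algebraMap_smul k a, smul_smul, smul_smul,
      ← algebraMap_smul k (t * b), map_mul, hab]
    congr 1
    ring
  have h5 : ρ.π ((t * b) • x) = 0 := by
    rw [← h4]
    exact ρ.kill a ha z
  have hcb : t * b ∉ v.asIdeal := fun h6 => (v.isPrime.mem_or_mem h6).elim ht hb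
  obtain ⟨d, hd⟩ := exists_inv_mod hcb
  have h8 : x = d • ((t * b) • x) + (1 - d * (t * b)) • x := by
    rw [sub_smul, one_smul, smul_smul, add_sub_cancel]
  rw [h8, map_add, Res.smul_zero ρ d h5, ρ.kill _ hd, add_zero]

theorem exists_rep {M : Set R} (hM : ∀ y ∈ O', ∃ t ∈ M, t • y ∈ O)
    (hMv : ∀ t ∈ M, t ∉ v.asIdeal) {ϖ : k}
    (hϖ' : ∃ a ∈ v.asIdeal, ∃ b ∉ v.asIdeal, algebraMap R k b = ϖ * algebraMap R k a)
    {y : D} (hy : ∀ a ∈ v.asIdeal, a • y ∈ O') :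
    ∃ r : R, r • y ∈ O ∧ y - ϖ • (r • y) ∈ O' := by
  obtain ⟨a, ha, b, hb, hab⟩ := hϖ'
  obtain ⟨t, ht, h⟩ := hM _ (hy a ha)
  have hcb : t * b ∉ v.asIdeal := fun h6 => (v.isPrime.mem_or_mem h6).elim (hMv t ht) hb
  obtain ⟨d, hd⟩ := exists_inv_mod hcb
  refine ⟨d * t * a, ?_, ?_⟩
  · rw [mul_smul, mul_smul]
    exact O.smul_mem h d
  · have h1 : y - ϖ • ((d * t * a) • y) = (1 - d * (t * b)) • y := by
      rw [sub_smul, one_smul]
      congr 1
      rw [← algebraMap_smul k (d * t * a), smul_smul, ← algebraMap_smul k (d * (t * b))]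
      congr 1
      rw [map_mul, map_mul, map_mul, map_mul, hab]
      ring
    rw [h1]
    exact hy _ hd

theorem den_varpi (ρ : Res k O v.asIdeal A) {ϖ : k}
    (hϖ : ∀ a ∈ v.asIdeal, ∃ b : R, algebraMap R k b = ϖ * algebraMap R k a)
    (hϖ' : ∃ a ∈ v.asIdeal, ∃ b ∉ v.asIdeal, algebraMap R k b = ϖ * algebraMap R k a) (x : O) :
    H699.den O.toSubring (ϖ • (x : D)) = rkc (ρ.π x) := by
  set Ψ : O →+ A := {
    toFun := fun z => ρ.π x * ρ.π z
    map_zero' := by rw [map_zero, mul_zero]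
    map_add' := by
      intro a b
      rw [map_add, mul_add] } with hΨ
  have hΨa : ∀ z, Ψ z = ρ.π x * ρ.π z := fun z => rfl
  have hker : Ψ.ker = (H699.colon O.toSubring (ϖ • (x : D))).addSubgroupOf
      O.toSubring.toAddSubgroup := by
    ext z
    rw [AddMonoidHom.mem_ker, hΨa, ← map_mul, AddSubgroup.mem_addSubgroupOf, H699.mem_colon]
    have h1 : (ϖ • (x : D)) * (z : D) = ϖ • ((x * z : O) : D) := smul_mul_assoc _ _ _
    constructor
    · intro h
      refine ⟨z.2, ?_⟩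
      rw [h1]
      exact ρ.quo _ h ϖ hϖ
    · rintro ⟨-, h⟩
      rw [h1] at h
      refine pi_eq_zero_of_mem ρ hϖ' (t := 1) (fun h => v.isPrime.ne_top
        ((Ideal.eq_top_iff_one _).2 h)) ?_
      rw [one_smul]
      exact h
  have h0 : H699.den O.toSubring (ϖ • (x : D)) = Ψ.ker.index := by
    rw [hker]
    rfl
  rw [h0, AddSubgroup.index_ker]
  unfold rkc
  refine Nat.card_congr (Equiv.ofBijective (fun y => ⟨y.1, ?_⟩) ⟨?_, ?_⟩)
  · obtain ⟨z, hz⟩ := y.2
    exact ⟨ρ.π z, hz⟩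
  · intro y y' h
    simp only [Subtype.mk.injEq] at h
    exact Subtype.ext h
  · rintro ⟨_, a, rfl⟩
    obtain ⟨z, rfl⟩ := ρ.surj a
    exact ⟨⟨_, z, rfl⟩, rfl⟩

/-- a denominator prime to `M` -/
theorem exists_coprime {M : Set R} {B₁ : Set (HeightOneSpectrum R)} (hB₁ : B₁.Finite)
    (hMB : ∀ t ∈ M, t ≠ 0 ∧ ∀ w : HeightOneSpectrum R, t ∈ w.asIdeal → w ∈ B₁) (hv : v ∉ B₁) :
    ∃ a ∈ v.asIdeal, ∀ t ∈ M, IsCoprime a t := by
  classical
  have h6 : ¬ (v.asIdeal : Set R) ⊆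
      ⋃ P ∈ (↑(hB₁.toFinset.image fun w : HeightOneSpectrum R => w.asIdeal) : Set (Ideal R)),
        (P : Set R) := by
    rw [Ideal.subset_union_prime (⊤ : Ideal R) ⊤ (fun P hP _ _ => by
      obtain ⟨w, -, rfl⟩ := Finset.mem_image.1 hP
      exact w.isPrime)]
    rintro ⟨P, hP, hle⟩
    obtain ⟨w, hw, rfl⟩ := Finset.mem_image.1 hP
    have h7 : v = w := HeightOneSpectrum.ext (v.isMaximal.eq_of_le w.isPrime.ne_top hle)
    exact hv (by rw [h7]; simpa using hw)
  rw [Set.not_subset] at h6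
  obtain ⟨a, ha, ha'⟩ := h6
  have haB : ∀ w ∈ B₁, a ∉ w.asIdeal := by
    intro w hw h
    apply ha'
    simp only [Set.mem_iUnion]
    exact ⟨w.asIdeal, by
      rw [Finset.mem_coe]
      exact Finset.mem_image.2 ⟨w, by simpa using hw, rfl⟩, h⟩
  refine ⟨a, ha, fun t ht => ?_⟩
  rw [← Ideal.isCoprime_span_singleton_iff, Ideal.isCoprime_iff_sup_eq]
  by_contra hne'
  obtain ⟨P, hP, hle⟩ := Ideal.exists_le_maximal _ hne'
  have hat : t ∈ P := hle (Ideal.mem_sup_right (Ideal.mem_span_singleton_self t))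
  have haa : a ∈ P := hle (Ideal.mem_sup_left (Ideal.mem_span_singleton_self a))
  let w : HeightOneSpectrum R := ⟨P, hP.isPrime, fun h => (hMB t ht).1 (by
    rw [h] at hat
    simpa using hat)⟩
  exact haB w ((hMB t ht).2 w hat) haa

open Vale.Agent.P011.H40 in
/-- the torsion module at a good prime -/
theorem exists_equiv_Tv (hst : ∀ (r : R) (x : D), star (r • x) = r • star x)
    (hstk : ∀ (c : k) (x : D), star (c • x) = c • star x)
    (hO : ∀ x ∈ O, star x ∈ O) (hOO : O ≤ O') {M : Set R}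
    (hM : ∀ y ∈ O', ∃ t ∈ M, t • y ∈ O) {B₁ : Set (HeightOneSpectrum R)}
    (hB₁ : B₁.Finite) (hMB : ∀ t ∈ M, t ≠ 0 ∧ ∀ w : HeightOneSpectrum R, t ∈ w.asIdeal → w ∈ B₁)
    (hv : v ∉ B₁) (ρ : Res k O v.asIdeal A)
    (hτ : ∃ τ τ' : O, (τ' : D) = star (τ : D) ∧ (∀ x : O, x * τ = τ * x) ∧
      (∀ x : O, x * τ' = τ' * x) ∧ ρ.π (τ + τ') = 1) :
    ∃ Φ : {e : A // star e = e} ≃ Tv hst O' v.asIdeal,
      (∀ e e' e'' : {e : A // star e = e}, e''.1 = e.1 + e'.1 →
        (Φ e'' : TM hst O') = Φ e + Φ e') ∧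
      ∀ (x : ℝ) (e : {e : A // star e = e}),
        wtT hst O' x (Φ e : TM hst O') = (rkc e.1 : ℝ) ^ (-x) := by
  classical
  obtain ⟨ϖ, hϖ, hϖ'⟩ := exists_varpi (k := k) v
  have hMv : ∀ t ∈ M, t ∉ v.asIdeal := fun t ht h => hv ((hMB t ht).2 v h)
  -- symmetric lifts
  have hlift : ∀ e : {e : A // star e = e}, ∃ x : O, star (x : D) = x ∧ ρ.π x = e.1 := by
    rintro ⟨e, he⟩
    obtain ⟨τ, τ', hτ, -, hc, h1⟩ := hτ
    obtain ⟨x, hx⟩ := ρ.surj e
    let x' : O := ⟨star (x : D), hO _ x.2⟩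
    have hx' : ρ.π x' = e := by
      rw [ρ.star_comm x x' rfl, hx, he]
    refine ⟨τ * x + x' * τ', ?_, ?_⟩
    · show star ((τ : D) * (x : D) + star (x : D) * (τ' : D)) =
        (τ : D) * (x : D) + star (x : D) * (τ' : D)
      rw [star_add, star_mul, star_mul, star_star, hτ, star_star, add_comm]
    · rw [hc, map_add, map_mul, map_mul, hx, hx', ← add_mul, ← map_add, h1, one_mul]
  choose ε hεs hε using hlift
  have hmem0 : ∀ x : O, ρ.π x = 0 → ϖ • (x : D) ∈ O := fun x hx => ρ.quo x hx ϖ hϖ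
  have hmem1 : ∀ x : O, ϖ • (x : D) ∈ O' → ρ.π x = 0 := by
    intro x hx
    obtain ⟨t, ht, h⟩ := hM _ hx
    exact pi_eq_zero_of_mem ρ hϖ' (hMv t ht) h
  have hsym : ∀ e, star (ϖ • (ε e : D)) = ϖ • (ε e : D) := by
    intro e
    rw [hstk, hεs]
  have hTv : ∀ e, (Submodule.Quotient.mk (⟨ϖ • (ε e : D), hsym e⟩ : SymR hst) : TM hst O') ∈
      Tv hst O' v.asIdeal := by
    intro e a ha
    rw [← Submodule.Quotient.mk_smul, mk_eq_zero]
    obtain ⟨b, hb⟩ := hϖ a ha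
    show a • (ϖ • (ε e : D)) ∈ O'
    have h1 : a • (ϖ • (ε e : D)) = b • (ε e : D) := by
      rw [← algebraMap_smul k a, smul_smul, mul_comm, ← hb, algebraMap_smul]
    rw [h1]
    exact hOO (O.smul_mem (ε e).2 b)
  obtain ⟨a, hav, hacop⟩ := exists_coprime hB₁ hMB hv
  refine ⟨Equiv.ofBijective (fun e => ⟨_, hTv e⟩) ⟨?_, ?_⟩, ?_, ?_⟩
  · intro e e' h
    have h1 := (mk_eq_mk hst).1 (congrArg Subtype.val h)
    have h2 : ϖ • ((ε e - ε e' : O) : D) ∈ O' := by
      rw [AddSubgroupClass.coe_sub, smul_sub]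
      exact h1
    have h3 := hmem1 _ h2
    rw [map_sub, hε, hε, sub_eq_zero] at h3
    exact Subtype.ext h3
  · rintro ⟨t, ht⟩
    obtain ⟨y, rfl⟩ := Submodule.Quotient.mk_surjective _ t
    have hy : ∀ a ∈ v.asIdeal, a • (y : D) ∈ O' := by
      intro a ha
      have := ht a ha
      rwa [← Submodule.Quotient.mk_smul, mk_eq_zero] at this
    obtain ⟨r, hr, hr'⟩ := exists_rep hM hMv hϖ' hy
    have hys : star (y : D) = y := y.2
    obtain ⟨x, hx⟩ : ∃ x : O, (x : D) = r • (y : D) := ⟨⟨_, hr⟩, rfl⟩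
    have hxs : star (x : D) = x := by rw [hx, hst, hys]
    have hxA : star (ρ.π x) = ρ.π x := (ρ.star_comm x x hxs.symm).symm
    refine ⟨⟨ρ.π x, hxA⟩, ?_⟩
    apply Subtype.ext
    show (Submodule.Quotient.mk _ : TM hst O') = Submodule.Quotient.mk y
    rw [mk_eq_mk]
    show ϖ • (ε ⟨ρ.π x, hxA⟩ : D) - (y : D) ∈ O'
    have h4 : ϖ • (ε ⟨ρ.π x, hxA⟩ : D) - (y : D) =
        ϖ • ((ε ⟨ρ.π x, hxA⟩ - x : O) : D) - ((y : D) - ϖ • (r • (y : D))) := by
      rw [AddSubgroupClass.coe_sub, smul_sub, hx]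
      abel
    rw [h4]
    refine O'.sub_mem (hOO (hmem0 _ ?_)) hr'
    rw [map_sub, hε, sub_self]
  · intro e e' e'' h
    show (Submodule.Quotient.mk _ : TM hst O') = Submodule.Quotient.mk _ + Submodule.Quotient.mk _
    rw [← Submodule.Quotient.mk_add, mk_eq_mk]
    show ϖ • (ε e'' : D) - (ϖ • (ε e : D) + ϖ • (ε e' : D)) ∈ O'
    have h4 : ϖ • (ε e'' : D) - (ϖ • (ε e : D) + ϖ • (ε e' : D)) =
        ϖ • ((ε e'' - (ε e + ε e') : O) : D) := by
      rw [AddSubgroupClass.coe_sub, AddMemClass.coe_add, smul_sub, smul_add]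
    rw [h4]
    refine hOO (hmem0 _ ?_)
    rw [map_sub, map_add, hε, hε, hε, h, sub_self]
  · intro x e
    show wtT hst O' x (Submodule.Quotient.mk _) = _
    rw [wtT_mk]
    show (H699.den O'.toSubring (ϖ • (ε e : D)) : ℝ) ^ (-x) = _
    have h1 : a • (ϖ • (ε e : D)) ∈ O := by
      obtain ⟨b, hb⟩ := hϖ a hav
      have h1 : a • (ϖ • (ε e : D)) = b • (ε e : D) := by
        rw [← algebraMap_smul k a, smul_smul, mul_comm, ← hb, algebraMap_smul]
      rw [h1]
      exact O.smul_mem (ε e).2 b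
    rw [den_loc hOO hM hacop h1, den_varpi ρ hϖ hϖ', hε]

end Loc

end Vale.Agent.P011.H973

namespace Vale.Agent.P011.H40

open Vale.Agent.P011.H973

section

variable {R k K : Type*} {D : Type u} [CommRing R] [IsDedekindDomain R] [Field k] [Algebra R k]
  [IsFractionRing R k] [Field K] [Ring D] [StarRing D] [Algebra k K] [Algebra k D] [Algebra K D]
  [IsScalarTower k K D] [Algebra R D] [IsScalarTower R k D]

theorem local_pkg [IsSimpleRing D] [Algebra.IsCentral K D] (h2 : Module.finrank k K = 2)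
    (hstar : ∀ c : k, star (algebraMap k D c) = algebraMap k D c)
    (hst : ∀ (r : R) (x : D), star (r • x) = r • star x)
    (hne : ∃ z : K, star (algebraMap K D z) ≠ algebraMap K D z)
    {n : ℕ} (hn : n ≠ 0) (hdim : Module.finrank K D = n ^ 2) {O : Subalgebra R D}
    (hO : ∀ x ∈ O, star x ∈ O) (hfg : (Subalgebra.toSubmodule O).FG)
    (hfrac : ∀ x : D, ∃ a : R, a ≠ 0 ∧ a • x ∈ O) {O' : Subalgebra R D} (hOO : O ≤ O') {M : Set R}
    (hM : ∀ y ∈ O', ∃ t ∈ M, t • y ∈ O) {B₁ : Set (HeightOneSpectrum R)}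
    (hB₁ : B₁.Finite) (hMB : ∀ t ∈ M, t ≠ 0 ∧ ∀ w : HeightOneSpectrum R, t ∈ w.asIdeal → w ∈ B₁)
    (hfew : ∀ m : ℕ, {v : HeightOneSpectrum R | Finite (R ⧸ v.asIdeal) ∧
      Nat.card (R ⧸ v.asIdeal) ≤ m}.Finite) :
    ∃ Bd : Set (HeightOneSpectrum R), Bd.Finite ∧ B₁ ⊆ Bd ∧ ∀ v ∉ Bd, Finite (R ⧸ v.asIdeal) →
      (∀ x : ℝ, 1 + (1 - 1 / (Nat.card (R ⧸ v.asIdeal) : ℝ)) *
        (Nat.card (R ⧸ v.asIdeal) : ℝ) ^ (-(1 + 2 * n * (x - 1))) ≤
          ∑' t : Tv hst O' v.asIdeal, wtT hst O' x t) ∧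
      ∀ (x : ℝ) (χ : TM hst O' → ℂ), (∀ t t', χ (t + t') = χ t * χ t') → (∀ t, ‖χ t‖ = 1) →
        (∃ t ∈ Tv hst O' v.asIdeal, χ t ≠ 1) →
        ‖∑' t : Tv hst O' v.asIdeal, (wtT hst O' x t : ℂ) * χ t‖ ≤
          (∑' t : Tv hst O' v.asIdeal, wtT hst O' x t) -
            1 / (4 * (n : ℝ) ^ 2) * ((∑' t : Tv hst O' v.asIdeal, wtT hst O' x t) - 1) := by
  classical
  obtain ⟨B, hB, hgood⟩ := exists_good_order (D := D) h2 hstar hne hn hdim hO hfg hfrac
  have hstk : ∀ (c : k) (x : D), star (c • x) = c • star x := by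
    intro c x
    rw [Algebra.smul_def, star_mul, hstar, ← Algebra.commutes, ← Algebra.smul_def]
  refine ⟨B ∪ B₁ ∪ {v | Finite (R ⧸ v.asIdeal) ∧
    Nat.card (R ⧸ v.asIdeal) ≤ 2 ^ (2 * (2 * n ^ 2) + 10) + 4 * n ^ 2}, (hB.union hB₁).union
      (hfew _), fun v hv => Or.inl (Or.inr hv), ?_⟩
  intro v hv hvfin
  simp only [Set.mem_union, Set.mem_ofPred_eq, not_or, not_and, not_le] at hv
  obtain ⟨⟨hvB, hvB₁⟩, hvbig⟩ := hv
  have hqbig := hvbig hvfin
  obtain ⟨A, _, _, ρ, hAfin, hAcard, hcount, hτ, hsimple⟩ := hgood v hvB hvfin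
  obtain ⟨Φ, hΦadd, hΦwt⟩ := exists_equiv_Tv (k := k) hst hstk hO hOO hM hB₁ hMB hvB₁ ρ hτ
  obtain ⟨q, hqdef⟩ : ∃ q, q = Nat.card (R ⧸ v.asIdeal) := ⟨_, rfl⟩
  rw [← hqdef] at hqbig hAcard hcount ⊢
  have hn1 : 1 ≤ n := Nat.one_le_iff_ne_zero.2 hn
  have hq2 : 2 ≤ q := by
    have : 2 ^ 1 ≤ 2 ^ (2 * (2 * n ^ 2) + 10) := Nat.pow_le_pow_right (by norm_num) (by omega)
    omega
  let hftA : Fintype A := Fintype.ofFinite A
  have hsum : ∀ x : ℝ, ∑' t : Tv hst O' v.asIdeal, wtT hst O' x t =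
      ∑ e : A with star e = e, (rkc e : ℝ) ^ (-x) := by
    intro x
    rw [← Φ.tsum_eq, tsum_fintype, Finset.sum_subtype (Finset.univ.filter fun e : A => star e = e)
      (p := fun e => star e = e) (by simp) (fun e => (rkc e : ℝ) ^ (-x))]
    exact Finset.sum_congr rfl fun e _ => hΦwt x e
  constructor
  · intro x
    refine (local_factor hq2 hn hcount x).trans (le_of_eq ?_)
    rw [hsum, Finset.sum_subtype (Finset.univ.filter fun e : A => star e = e)
      (p := fun e => star e = e) (by simp) (fun e => (rkc e : ℝ) ^ (-x))]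
  · intro x χ hχ hχ1 hχne
    let hF : Field (R ⧸ v.asIdeal) := Ideal.Quotient.field v.asIdeal
    -- the residue field in the centre
    let γ : (R ⧸ v.asIdeal) →+* A := Ideal.Quotient.lift v.asIdeal (ρ.π.comp (algebraMap R O)) (by
      intro a ha
      have := ρ.kill a ha 1
      rwa [Algebra.smul_def, mul_one] at this)
    have hγ : ∀ a, γ (Ideal.Quotient.mk _ a) = ρ.π (algebraMap R O a) := fun a => rfl
    have hγc : ∀ c y, γ c * y = y * γ c := by
      intro c y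
      obtain ⟨c, rfl⟩ := Ideal.Quotient.mk_surjective c
      obtain ⟨y, rfl⟩ := ρ.surj y
      rw [hγ, ← map_mul, ← map_mul, Algebra.commutes]
    have hγs : ∀ c, star (γ c) = γ c := by
      intro c
      obtain ⟨c, rfl⟩ := Ideal.Quotient.mk_surjective c
      rw [hγ]
      refine (ρ.star_comm _ _ ?_).symm
      show algebraMap R D c = star (algebraMap R D c)
      rw [IsScalarTower.algebraMap_apply R k D, hstar]
    obtain ⟨τ, τ', hτs, hτc, -, hτ1⟩ := hτ
    have hτc' : ∀ y, ρ.π τ * y = y * ρ.π τ := by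
      intro y
      obtain ⟨y, rfl⟩ := ρ.surj y
      rw [← map_mul, ← map_mul, hτc]
    have hτ1' : ρ.π τ + star (ρ.π τ) = 1 := by
      rw [← ρ.star_comm τ τ' hτs, ← map_add, hτ1]
    let ψ : A → ℂ := fun e => if h : star e = e then χ (Φ ⟨e, h⟩ : Tv hst O' v.asIdeal) else 1
    have hψ : ∀ e : {e : A // star e = e}, ψ e.1 = χ (Φ e : Tv hst O' v.asIdeal) := by
      intro e
      have h1 : star e.1 = e.1 := e.2
      simp only [ψ, h1, dite_true]
    have hsum' : ∑' t : Tv hst O' v.asIdeal, (wtT hst O' x t : ℂ) * χ t =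
        ∑ e : A with star e = e, (((rkc e : ℝ) ^ (-x) : ℝ) : ℂ) * ψ e := by
      rw [← Φ.tsum_eq, tsum_fintype, Finset.sum_subtype
        (Finset.univ.filter fun e : A => star e = e) (p := fun e => star e = e) (by simp)
        (fun e => (((rkc e : ℝ) ^ (-x) : ℝ) : ℂ) * ψ e)]
      refine Finset.sum_congr rfl fun e _ => ?_
      rw [hΦwt x e, hψ e]
    have hcardF : Nat.card (R ⧸ v.asIdeal) = q := hqdef.symm
    have key := H704.local_bound (A := A) (F := R ⧸ v.asIdeal) γ hγc hγs hτc' hτ1' hsimple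
      (d := 2 * n ^ 2) (by
        rw [hcardF]
        exact (Nat.card_le_card_of_injective (Subtype.val : {e : A // star e = e} → A)
          Subtype.val_injective).trans hAcard) (by
        rw [hcardF]
        exact log_bound (2 * n ^ 2) q _ (by omega) hAcard) ψ (by
        intro a b ha hb
        have hab : star (a + b) = a + b := by rw [star_add, ha, hb]
        rw [hψ ⟨a, ha⟩, hψ ⟨b, hb⟩, hψ ⟨a + b, hab⟩, hΦadd ⟨a, ha⟩ ⟨b, hb⟩ ⟨a + b, hab⟩ rfl, hχ])
      (by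
        intro a ha
        rw [hψ ⟨a, ha⟩]
        exact hχ1 _) (by
        obtain ⟨t, ht, hne⟩ := hχne
        refine ⟨(Φ.symm ⟨t, ht⟩).1, (Φ.symm ⟨t, ht⟩).2, ?_⟩
        rw [hψ, Equiv.apply_symm_apply]
        exact hne) (fun e => (rkc e : ℝ) ^ (-x)) (fun e => by positivity) (by
        intro g g' e h
        rw [rkc_conj h]) (by
        intro c e hc
        rw [rkc_unit_mul (v := γ c⁻¹)]
        rw [← map_mul, inv_mul_cancel₀ hc, map_one])
    rw [hsum', hsum]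
    refine key.trans ?_
    rw [hcardF, rkc_zero, Nat.cast_one, Real.one_rpow]
    set S := ∑ e : A with star e = e, (rkc e : ℝ) ^ (-x) with hS
    have hS1 : 1 ≤ S := by
      have h0 : (0 : A) ∈ Finset.univ.filter fun e : A => star e = e := by simp
      have h1 := Finset.single_le_sum (f := fun e : A => (rkc e : ℝ) ^ (-x))
        (s := Finset.univ.filter fun e : A => star e = e) (fun e _ => by positivity) h0
      simp only [rkc_zero, Nat.cast_one, Real.one_rpow] at h1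
      exact h1
    have hnR : (0 : ℝ) < n := by positivity
    have hqR : (4 * (n : ℝ) ^ 2) ≤ (q : ℝ) - 1 := by
      have : 4 * n ^ 2 + 1 ≤ q := by
        have : 0 < 2 ^ (2 * (2 * n ^ 2) + 10) := by positivity
        omega
      have h1 : ((4 * n ^ 2 + 1 : ℕ) : ℝ) ≤ q := by exact_mod_cast this
      push_cast at h1
      linarith
    have h4 : 1 / (4 * (n : ℝ) ^ 2) ≤ 1 / ((2 * n ^ 2 : ℕ) : ℝ) - 1 / ((q : ℝ) - 1) := by
      have h5 : 1 / ((q : ℝ) - 1) ≤ 1 / (4 * (n : ℝ) ^ 2) :=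
        one_div_le_one_div_of_le (by positivity) hqR
      have h6 : 1 / ((2 * n ^ 2 : ℕ) : ℝ) = 1 / (4 * (n : ℝ) ^ 2) + 1 / (4 * (n : ℝ) ^ 2) := by
        push_cast
        field_simp
        norm_num
      linarith
    have h7 := mul_le_mul_of_nonneg_right h4 (sub_nonneg.2 hS1)
    linarith

end

end Vale.Agent.P011.H40
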