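import Vale.Agent.P011.H973.LowOpen
import Vale.Agent.P011.H380.Model
import Vale.Agent.P011.H74.BCR

/-!
# Lower bound of the mass of the elements of small height in open sets, any anisotropic ring

Twin of `LowOpen.lean` where `A` is not assumed to be a division ring.
-/

set_option autoImplicit false
set_option linter.unusedSectionVars false

open MeasureTheory Filter Topology Set Module
open scoped ENNReal NNReal Pointwise

namespace Vale.Agent.P011.H973.Rg

open Vale.Agent.P011.H74 Vale.Agent.P011.H380.UpBC Vale.Agent.P011.H380.UnitsTop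

section Alg

variable {E : Type*} [Ring E] {Λ : Subring E}

theorem den_mul_le {a b : E} (ha : H699.den Λ a ≠ 0) (hb : H699.den Λ b ≠ 0) :
    H699.den Λ (a * b) ≤ H699.den Λ a * H699.den Λ b := by
  set f : E →+ E := AddMonoidHom.mulLeft b with hf
  set J : AddSubgroup E := (H699.colon Λ a).comap f with hJ
  have h1 : J ⊓ H699.colon Λ b ≤ H699.colon Λ (a * b) := by
    rintro x ⟨h1, h2⟩
    refine ⟨h2.1, ?_⟩
    rw [mul_assoc]
    exact h1.2
  have h2 : (H699.colon Λ b).map f ≤ Λ.toAddSubgroup := by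
    rintro _ ⟨x, hx, rfl⟩
    exact hx.2
  have h3 : J.relIndex (H699.colon Λ b) = (H699.colon Λ a).relIndex ((H699.colon Λ b).map f) :=
    AddSubgroup.relIndex_comap _ _ _
  have h4 : J.relIndex (H699.colon Λ b) ≤ H699.den Λ a := by
    rw [h3]
    exact AddSubgroup.relIndex_le_of_le_right h2 ha
  have h5 : J.relIndex (H699.colon Λ b) ≠ 0 := by
    rw [h3]
    exact fun h => ha (AddSubgroup.relIndex_eq_zero_of_le_right h2 h)
  have h6 : (J ⊓ H699.colon Λ b).relIndex Λ.toAddSubgroup =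
      J.relIndex (H699.colon Λ b) * H699.den Λ b := by
    rw [← AddSubgroup.relIndex_mul_relIndex _ _ _ inf_le_right (H699.colon_le Λ b),
      AddSubgroup.inf_relIndex_right]
    rfl
  have h7 : (J ⊓ H699.colon Λ b).relIndex Λ.toAddSubgroup ≠ 0 := by
    rw [h6]
    exact mul_ne_zero h5 hb
  calc H699.den Λ (a * b) ≤ (J ⊓ H699.colon Λ b).relIndex Λ.toAddSubgroup :=
        AddSubgroup.relIndex_le_of_le_left h1 h7
    _ = J.relIndex (H699.colon Λ b) * H699.den Λ b := h6
    _ ≤ _ := Nat.mul_le_mul_right _ h4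

end Alg

section Ret

variable {A : Type*} [Ring A] [StarRing A]

/-- the retraction to the symmetric elements -/
def retq (q x : A) : A := x - q * (x - star x)

theorem star_retq {q : A} (hq : ∀ x, q * x = x * q) (hq1 : q + star q = 1) (x : A) :
    star (retq q x) = retq q x := by
  have h1 : star q = 1 - q := by rw [← hq1]; abel
  rw [retq, star_sub, star_mul, star_sub, star_star, h1, mul_sub, mul_one, ← hq]
  noncomm_ring

theorem retq_of_sym {q x : A} (hx : star x = x) : retq q x = x := by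
  rw [retq, hx, sub_self, mul_zero, sub_zero]

theorem retq_sub (q x y : A) : retq q (x - y) = retq q x - retq q y := by
  rw [retq, retq, retq, star_sub]
  noncomm_ring

end Ret

section Main

variable {k R A E ι : Type*} [Field k] [CommRing R] [TopologicalSpace R] [IsTopologicalRing R]
  [Algebra k R] [Ring A] [StarRing A] [Algebra k A] [Ring E] [StarRing E]
  [TopologicalSpace E] [IsTopologicalRing E] [Algebra R E] [Fintype ι] [DecidableEq ι]
  (B : BCR k R A E ι)

/-- the image of `A` is dense -/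
theorem dense_j (hd : DenseRange (algebraMap k R)) : DenseRange B.j := by
  have h1 : DenseRange fun c : ι → k => fun i => algebraMap k R (c i) := by
    exact DenseRange.piMap fun _ => hd
  have h2 : DenseRange fun c : ι → k => B.φ.symm (fun i => algebraMap k R (c i)) :=
    B.φ.symm.surjective.denseRange.comp h1 B.φ.symm.continuous
  refine h2.mono ?_
  rintro _ ⟨c, rfl⟩
  refine ⟨∑ i, c i • B.a i, ?_⟩
  apply B.φ.injective
  funext i
  rw [B.φ_eq, ContinuousLinearEquiv.apply_symm_apply]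
  congr 1
  simp [Finsupp.single_apply]

theorem retq_j (q x : A) : retq (B.j q) (B.j x) = B.j (retq q x) := by
  rw [retq, retq, ← B.j_star, ← map_sub, ← map_mul, ← map_sub]

theorem continuous_retq (q : A) : Continuous (retq (B.j q)) := by
  have := B.continuousStar
  unfold retq
  fun_prop

theorem sym_dense (hd : DenseRange (algebraMap k R)) {q : A} (hq : ∀ x, q * x = x * q)
    (hq1 : q + star q = 1) {V : Set E} (hV : IsOpen V) {e : E} (he : star e = e) (heV : e ∈ V) :
    ∃ v : A, star v = v ∧ B.j v ∈ V := by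
  have h1 : IsOpen (retq (B.j q) ⁻¹' V) := hV.preimage (continuous_retq B q)
  obtain ⟨a, ha⟩ := (dense_j B hd).exists_mem_open h1 ⟨e, by
    rw [mem_preimage, retq_of_sym he]
    exact heV⟩
  refine ⟨retq q a, star_retq hq hq1 a, ?_⟩
  rw [← retq_j]
  exact ha

include B in
/-- A finite family of elements of `A` has a common denominator. -/
theorem exists_smul_mem {O : Subring k} (hO : ∀ x : k, ∃ d ∈ O, d ≠ 0 ∧ d * x ∈ O)
    {Lam : Subring A} (H : IsOrdR B.a O Lam) {κ : Type*} (s : Finset κ) (f : κ → A) :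
    ∃ m : k, m ≠ 0 ∧ ∀ p ∈ s, m • f p ∈ Lam := by
  classical
  have hfin : ∀ (κ : Type _) (s : Finset κ) (f : κ → k), ∃ d ∈ O, d ≠ 0 ∧ ∀ i ∈ s, d * f i ∈ O := by
    intro κ s f
    induction s using Finset.induction_on with
    | empty => exact ⟨1, O.one_mem, one_ne_zero, by simp⟩
    | insert i s hi ih =>
      obtain ⟨d, hd, hd0, hd1⟩ := ih
      obtain ⟨e, he, he0, he1⟩ := hO (f i)
      refine ⟨d * e, O.mul_mem hd he, mul_ne_zero hd0 he0, fun j hj => ?_⟩
      rcases Finset.mem_insert.1 hj with rfl | hj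
      · rw [mul_assoc]; exact O.mul_mem hd he1
      · rw [mul_comm d e, mul_assoc]; exact O.mul_mem he (hd1 j hj)
  obtain ⟨d, hd, hlo⟩ := H.lo
  obtain ⟨m, hm, hm0, hm1⟩ := hfin (κ × ι) (s ×ˢ Finset.univ) (fun p => B.a.repr (f p.1) p.2)
  refine ⟨d * m, mul_ne_zero hd hm0, fun p hp => ?_⟩
  have h1 := hlo (fun i => m * B.a.repr (f p) i) fun i =>
    hm1 (p, i) (Finset.mem_product.2 ⟨hp, Finset.mem_univ _⟩)
  have h2 : (d * m) • f p = ∑ i, (d * (m * B.a.repr (f p) i)) • B.a i := by
    conv_lhs => rw [← B.a.sum_repr (f p)]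
    rw [Finset.smul_sum]
    refine Finset.sum_congr rfl fun i _ => ?_
    rw [smul_smul, mul_assoc]
  rw [h2]
  exact h1

theorem star_smul_A [Nontrivial R] (B : BCR k R A E ι) (c : k) (y : A) :
    star (c • y) = c • star y := by
  apply B.j_inj
  rw [B.j_star, B.j_smul, B.star_smul, B.j_smul, B.j_star]

/-- A left regular element is a unit. -/
theorem isUnit_of_regular [Module.Finite k A] {x : A} (h : ∀ z, x * z = 0 → z = 0) :
    IsUnit x := by
  have hinj : Function.Injective (LinearMap.mulLeft k x) := by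
    intro y z hyz
    rw [LinearMap.mulLeft_apply, LinearMap.mulLeft_apply] at hyz
    rw [← sub_eq_zero]
    apply h
    rw [mul_sub, hyz, sub_self]
  obtain ⟨y, hy⟩ := LinearMap.surjective_of_injective hinj 1
  rw [LinearMap.mulLeft_apply] at hy
  refine ⟨⟨x, y, hy, ?_⟩, rfl⟩
  apply hinj
  rw [LinearMap.mulLeft_apply, LinearMap.mulLeft_apply, ← mul_assoc, hy, one_mul, mul_one]

theorem exists_q [Module.Finite k A] {w0 : A} (hw : ∀ x, w0 * x = x * w0)
    (hne : IsUnit (w0 - star w0)) : ∃ q : A, (∀ x, q * x = x * q) ∧ q + star q = 1 := by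
  obtain ⟨u, hu⟩ := hne
  have hw' : ∀ x, star w0 * x = x * star w0 := by
    intro x
    have h := congrArg star (hw (star x))
    rw [star_mul, star_mul, star_star] at h
    exact h.symm
  have huc : ∀ x : A, (u : A) * x = x * u := by
    intro x
    rw [hu, sub_mul, mul_sub, hw, hw']
  have hec : ∀ x : A, ((u⁻¹ : Aˣ) : A) * x = x * ((u⁻¹ : Aˣ) : A) := by
    intro x
    rw [Units.inv_mul_eq_iff_eq_mul, ← mul_assoc, huc, Units.mul_inv_cancel_right]
  have hsu : star (u : A) = -(u : A) := by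
    rw [hu, star_sub, star_star, neg_sub]
  have hse : star ((u⁻¹ : Aˣ) : A) = -((u⁻¹ : Aˣ) : A) := by
    have h1 : star ((u⁻¹ : Aˣ) : A) * star (u : A) = 1 := by
      rw [← star_mul, Units.mul_inv, star_one]
    rw [hsu, mul_neg, neg_eq_iff_eq_neg, ← Units.eq_mul_inv_iff_mul_eq, neg_mul, one_mul] at h1
    exact h1
  refine ⟨w0 * ((u⁻¹ : Aˣ) : A), fun x => ?_, ?_⟩
  · rw [mul_assoc, hec, ← mul_assoc, hw, mul_assoc]
  · rw [star_mul, hse, hw, neg_mul, ← sub_eq_add_neg, ← mul_sub, ← hu, Units.inv_mul]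

theorem isUnit_j {x : A} (h : IsUnit x) : IsUnit (B.j x) := h.map B.j

theorem isUnit_smul_one {m : k} (hm : m ≠ 0) : IsUnit (m • (1 : A)) :=
  ⟨⟨m • 1, m⁻¹ • 1, by rw [smul_mul_smul_comm, mul_inv_cancel₀ hm, one_smul, mul_one], by
    rw [smul_mul_smul_comm, inv_mul_cancel₀ hm, one_smul, mul_one]⟩, rfl⟩

/-- An order is a lattice in `E`. -/
theorem lring [Nontrivial R] {O : Subring k}
    (hOd : ∀ K : Set R, IsCompact K → {c : k | c ∈ O ∧ algebraMap k R c ∈ K}.Finite)
    (hOc : ∃ K : Set R, IsCompact K ∧ ∀ r : R, ∃ c ∈ O, r - algebraMap k R c ∈ K)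
    {Lam : Subring A} [Countable Lam] (H : IsOrdR B.a O Lam) : H699.LRing (Lam.map B.j) := by
  refine ⟨?_, fun K hK => ?_, ?_⟩
  · have : Function.Surjective (fun x : Lam => (⟨B.j x, ⟨x, x.2, rfl⟩⟩ : Lam.map B.j)) := by
      rintro ⟨_, x, hx, rfl⟩
      exact ⟨⟨x, hx⟩, rfl⟩
    exact this.countable
  · refine ((B.disc hOd H K hK).image B.j).subset ?_
    rintro _ ⟨⟨x, hx, rfl⟩, hK⟩
    exact ⟨x, ⟨hx, hK⟩, rfl⟩
  · obtain ⟨K, hK, h⟩ := B.coc hOc H
    refine ⟨K, hK, fun x => ?_⟩
    obtain ⟨a, ha, hx⟩ := h x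
    exact ⟨B.j a, ⟨a, ha, rfl⟩, hx⟩

section lat

variable [Nontrivial R] {O : Subring k}
  (hOd : ∀ K : Set R, IsCompact K → {c : k | c ∈ O ∧ algebraMap k R c ∈ K}.Finite)
  (hOc : ∃ K : Set R, IsCompact K ∧ ∀ r : R, ∃ c ∈ O, r - algebraMap k R c ∈ K)
  (hO : ∀ x : k, ∃ d ∈ O, d ≠ 0 ∧ d * x ∈ O)
  {Lam : Subring A} (H : IsOrdR B.a O Lam)

include hOd hOc hO H

theorem den_ne_zero [Countable Lam] (s : A) : H699.den Lam s ≠ 0 := by
  obtain ⟨m, hm0, hm⟩ := exists_smul_mem B hO H (Finset.univ : Finset (Fin 2)) ![1, s]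
  rw [← H699.den_map B.j B.j_inj]
  refine H699.den_ne_zero (lring B hOd hOc H) (h := B.j (m • 1)) ⟨_, hm 0 (Finset.mem_univ _), rfl⟩
    (isUnit_j B (isUnit_smul_one hm0)) ?_
  rw [← map_mul, mul_smul_comm, mul_one]
  exact ⟨_, hm 1 (Finset.mem_univ _), rfl⟩

/-- the symmetric elements modulo the symmetric elements of the order are bounded -/
theorem sym_coc {q : A} (hq : ∀ x, q * x = x * q) (hq1 : q + star q = 1) :
    ∃ C0 : Set E, IsCompact C0 ∧ ∀ s : A, star s = s → ∃ l ∈ Lam, star l = l ∧ B.j (s - l) ∈ C0 := by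
  obtain ⟨K, hK, hcov⟩ := B.coc hOc H
  obtain ⟨m, hm0, hm⟩ := exists_smul_mem B hO H (Finset.univ : Finset (Fin 2)) ![1, q]
  have hm1 : m • (1 : A) ∈ Lam := hm 0 (Finset.mem_univ _)
  have hmq : m • q ∈ Lam := hm 1 (Finset.mem_univ _)
  have hml : ∀ l ∈ Lam, m • l ∈ Lam := fun l hl => by
    have := Lam.mul_mem hm1 hl
    rwa [smul_mul_assoc, one_mul] at this
  refine ⟨retq (B.j q) '' ((fun c => B.j (m • 1) * c) '' K), (hK.image (by fun_prop)).image
    (continuous_retq B q), fun s hs => ?_⟩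
  obtain ⟨l, hl, hlK⟩ := hcov (B.j (m⁻¹ • s))
  refine ⟨retq q (m • l), ?_, star_retq hq hq1 _, ?_⟩
  · have e1 : retq q (m • l) = m • l - (m • q) * (l - star l) := by
      rw [retq, star_smul_A B, ← smul_sub, mul_smul_comm, smul_mul_assoc]
    rw [e1]
    exact Lam.sub_mem (hml l hl) (Lam.mul_mem hmq (Lam.sub_mem hl (H.star_mem l hl)))
  · refine ⟨B.j (s - m • l), ⟨B.j (m⁻¹ • s) - B.j l, hlK, ?_⟩, ?_⟩
    · simp only
      rw [← map_sub, ← map_mul, smul_mul_assoc, one_mul, smul_sub, smul_smul,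
        mul_inv_cancel₀ hm0, one_smul]
    · rw [retq_j, retq_sub, retq_of_sym hs]

variable [Countable Lam]

/-- **Lower bound for the symmetric elements in an open set.** -/
theorem low_sym [T2Space R] (hd : DenseRange (algebraMap k R)) {q : A}
    (hq : ∀ x, q * x = x * q) (hq1 : q + star q = 1) (hlow : LowIn Lam) {V : Set E}
    (hV : IsOpen V) {e : E} (he : star e = e) (heV : e ∈ V) :
    ∃ c : ℝ, 0 < c ∧ ∀ᶠ x : ℝ in 𝓝[>] 1, ∃ F : Finset A, (∀ s ∈ F, star s = s ∧ B.j s ∈ V) ∧
      c / (x - 1) ≤ ∑ s ∈ F, (H699.den Lam s : ℝ) ^ (-x) := by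
  classical
  have hden : ∀ s : A, H699.den Lam s ≠ 0 := den_ne_zero B hOd hOc hO H
  have hcs := B.continuousStar
  have ht2 := B.t2
  obtain ⟨C0, hC0, hcov⟩ := sym_coc B hOd hOc hO H hq hq1
  obtain ⟨c, hc, hev⟩ := hlow
  -- cover by translates of `V`
  have hC1 : IsCompact (C0 ∩ {z | star z = z}) :=
    hC0.inter_right (isClosed_eq continuous_star continuous_id)
  obtain ⟨t, ht⟩ := hC1.elim_finite_subcover (fun v : {v : A // star v = v} => {z | z - B.j v ∈ V})
    (fun v => hV.preimage (by fun_prop)) (by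
      rintro z ⟨-, hz⟩
      have hz' : star z = z := hz
      have h1 : IsOpen {y : E | z - y ∈ V} := hV.preimage (by fun_prop)
      obtain ⟨v, hv, hvV⟩ := sym_dense B hd hq hq1 h1 (e := z - e) (by rw [star_sub, hz', he]) (by
        show z - (z - e) ∈ V
        rwa [sub_sub_cancel])
      exact mem_iUnion.2 ⟨⟨v, hv⟩, hvV⟩)
  have hch : ∀ s : A, star s = s → ∃ v ∈ t, ∃ l ∈ Lam, star l = l ∧ B.j (s - l - (v : A)) ∈ V := by
    intro s hs
    obtain ⟨l, hl, hls, hlC⟩ := hcov s hs
    have h1 : B.j (s - l) ∈ C0 ∩ {z | star z = z} := ⟨hlC, by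
      show star (B.j (s - l)) = B.j (s - l)
      rw [← B.j_star, star_sub, hs, hls]⟩
    obtain ⟨v, hv⟩ := mem_iUnion.1 (ht h1)
    obtain ⟨hvt, hv2⟩ := mem_iUnion.1 hv
    refine ⟨v, hvt, l, hl, hls, ?_⟩
    rw [map_sub]
    exact hv2
  have hne' : Nonempty {v : A // star v = v} := ⟨⟨0, star_zero A⟩⟩
  choose! vf hvf lf hlf hlfs hV' using hch
  set M : ℕ := ∏ v ∈ t, H699.den Lam (-(v : A)) with hM
  have hM0 : 1 ≤ M := Nat.one_le_iff_ne_zero.2 (Finset.prod_ne_zero_iff.2 fun v _ => hden _)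
  have hMv : ∀ v ∈ t, H699.den Lam (-(v : A)) ≤ M := fun v hv =>
    Nat.le_of_dvd hM0 (Finset.dvd_prod_of_mem _ hv)
  set g : A → A := fun s => s - lf s - (vf s : A) with hg
  have hgden : ∀ s, star s = s → H699.den Lam (g s) ≤ H699.den Lam s * M := by
    intro s hs
    have h1 : H699.den Lam (s - lf s) = H699.den Lam s := by
      rw [sub_eq_add_neg]
      exact H699.den_add (Lam.neg_mem (hlf s hs)) s
    calc H699.den Lam (g s) = H699.den Lam (s - lf s + -(vf s : A)) := by
          simp only [hg, sub_eq_add_neg]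
      _ ≤ H699.den Lam (s - lf s) * H699.den Lam (-(vf s : A)) := den_add_le (hden _) (hden _)
      _ ≤ H699.den Lam s * M := by
        rw [h1]
        exact Nat.mul_le_mul_left _ (hMv _ (hvf s hs))
  have hMr : (1 : ℝ) ≤ M := by exact_mod_cast hM0
  refine ⟨c / ((t.card + 1) * (M : ℝ) ^ 2), by positivity, ?_⟩
  have h12 : Set.Ioc (1 : ℝ) 2 ∈ 𝓝[>] (1 : ℝ) := Ioc_mem_nhdsGT (by norm_num)
  filter_upwards [hev, h12] with x hx hx12
  obtain ⟨F0, hF1, hF2, hF3⟩ := hx
  have hx1 : 0 < x - 1 := sub_pos.2 hx12.1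
  set a : A → ℝ := fun s => (H699.den Lam s : ℝ) ^ (-x) with ha
  have ha0 : ∀ s, 0 ≤ a s := fun s => by rw [ha]; positivity
  -- pigeonhole
  have hmaps : ∀ s ∈ F0, vf s ∈ t := fun s hs => hvf s (hF1 s hs)
  obtain ⟨v, hv⟩ : ∃ v, c / (x - 1) ≤ (t.card + 1) * ∑ s ∈ F0 with vf s = v, a s := by
    by_contra hcon
    push Not at hcon
    have h1 : ∑ s ∈ F0, a s = ∑ v ∈ t, ∑ s ∈ F0 with vf s = v, a s :=
      (Finset.sum_fiberwise_of_maps_to hmaps a).symm
    have h2 : ∑ v ∈ t, ∑ s ∈ F0 with vf s = v, a s ≤ ∑ v ∈ t, c / (x - 1) / (t.card + 1) := by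
      refine Finset.sum_le_sum fun v _ => ?_
      rw [le_div_iff₀ (by positivity), mul_comm]
      exact (hcon v).le
    rw [Finset.sum_const, nsmul_eq_mul] at h2
    have h3 : 0 < c / (x - 1) := div_pos hc hx1
    have h4 : (t.card : ℝ) * (c / (x - 1) / (t.card + 1)) < c / (x - 1) := by
      rw [mul_div_assoc', div_lt_iff₀ (by positivity)]
      nlinarith
    linarith
  have hginj : Set.InjOn g (F0.filter fun s => vf s = v) := by
    intro s hs s' hs' h
    rw [Finset.mem_coe, Finset.mem_filter] at hs hs'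
    refine hF2 s hs.1 s' hs'.1 ?_
    have h1 : s - s' = lf s - lf s' := by
      have h2 : s - lf s - (vf s : A) = s' - lf s' - (vf s' : A) := h
      rw [hs.2, hs'.2] at h2
      have h3 : s - lf s = s' - lf s' := sub_left_injective h2
      rw [sub_eq_sub_iff_add_eq_add] at h3 ⊢
      rw [h3, add_comm]
    rw [h1]
    exact Lam.sub_mem (hlf s (hF1 s hs.1)) (hlf s' (hF1 s' hs'.1))
  refine ⟨(F0.filter fun s => vf s = v).image g, ?_, ?_⟩
  · intro y hy
    obtain ⟨s, hs, rfl⟩ := Finset.mem_image.1 hy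
    have hs1 := hF1 s (Finset.mem_filter.1 hs).1
    refine ⟨?_, hV' s hs1⟩
    rw [hg]
    simp only
    rw [star_sub, star_sub, hs1, hlfs s hs1, (vf s).2]
  · rw [Finset.sum_image hginj]
    have h1 : (M : ℝ) ^ (-2 : ℝ) * ∑ s ∈ F0 with vf s = v, a s ≤
        ∑ s ∈ F0 with vf s = v, (H699.den Lam (g s) : ℝ) ^ (-x) := by
      rw [Finset.mul_sum]
      refine Finset.sum_le_sum fun s hs => ?_
      have hs1 := hF1 s (Finset.mem_filter.1 hs).1
      have h2 : (H699.den Lam (g s) : ℝ) ≤ M * H699.den Lam s := by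
        have := hgden s hs1
        rw [mul_comm] at this
        exact_mod_cast this
      have h3 : (0 : ℝ) < H699.den Lam (g s) := by
        exact_mod_cast Nat.pos_of_ne_zero (hden _)
      calc (M : ℝ) ^ (-2 : ℝ) * a s ≤ (M : ℝ) ^ (-x) * a s := by
            refine mul_le_mul_of_nonneg_right ?_ (ha0 s)
            exact Real.rpow_le_rpow_of_exponent_le hMr (by linarith [hx12.2])
        _ = (M * H699.den Lam s : ℝ) ^ (-x) := by
            rw [Real.mul_rpow (by positivity) (by positivity)]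
        _ ≤ _ := Real.rpow_le_rpow_of_nonpos h3 h2 (by linarith [hx12.1])
    refine le_trans ?_ h1
    have h4 : (M : ℝ) ^ (-2 : ℝ) = ((M : ℝ) ^ 2)⁻¹ := by
      rw [Real.rpow_neg (by positivity)]
      norm_num
    rw [h4, div_div, mul_comm ((t.card + 1 : ℝ) * (M : ℝ) ^ 2), ← div_div]
    rw [div_le_iff₀ (by positivity)]
    calc c / (x - 1) ≤ (t.card + 1) * ∑ s ∈ F0 with vf s = v, a s := hv
      _ = _ := by
        field_simp

/-- **Lower bound for the unitary elements in an open set**, around a point without eigenvalue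
one. -/
theorem low_open_one [T2Space R] [LocallyCompactSpace R] (hRu : GoodUnits R)
    (hd : DenseRange (algebraMap k R)) {w0 : A} (hw : ∀ x, w0 * x = x * w0)
    (hne : IsUnit (w0 - star w0)) (haniso : ∀ x : A, star x * x = 0 → x = 0) (hlow : LowIn Lam)
    {x0 : A} (hx0 : x0 * star x0 = 1) (hx01 : IsUnit (x0 - 1))
    {V : Set E} (hV : IsOpen V) (hxV : B.j x0 ∈ V) :
    ∃ c : ℝ, 0 < c ∧ ∀ᶠ x : ℝ in 𝓝[>] 1, ∃ F : Finset A,
      (∀ y ∈ F, star y * y = 1 ∧ y * star y = 1 ∧ B.j y ∈ V) ∧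
      c ≤ ∑ y ∈ F, (x - 1) * (H699.den Lam y : ℝ) ^ (-x) := by
  classical
  have hden : ∀ s : A, H699.den Lam s ≠ 0 := den_ne_zero B hOd hOc hO H
  have hcs := B.continuousStar
  have ht2 := B.t2
  have hlc := B.locallyCompact
  have hfd : Module.Finite k A := Module.Finite.of_basis B.a
  have hone : ∀ a b : A, a * b = 1 → b * a = 1 := fun a b h => by
    have h1 : IsUnit b := isUnit_of_regular (k := k) fun z hz => by
      rw [← one_mul z, ← h, mul_assoc, hz, mul_zero]
    obtain ⟨u, rfl⟩ := h1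
    rw [Units.mul_eq_one_iff_eq_inv] at h
    rw [h, Units.mul_inv]
  let : MeasurableSpace E := borel E
  have : BorelSpace E := ⟨rfl⟩
  have hEu : GoodUnits E := GoodUnits.algebra B.φ hRu
  -- the parameter
  obtain ⟨m, hm0, hm⟩ := exists_smul_mem B hO H (Finset.univ : Finset (Fin 1)) ![w0]
  have hmw : m • w0 ∈ Lam := hm 0 (Finset.mem_univ _)
  obtain ⟨q, hq, hq1⟩ := exists_q (k := k) hw hne
  set θ : A := m • w0 with hθ
  have hθc : ∀ x, θ * x = x * θ := by
    intro x
    rw [hθ, smul_mul_assoc, hw, mul_smul_comm]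
  have hθs : star θ = m • star w0 := by rw [hθ, star_smul_A B]
  have hθne : IsUnit (θ - star θ) := by
    rw [hθs, hθ, ← smul_sub, ← one_mul (w0 - star w0), ← smul_mul_assoc]
    exact (isUnit_smul_one hm0).mul hne
  have hθ'c : ∀ x, star θ * x = x * star θ := by
    intro x
    have h := congrArg star (hθc (star x))
    rw [star_mul, star_mul, star_star] at h
    exact h.symm
  have hθ'L : star θ ∈ Lam := H.star_mem _ hmw
  -- the Cayley transform
  have hunit : ∀ s : A, star s = s → IsUnit (s - θ) := by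
    intro s hs
    refine isUnit_of_regular (k := k) fun z hz => haniso z ?_
    have h1 : s * z = θ * z := by rwa [sub_mul, sub_eq_zero] at hz
    have h2 : star z * s * z = θ * (star z * z) := by
      rw [mul_assoc, h1, ← mul_assoc, ← hθc, mul_assoc]
    have h3 : star z * s * z = star θ * (star z * z) := by
      have := congrArg star h2
      rw [star_mul, star_mul, star_mul, star_mul, star_star, hs, ← mul_assoc, ← hθ'c] at this
      exact this
    refine hθne.mul_left_cancel ?_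
    rw [mul_zero, sub_mul, ← h2, ← h3, sub_self]
  have hunit' : ∀ s : A, star s = s → IsUnit (s - star θ) := by
    intro s hs
    have := (hunit s hs).star
    rwa [star_sub, hs] at this
  set inv : A → A := fun s => Ring.inverse (s - θ) with hinv
  have hi1 : ∀ s, star s = s → (s - θ) * inv s = 1 := fun s hs =>
    Ring.mul_inverse_cancel _ (hunit s hs)
  have hi2 : ∀ s, star s = s → inv s * (s - θ) = 1 := fun s hs =>
    Ring.inverse_mul_cancel _ (hunit s hs)
  set cay : A → A := fun s => (s - star θ) * inv s with hcay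
  have hcayv : ∀ s, star s = s → cay s * (s - θ) = s - star θ := by
    intro s hs
    rw [hcay]
    simp only
    rw [mul_assoc, hi2 s hs, mul_one]
  have hcom : ∀ s : A, (s - star θ) * (s - θ) = (s - θ) * (s - star θ) := by
    intro s
    have e1 := hθc s
    have e2 := hθ'c s
    have e3 := hθc (star θ)
    calc (s - star θ) * (s - θ) = s * s - s * θ - star θ * s + star θ * θ := by noncomm_ring
      _ = s * s - θ * s - s * star θ + θ * star θ := by rw [e1, e2, e3]
      _ = (s - θ) * (s - star θ) := by noncomm_ring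
  have hcayU : ∀ s : A, star s = s → cay s * star (cay s) = 1 := by
    intro s hs
    -- `star (cay s) = star (inv s) * (s - θ)`, and `star (inv s)` is the inverse of `s - star θ`
    have h1 : star (cay s) = star (inv s) * (s - θ) := by
      rw [hcay]
      simp only
      rw [star_mul, star_sub, star_star, hs]
    have h2 : star (inv s) * (s - star θ) = 1 := by
      have := congrArg star (hi1 s hs)
      rwa [star_mul, star_sub, hs, star_one] at this
    have h3 : (s - star θ) * star (inv s) = 1 := hone _ _ h2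
    have h4 : cay s * star (cay s) * (s - star θ) = 1 * (s - star θ) := by
      rw [h1, one_mul]
      calc cay s * (star (inv s) * (s - θ)) * (s - star θ)
          = cay s * (star (inv s) * ((s - θ) * (s - star θ))) := by simp only [mul_assoc]
        _ = cay s * (star (inv s) * ((s - star θ) * (s - θ))) := by rw [hcom]
        _ = cay s * ((star (inv s) * (s - star θ)) * (s - θ)) := by simp only [mul_assoc]
        _ = s - star θ := by rw [h2, one_mul, hcayv s hs]
    exact (hunit' s hs).mul_right_cancel h4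
  have hcay1 : ∀ s : A, star s = s → (cay s - 1) * (s - θ) = θ - star θ := by
    intro s hs
    rw [sub_mul, hcayv s hs, one_mul]
    abel
  have hcayi : ∀ s s' : A, star s = s → star s' = s' → cay s = cay s' → s = s' := by
    intro s s' hs hs' h
    have h2 := hcay1 s hs
    have h3 := hcay1 s' hs'
    have h4 : IsUnit (cay s - 1) := isUnit_of_regular (k := k) fun z hz => by
      have h5 : (cay s - 1) * (s - θ) * z = (θ - star θ) * z := by rw [h2]
      have h6 : (cay s - 1) * (s - θ) = (s - θ) * (cay s - 1) := by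
        have h7 : (cay s - 1) * (s - θ) * (s - θ) = (s - θ) * (cay s - 1) * (s - θ) := by
          rw [mul_assoc (s - θ), hcay1 s hs, sub_mul θ, mul_sub (s - θ), hθc, hθ'c]
        exact (hunit s hs).mul_right_cancel h7
      rw [h6, mul_assoc, hz, mul_zero] at h5
      exact hθne.mul_left_cancel (by rw [← h5, mul_zero])
    rw [h, ← h3] at h2
    rw [h] at h4
    have h5 := h4.mul_left_cancel h2
    exact sub_left_injective h5
  -- the point
  obtain ⟨e0, he0⟩ : ∃ e0 : A, (x0 - 1) * e0 = 1 := ⟨_, Ring.mul_inverse_cancel _ hx01⟩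
  have he0' : e0 * (x0 - 1) = 1 := hone _ _ he0
  obtain ⟨s0, hs0⟩ : ∃ s0 : A, s0 = e0 * (x0 * θ - star θ) := ⟨_, rfl⟩
  have hs0e : (x0 - 1) * s0 = x0 * θ - star θ := by
    rw [hs0, ← mul_assoc, he0, one_mul]
  have hxx : star x0 * x0 = 1 := hone _ _ hx0
  have hs0s : star s0 = s0 := by
    have h1 : star s0 * (star x0 - 1) = star θ * star x0 - θ := by
      have := congrArg star hs0e
      rwa [star_mul, star_sub, star_sub, star_one, star_mul, star_star] at this
    have h2 : star s0 * (1 - x0) = star θ - θ * x0 := by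
      have := congrArg (fun z => z * x0) h1
      simp only [sub_mul, mul_sub, mul_assoc, hxx, mul_one] at this ⊢
      exact this
    have h3 : s0 * (1 - x0) = star θ - θ * x0 := by
      have hce : e0 * x0 = x0 * e0 := by
        have h6 : (x0 - 1) * (e0 * x0) = (x0 - 1) * (x0 * e0) := by
          rw [← mul_assoc, he0, one_mul, ← mul_assoc, sub_mul x0, one_mul, ← mul_sub_one,
            mul_assoc, he0, mul_one]
        exact hx01.mul_left_cancel h6
      have hc : x0 * s0 = s0 * x0 := by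
        rw [hs0, ← mul_assoc, ← hce, mul_assoc, mul_assoc, mul_sub, sub_mul, ← mul_assoc x0 x0,
          mul_assoc x0 θ, hθc x0, hθ'c x0, mul_assoc]
      have h4 : s0 * (1 - x0) = -((x0 - 1) * s0) := by
        rw [mul_sub, sub_mul, mul_one, one_mul, hc]
        abel
      rw [h4, hs0e, hθc]
      abel
    have h5 : IsUnit ((1 : A) - x0) := by
      rw [← neg_sub]
      exact hx01.neg
    exact h5.mul_right_cancel (h2.trans h3.symm)
  have hcay0 : cay s0 = x0 := by
    have h1 : x0 * (s0 - θ) = s0 - star θ := by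
      have : (x0 - 1) * s0 = x0 * θ - star θ := hs0e
      rw [sub_mul, one_mul] at this
      rw [mul_sub, sub_eq_sub_iff_add_eq_add]
      rw [sub_eq_sub_iff_add_eq_add] at this
      rw [this]
      abel
    rw [hcay]
    simp only
    rw [← h1, mul_assoc, hi1 s0 hs0s, mul_one]
  -- the neighbourhood
  set Φ : E → E := fun z => (z - B.j (star θ)) * Ring.inverse (z - B.j θ) with hΦ
  have hju : ∀ s : A, star s = s → IsUnit (B.j s - B.j θ) := by
    intro s hs
    rw [← map_sub]
    exact (hunit s hs).map B.j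
  have hΦj : ∀ s : A, star s = s → Φ (B.j s) = B.j (cay s) := by
    intro s hs
    have h1 : Ring.inverse (B.j s - B.j θ) = B.j (inv s) := by
      rw [← map_sub]
      exact inverse_eq (by rw [← map_mul, hi1 s hs, map_one])
        (by rw [← map_mul, hi2 s hs, map_one])
    rw [hΦ, hcay]
    simp only
    rw [h1, ← map_sub, map_mul]
  have hΦc : ContinuousAt Φ (B.j s0) := by
    have h1 : ContinuousAt Ring.inverse (B.j s0 - B.j θ) :=
      hEu.inv.continuousAt (hEu.isOpen.mem_nhds (hju s0 hs0s))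
    have h2 : ContinuousAt (fun z : E => z - B.j θ) (B.j s0) := by fun_prop
    have h3 : ContinuousAt (fun z : E => Ring.inverse (z - B.j θ)) (B.j s0) :=
      ContinuousAt.comp (g := Ring.inverse) (f := fun z : E => z - B.j θ) h1 h2
    exact ContinuousAt.mul (by fun_prop) h3
  obtain ⟨K, hK, hKn⟩ := exists_compact_mem_nhds (B.j s0 - B.j θ)
  obtain ⟨C, hC⟩ := mod_le hK
  have hV1 : Φ ⁻¹' V ∩ (fun z => z - B.j θ) ⁻¹' K ∈ 𝓝 (B.j s0) := by
    refine inter_mem (hΦc (hV.mem_nhds ?_)) ?_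
    · rw [hΦj s0 hs0s, hcay0]
      exact hxV
    · exact (by fun_prop : Continuous fun z : E => z - B.j θ).continuousAt hKn
  obtain ⟨c, hc, hev⟩ := low_sym B hOd hOc hO H hd hq hq1 hlow (V := interior
    (Φ ⁻¹' V ∩ (fun z => z - B.j θ) ⁻¹' K)) isOpen_interior (e := B.j s0)
    (by rw [← B.j_star, hs0s]) (mem_interior_iff_mem_nhds.2 hV1)
  set C' : ℝ := max C 1 with hC'
  have hC'1 : 1 ≤ C' := le_max_right _ _
  have hdencay : ∀ s : A, star s = s → B.j s - B.j θ ∈ K →
      (H699.den Lam (cay s) : ℝ) ≤ C' * H699.den Lam s := by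
    intro s hs hsK
    obtain ⟨r, hr0, hr⟩ := exists_smul_mem B hO H (Finset.univ : Finset (Fin 3))
      ![1, inv s, s * inv s]
    have hr1 : r • (1 : A) ∈ Lam := hr 0 (Finset.mem_univ _)
    have hr2 : r • inv s ∈ Lam := hr 1 (Finset.mem_univ _)
    have hr3 : r • (s * inv s) ∈ Lam := hr 2 (Finset.mem_univ _)
    have hΛ := lring B hOd hOc H
    let d : Eˣ := Units.map (B.j : A →* E) (hunit s hs).unit
    have hdv : (d : E) = B.j s - B.j θ := by rw [← map_sub]; rfl
    have hdi : ((d⁻¹ : Eˣ) : E) = B.j (inv s) :=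
      Units.inv_eq_of_mul_eq_one_right (by rw [hdv, ← map_sub, ← map_mul, hi1 s hs, map_one])
    have h3 := den_cay_le hΛ (s := B.j s) (w := B.j (cay s)) (θ := B.j θ) (θ' := B.j (star θ))
      (h := B.j (r • 1)) ⟨θ, hmw, rfl⟩ ⟨star θ, hθ'L, rfl⟩
      (by rw [H699.den_map B.j B.j_inj]; exact hden s) d hdv
      (by rw [← map_sub, ← map_sub, ← map_mul, hcayv s hs])
      ⟨r • 1, hr1, rfl⟩ (isUnit_j B (isUnit_smul_one hr0))
      (by
        rw [hdi, ← map_mul, mul_smul_comm, mul_one]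
        exact ⟨_, hr2, rfl⟩)
      (by
        rw [hdi, ← map_mul, ← map_mul, mul_smul_comm, mul_one, mul_smul_comm]
        exact ⟨_, hr3, rfl⟩)
    rw [H699.den_map B.j B.j_inj, H699.den_map B.j B.j_inj] at h3
    have h4 : distribHaarChar E d ≤ C := hC d (by rw [hdv]; exact hsK)
    have h5 : (H699.den Lam (cay s) : ℝ≥0) ≤ H699.den Lam s * C :=
      h3.trans (mul_le_mul_right h4 _)
    have h6 : (H699.den Lam (cay s) : ℝ) ≤ H699.den Lam s * (C : ℝ) := by
      exact_mod_cast h5
    refine h6.trans ?_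
    rw [mul_comm]
    exact mul_le_mul_of_nonneg_right (le_max_left _ _) (Nat.cast_nonneg _)
  refine ⟨c / C' ^ 2, by positivity, ?_⟩
  have h12 : Set.Ioc (1 : ℝ) 2 ∈ 𝓝[>] (1 : ℝ) := Ioc_mem_nhdsGT (by norm_num)
  filter_upwards [hev, h12] with x hx hx12
  obtain ⟨F, hF1, hF2⟩ := hx
  have hx1 : 0 < x - 1 := sub_pos.2 hx12.1
  refine ⟨F.image cay, ?_, ?_⟩
  · intro y hy
    obtain ⟨s, hs, rfl⟩ := Finset.mem_image.1 hy
    obtain ⟨hs1, hs2⟩ := hF1 s hs
    have h1 := interior_subset hs2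
    refine ⟨hone _ _ (hcayU s hs1), hcayU s hs1, ?_⟩
    rw [← hΦj s hs1]
    exact h1.1
  · rw [Finset.sum_image fun s hs s' hs' h => hcayi s s' (hF1 s hs).1 (hF1 s' hs').1 h,
      ← Finset.mul_sum]
    have h1 : C' ^ (-2 : ℝ) * ∑ s ∈ F, (H699.den Lam s : ℝ) ^ (-x) ≤
        ∑ s ∈ F, (H699.den Lam (cay s) : ℝ) ^ (-x) := by
      rw [Finset.mul_sum]
      refine Finset.sum_le_sum fun s hs => ?_
      obtain ⟨hs1, hs2⟩ := hF1 s hs
      have h2 := hdencay s hs1 (interior_subset hs2).2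
      have h3 : (0 : ℝ) < H699.den Lam (cay s) := by
        exact_mod_cast Nat.pos_of_ne_zero (hden _)
      calc C' ^ (-2 : ℝ) * (H699.den Lam s : ℝ) ^ (-x) ≤ C' ^ (-x) * (H699.den Lam s : ℝ) ^ (-x) := by
            refine mul_le_mul_of_nonneg_right ?_ (by positivity)
            exact Real.rpow_le_rpow_of_exponent_le hC'1 (by linarith [hx12.2])
        _ = (C' * H699.den Lam s : ℝ) ^ (-x) := by
            rw [Real.mul_rpow (by positivity) (by positivity)]
        _ ≤ _ := Real.rpow_le_rpow_of_nonpos h3 h2 (by linarith [hx12.1])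
    have h4 : C' ^ (-2 : ℝ) = (C' ^ 2)⁻¹ := by
      rw [Real.rpow_neg (by positivity)]
      norm_num
    calc c / C' ^ 2 = (x - 1) * (C' ^ (-2 : ℝ) * (c / (x - 1))) := by
          rw [h4]
          field_simp
      _ ≤ (x - 1) * (C' ^ (-2 : ℝ) * ∑ s ∈ F, (H699.den Lam s : ℝ) ^ (-x)) := by
          refine mul_le_mul_of_nonneg_left (mul_le_mul_of_nonneg_left hF2 (by positivity)) hx1.le
      _ ≤ _ := mul_le_mul_of_nonneg_left h1 hx1.le

/-- **Lower bound for the unitary elements in an open set**, around a point `x0`; `l` is a central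
unitary element such that `l x0` has not the eigenvalue one. -/
theorem low_open [T2Space R] [LocallyCompactSpace R] (hRu : GoodUnits R)
    (hd : DenseRange (algebraMap k R)) {w0 : A} (hw : ∀ x, w0 * x = x * w0)
    (hne : IsUnit (w0 - star w0)) (haniso : ∀ x : A, star x * x = 0 → x = 0) (hlow : LowIn Lam)
    {x0 : A} (hx0 : x0 * star x0 = 1)
    (hl : ∃ l : A, (∀ x, l * x = x * l) ∧ l * star l = 1 ∧ IsUnit (l * x0 - 1))
    {V : Set E} (hV : IsOpen V) (hxV : B.j x0 ∈ V) :
    ∃ c : ℝ, 0 < c ∧ ∀ᶠ x : ℝ in 𝓝[>] 1, ∃ F : Finset A,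
      (∀ y ∈ F, star y * y = 1 ∧ y * star y = 1 ∧ B.j y ∈ V) ∧
      c ≤ ∑ y ∈ F, (x - 1) * (H699.den Lam y : ℝ) ^ (-x) := by
  classical
  have hden : ∀ s : A, H699.den Lam s ≠ 0 := den_ne_zero B hOd hOc hO H
  obtain ⟨l, hlc, hl1, hl2⟩ := hl
  have hl1' : star l * l = 1 := by rw [← hlc]; exact hl1
  have hx0' : (l * x0) * star (l * x0) = 1 := by
    rw [star_mul, mul_assoc, ← mul_assoc x0, hx0, one_mul, hl1]
  obtain ⟨c, hc, hev⟩ := low_open_one B hOd hOc hO H hRu hd hw hne haniso hlow hx0' hl2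
    (V := (fun z => B.j (star l) * z) ⁻¹' V) (hV.preimage (by fun_prop)) (by
      rw [mem_preimage, ← map_mul, ← mul_assoc, hl1', one_mul]
      exact hxV)
  set M : ℕ := H699.den Lam (star l) with hM
  have hM0 : 1 ≤ M := Nat.one_le_iff_ne_zero.2 (hden _)
  have hMr : (1 : ℝ) ≤ M := by exact_mod_cast hM0
  refine ⟨c / (M : ℝ) ^ 2, by positivity, ?_⟩
  have h12 : Set.Ioc (1 : ℝ) 2 ∈ 𝓝[>] (1 : ℝ) := Ioc_mem_nhdsGT (by norm_num)
  filter_upwards [hev, h12] with x hx hx12
  obtain ⟨F, hF1, hF2⟩ := hx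
  have hx1 : 0 < x - 1 := sub_pos.2 hx12.1
  have hinj : Set.InjOn (fun y => star l * y) (F : Set A) := by
    intro y _ y' _ h
    have := congrArg (fun z => l * z) h
    simp only at this
    rwa [← mul_assoc, ← mul_assoc, hl1, one_mul, one_mul] at this
  refine ⟨F.image fun y => star l * y, ?_, ?_⟩
  · intro y hy
    obtain ⟨z, hz, rfl⟩ := Finset.mem_image.1 hy
    obtain ⟨h1, h2, h3⟩ := hF1 z hz
    refine ⟨?_, ?_, ?_⟩
    · rw [star_mul, star_star, mul_assoc, ← mul_assoc l, hl1, one_mul, h1]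
    · rw [star_mul, star_star, mul_assoc, ← mul_assoc z, h2, one_mul, hl1']
    · rw [map_mul]
      exact h3
  · rw [Finset.sum_image hinj]
    have h1 : ∀ y ∈ F, ((M : ℝ) ^ 2)⁻¹ * ((x - 1) * (H699.den Lam y : ℝ) ^ (-x)) ≤
        (x - 1) * (H699.den Lam (star l * y) : ℝ) ^ (-x) := by
      intro y _
      have h2 : (H699.den Lam (star l * y) : ℝ) ≤ M * H699.den Lam y := by
        exact_mod_cast den_mul_le (hden (star l)) (hden y)
      have h3 : (0 : ℝ) < H699.den Lam (star l * y) := by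
        exact_mod_cast Nat.pos_of_ne_zero (hden _)
      have h4 : ((M : ℝ) ^ 2)⁻¹ = (M : ℝ) ^ (-2 : ℝ) := by
        rw [Real.rpow_neg (by positivity)]
        norm_num
      have h5 : ((M : ℝ) ^ 2)⁻¹ * (H699.den Lam y : ℝ) ^ (-x) ≤
          (H699.den Lam (star l * y) : ℝ) ^ (-x) := by
        rw [h4]
        calc (M : ℝ) ^ (-2 : ℝ) * (H699.den Lam y : ℝ) ^ (-x)
            ≤ (M : ℝ) ^ (-x) * (H699.den Lam y : ℝ) ^ (-x) := by
              refine mul_le_mul_of_nonneg_right ?_ (by positivity)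
              exact Real.rpow_le_rpow_of_exponent_le hMr (by linarith [hx12.2])
          _ = (M * H699.den Lam y : ℝ) ^ (-x) := by
              rw [Real.mul_rpow (by positivity) (by positivity)]
          _ ≤ _ := Real.rpow_le_rpow_of_nonpos h3 h2 (by linarith [hx12.1])
      calc ((M : ℝ) ^ 2)⁻¹ * ((x - 1) * (H699.den Lam y : ℝ) ^ (-x))
          = (x - 1) * (((M : ℝ) ^ 2)⁻¹ * (H699.den Lam y : ℝ) ^ (-x)) := by ring
        _ ≤ _ := mul_le_mul_of_nonneg_left h5 hx1.le
    calc c / (M : ℝ) ^ 2 = ((M : ℝ) ^ 2)⁻¹ * c := by rw [div_eq_inv_mul]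
      _ ≤ ((M : ℝ) ^ 2)⁻¹ * ∑ y ∈ F, (x - 1) * (H699.den Lam y : ℝ) ^ (-x) :=
        mul_le_mul_of_nonneg_left hF2 (by positivity)
      _ = ∑ y ∈ F, ((M : ℝ) ^ 2)⁻¹ * ((x - 1) * (H699.den Lam y : ℝ) ^ (-x)) := Finset.mul_sum ..
      _ ≤ _ := Finset.sum_le_sum h1

end lat

/-- **(LOW) in the unitary group**, points in any type. -/
theorem low_points [Nontrivial R] [LocallyCompactSpace R] [T2Space R] {O : Subring k}
    (hG : Good k R O) (hd : DenseRange (algebraMap k R)) {Lam : Subring A} [Countable Lam]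
    (H : IsOrdR B.a O Lam) {w0 : A} (hw : ∀ x, w0 * x = x * w0) (hne : IsUnit (w0 - star w0))
    (haniso : ∀ x : A, star x * x = 0 → x = 0) (hlow : LowIn Lam)
    {P : Type*} (v : P → A) (hv : ∀ y : A, star y * y = 1 → y * star y = 1 → ∃ p, v p = y)
    (pos : P → unitary E) (hpos : ∀ p, (pos p : E) = B.j (v p)) {p0 : P}
    (hp0 : v p0 * star (v p0) = 1)
    (hl : ∃ l : A, (∀ x, l * x = x * l) ∧ l * star l = 1 ∧ IsUnit (l * v p0 - 1))
    {V : Set (unitary E)} (hV : IsOpen V) (hpV : pos p0 ∈ V) :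
    ∃ c : ℝ, 0 < c ∧ ∀ᶠ x : ℝ in 𝓝[>] 1, ∃ F : Finset P, (∀ p ∈ F, pos p ∈ V) ∧
      c ≤ ∑ p ∈ F, (x - 1) * (H699.den Lam (v p) : ℝ) ^ (-x) := by
  classical
  obtain ⟨V', hV', rfl⟩ := isOpen_induced_iff.1 hV
  obtain ⟨c, hc, hev⟩ := low_open B hG.disc hG.coc hG.frac H hG.units hd hw hne haniso hlow
    hp0 hl hV' (by rw [← hpos]; exact hpV)
  refine ⟨c, hc, hev.mono ?_⟩
  rintro x ⟨F, hF1, hF2⟩
  choose g hg using fun y : F => hv y (hF1 y y.2).1 (hF1 y y.2).2.1
  have hfi : Function.Injective g := by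
    intro y y' h
    exact Subtype.ext (by rw [← hg y, ← hg y', h])
  refine ⟨Finset.univ.image g, ?_, ?_⟩
  · intro p hp
    obtain ⟨y, -, rfl⟩ := Finset.mem_image.1 hp
    have h1 := (hF1 y y.2).2.2
    show (pos (g y) : E) ∈ V'
    rw [hpos, hg]
    exact h1
  · rw [Finset.sum_image fun y _ y' _ h => hfi h]
    refine hF2.trans (le_of_eq ?_)
    rw [← Finset.sum_coe_sort F]
    exact Finset.sum_congr rfl fun y _ => by rw [hg]

end Main

section twist

variable {k K A : Type*} [Field k] [Infinite k] [Field K] [StarRing K] [Ring A] [StarRing A]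
  [Algebra k K] [Algebra K A] [StarModule K A] [Module.Finite K A]

/-- Every element has a central unitary multiple without eigenvalue one. -/
theorem exists_twist (hfix : ∀ c : k, star (algebraMap k K c) = algebraMap k K c) {w : K}
    (hw : star w ≠ w) (x0 : A) :
    ∃ l : A, (∀ x, l * x = x * l) ∧ l * star l = 1 ∧ IsUnit (l * x0 - 1) := by
  classical
  set T : Module.End K A := LinearMap.mulLeft K x0 with hT
  have hfin : {μ : K | T.HasEigenvalue μ}.Finite := Module.End.finite_hasEigenvalue T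
  have h1 : ∀ c : k, star w + algebraMap k K c ≠ 0 := by
    intro c h
    have h2 : star w = -algebraMap k K c := eq_neg_of_add_eq_zero_left h
    have h3 := congrArg star h2
    rw [star_star, star_neg, hfix] at h3
    exact hw (h2.trans h3.symm)
  have h1' : ∀ c : k, w + algebraMap k K c ≠ 0 := by
    intro c h
    have := congrArg star h
    rw [star_add, hfix, star_zero] at this
    exact h1 c this
  set μ : k → K := fun c => (star w + algebraMap k K c) / (w + algebraMap k K c) with hμ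
  have hμi : Function.Injective μ := by
    intro c c' h
    have h2 : (star w + algebraMap k K c) * (w + algebraMap k K c') =
        (star w + algebraMap k K c') * (w + algebraMap k K c) := by
      have := h
      rw [hμ] at this
      simp only at this
      rwa [div_eq_div_iff (h1' c) (h1' c')] at this
    have h3 : (star w - w) * (algebraMap k K c' - algebraMap k K c) = 0 := by
      linear_combination h2
    rcases mul_eq_zero.1 h3 with h4 | h4
    · exact absurd (sub_eq_zero.1 h4) hw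
    · exact ((algebraMap k K).injective (sub_eq_zero.1 h4)).symm
  obtain ⟨c, hc⟩ : ∃ c : k, ¬ T.HasEigenvalue (μ c) := by
    by_contra hcon
    push Not at hcon
    exact Set.infinite_of_injective_forall_mem hμi hcon hfin
  have hμ0 : μ c ≠ 0 := div_ne_zero (h1 c) (h1' c)
  have hμs : μ c * star (μ c) = 1 := by
    rw [hμ]
    simp only
    rw [star_div₀, star_add, star_add, star_star, hfix]
    field_simp [h1 c, h1' c]
  refine ⟨algebraMap K A (μ c)⁻¹, fun x => Algebra.commutes _ x, ?_, ?_⟩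
  · rw [Algebra.algebraMap_eq_smul_one, star_smul, star_one, smul_mul_smul_comm, one_mul,
      star_inv₀, ← mul_inv, hμs, inv_one, one_smul]
  · refine isUnit_of_regular (k := K) fun z hz => ?_
    by_contra hz0
    apply hc
    refine Module.End.hasEigenvalue_of_hasEigenvector (x := z) ⟨?_, hz0⟩
    rw [Module.End.mem_eigenspace_iff, hT, LinearMap.mulLeft_apply]
    rw [sub_mul, one_mul, sub_eq_zero, Algebra.algebraMap_eq_smul_one, smul_mul_assoc, one_mul,
      smul_mul_assoc] at hz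
    conv_rhs => rw [← hz]
    rw [smul_smul, mul_inv_cancel₀ hμ0, one_smul]

end twist

end Vale.Agent.P011.H973.Rg
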