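import Vale.Agent.P011.H973.RankOne

/-!
# Symmetric elements with prescribed residues

`den O s = [O : {x in O : s x in O}]`.  For finitely many primes `v` of a Dedekind domain `R` and
symmetric residues `e_v` in `O / v O` there is a symmetric element `s` with
`den O s = prod rkc e_v`, and the classes of these elements modulo `O` are distinct.
-/

set_option autoImplicit false
set_option linter.unusedSectionVars false

open IsDedekindDomain

namespace Vale.Agent.P011.H973

/-- the denominator of `s`: the index of `{x ∈ O : s x ∈ O}` in `O` -/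
noncomputable def den {D : Type*} [Ring D] (O : AddSubgroup D) (s : D) : ℕ :=
  (O.comap (AddMonoidHom.mulLeft s)).relIndex O

variable {R k D : Type*} [CommRing R] [IsDedekindDomain R] [Field k] [Algebra R k]
  [IsFractionRing R k] [Ring D] [StarRing D] [Algebra k D] [Algebra R D] [IsScalarTower R k D]

/-- A residue ring `O → A` at the ideal `v`. -/
structure Res (k : Type*) [Field k] [Algebra R k] [Algebra k D] (O : Subalgebra R D) (v : Ideal R)
    (A : Type*) [Ring A] [StarRing A] where
  /-- the residue map -/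
  π : O →+* A
  surj : Function.Surjective π
  star_comm : ∀ x y : O, (y : D) = star (x : D) → π y = star (π x)
  kill : ∀ a ∈ v, ∀ y : O, π (a • y) = 0
  quo : ∀ x : O, π x = 0 → ∀ ϖ : k, (∀ a ∈ v, ∃ b : R, algebraMap R k b = ϖ * algebraMap R k a) →
    ϖ • (x : D) ∈ O

/-- an element `ϖ` with `ϖ v ⊆ R` which is not in `R` -/
theorem exists_varpi (v : HeightOneSpectrum R) : ∃ ϖ : k,
    (∀ a ∈ v.asIdeal, ∃ b : R, algebraMap R k b = ϖ * algebraMap R k a) ∧
      ∃ a ∈ v.asIdeal, ∃ b ∉ v.asIdeal, algebraMap R k b = ϖ * algebraMap R k a := by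
  classical
  have hv0 : v.asIdeal ≠ ⊥ := v.ne_bot
  set J : FractionalIdeal (nonZeroDivisors R) k :=
    (v.asIdeal : FractionalIdeal (nonZeroDivisors R) k) with hJ
  have hJ0 : J ≠ 0 := by
    rw [hJ]
    exact FractionalIdeal.coeIdeal_ne_zero.2 hv0
  have hmem : ∀ ϖ ∈ J⁻¹, ∀ a ∈ v.asIdeal, ∃ b : R, algebraMap R k b = ϖ * algebraMap R k a := by
    intro ϖ hϖ a ha
    rw [FractionalIdeal.mem_inv_iff hJ0] at hϖ
    have := hϖ (algebraMap R k a) (FractionalIdeal.mem_coeIdeal_of_mem _ ha)
    rwa [FractionalIdeal.mem_one_iff] at this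
  by_contra hcon
  push Not at hcon
  have h1 : J * J⁻¹ ≤ J := by
    rw [FractionalIdeal.mul_le]
    intro x hx y hy
    rw [hJ, FractionalIdeal.mem_coeIdeal] at hx
    obtain ⟨a, ha, rfl⟩ := hx
    obtain ⟨b, hb⟩ := hmem y hy a ha
    have hbv : b ∈ v.asIdeal := by
      by_contra hb'
      exact hcon y (hmem y hy) a ha b hb' hb
    rw [mul_comm, ← hb, hJ]
    exact FractionalIdeal.mem_coeIdeal_of_mem _ hbv
  rw [hJ, FractionalIdeal.coe_ideal_mul_inv _ hv0] at h1
  have h2 : (1 : k) ∈ (v.asIdeal : FractionalIdeal (nonZeroDivisors R) k) :=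
    h1 (FractionalIdeal.one_mem_one _)
  rw [FractionalIdeal.mem_coeIdeal] at h2
  obtain ⟨a, ha, ha1⟩ := h2
  have h3 : a = 1 := by
    apply IsFractionRing.injective R k
    rw [ha1, map_one]
  exact v.isPrime.ne_top ((Ideal.eq_top_iff_one _).2 (h3 ▸ ha))

/-- an element which is `1` modulo `v j` and in the other primes -/
theorem exists_idem {ι : Type*} [Finite ι] {v : ι → HeightOneSpectrum R}
    (hv : Function.Injective v) (j : ι) : ∃ c : R, c - 1 ∈ (v j).asIdeal ∧
      ∀ i, i ≠ j → c ∈ (v i).asIdeal := by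
  classical
  have : Fintype ι := Fintype.ofFinite ι
  have hcop : IsCoprime (v j).asIdeal (∏ i ∈ Finset.univ.erase j, (v i).asIdeal) := by
    refine IsCoprime.prod_right fun i hi => ?_
    have hij : v j ≠ v i := fun h => (Finset.ne_of_mem_erase hi) (hv h).symm
    have : (v j).asIdeal ≠ (v i).asIdeal := fun h => hij (HeightOneSpectrum.ext h)
    rw [Ideal.isCoprime_iff_sup_eq]
    exact (v j).isMaximal.coprime_of_ne (v i).isMaximal this
  rw [Ideal.isCoprime_iff_exists] at hcop
  obtain ⟨a, ha, c, hc, hac⟩ := hcop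
  refine ⟨c, ?_, ?_⟩
  · have : c - 1 = -a := by rw [← hac]; ring
    rw [this]
    exact neg_mem ha
  · intro i hi
    exact (Ideal.prod_le_inf.trans (Finset.inf_le (Finset.mem_erase.2 ⟨hi, Finset.mem_univ i⟩))) hc

section Main

variable {ι : Type*} [Fintype ι] {v : ι → HeightOneSpectrum R} {A : ι → Type*}
  [∀ i, Ring (A i)] [∀ i, StarRing (A i)] {O : Subalgebra R D}

theorem Res.smul_zero {v : Ideal R} {A : Type*} [Ring A] [StarRing A] (ρ : Res k O v A) (d : R)
    {y : O} (hy : ρ.π y = 0) : ρ.π (d • y) = 0 := by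
  rw [Algebra.smul_def, map_mul, hy, mul_zero]

/-- the key criterion -/
theorem sum_mem_iff (hv : Function.Injective v) (ρ : ∀ i, Res k O (v i).asIdeal (A i)) {ϖ : ι → k}
    (hϖ : ∀ i, ∀ a ∈ (v i).asIdeal, ∃ b : R, algebraMap R k b = ϖ i * algebraMap R k a)
    (hϖ' : ∀ i, ∃ a ∈ (v i).asIdeal, ∃ b ∉ (v i).asIdeal,
      algebraMap R k b = ϖ i * algebraMap R k a) (y : ι → O) :
    ∑ i, ϖ i • (y i : D) ∈ O ↔ ∀ i, (ρ i).π (y i) = 0 := by
  classical
  constructor
  · intro h j
    obtain ⟨c, hcj, hci⟩ := exists_idem hv j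
    obtain ⟨a, ha, b, hb, hab⟩ := hϖ' j
    have h1 : (c • (ϖ j • (y j : D))) ∈ O := by
      have h2 : c • ∑ i, ϖ i • (y i : D) ∈ O := O.smul_mem h c
      rw [← Finset.add_sum_erase _ _ (Finset.mem_univ j), smul_add, Finset.smul_sum] at h2
      have h3 : ∑ i ∈ Finset.univ.erase j, c • (ϖ i • (y i : D)) ∈ O := by
        refine O.sum_mem fun i hi => ?_
        obtain ⟨b', hb'⟩ := hϖ i c (hci i (Finset.ne_of_mem_erase hi))
        have : c • (ϖ i • (y i : D)) = b' • (y i : D) := by
          rw [← algebraMap_smul k c, smul_smul, mul_comm, ← hb', algebraMap_smul]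
        rw [this]
        exact O.smul_mem (y i).2 b'
      exact (add_mem_cancel_right h3).1 h2
    set z : O := ⟨c • (ϖ j • (y j : D)), h1⟩ with hz
    have h4 : a • z = (c * b) • y j := by
      apply Subtype.ext
      show a • (c • (ϖ j • (y j : D))) = (c * b) • (y j : D)
      rw [← algebraMap_smul k c, ← algebraMap_smul k a, smul_smul, smul_smul,
        ← algebraMap_smul k (c * b), map_mul, hab]
      congr 1
      ring
    have h5 : (ρ j).π ((c * b) • y j) = 0 := by
      rw [← h4]
      exact (ρ j).kill a ha z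
    have hcb : c * b ∉ (v j).asIdeal := by
      intro h6
      rcases (v j).isPrime.mem_or_mem h6 with h7 | h7
      · apply (v j).isPrime.ne_top
        rw [Ideal.eq_top_iff_one]
        have := sub_mem h7 hcj
        rwa [sub_sub_cancel] at this
      · exact hb h7
    obtain ⟨d, hd⟩ : ∃ d : R, d * (c * b) - 1 ∈ (v j).asIdeal := by
      obtain ⟨d, hd⟩ := (v j).isMaximal.exists_inv hcb
      obtain ⟨m, hm, hdm⟩ := hd
      exact ⟨d, by
        have : d * (c * b) - 1 = -m := by rw [← hdm]; ring
        rw [this]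
        exact neg_mem hm⟩
    have h8 : y j = d • ((c * b) • y j) - (d * (c * b) - 1) • y j := by
      rw [sub_smul, one_smul, smul_smul]
      abel
    rw [h8, map_sub, Res.smul_zero (ρ j) d h5, (ρ j).kill _ hd, sub_zero]
  · intro h
    exact O.sum_mem fun i _ => (ρ i).quo (y i) (h i) (ϖ i) (hϖ i)

/-- Chinese remainder theorem -/
theorem exists_residues (hv : Function.Injective v) (ρ : ∀ i, Res k O (v i).asIdeal (A i))
    (α : ∀ i, A i) : ∃ x : O, ∀ i, (ρ i).π x = α i := by
  classical
  choose c hc1 hc2 using fun j => exists_idem hv j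
  choose x hx using fun i => (ρ i).surj (α i)
  refine ⟨∑ j, c j • x j, fun i => ?_⟩
  rw [map_sum, Finset.sum_eq_single i]
  · have : c i • x i = (c i - 1) • x i + x i := by
      rw [sub_smul, one_smul, sub_add_cancel]
    rw [this, map_add, (ρ i).kill _ (hc1 i), zero_add, hx]
  · intro j _ hj
    exact (ρ i).kill _ (hc2 j i (Ne.symm hj)) _
  · intro h
    exact absurd (Finset.mem_univ i) h

theorem exists_family (hstar : ∀ c : k, star (algebraMap k D c) = algebraMap k D c)
    (hO : ∀ x ∈ O, star x ∈ O) (hv : Function.Injective v)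
    (ρ : ∀ i, Res k O (v i).asIdeal (A i))
    (h2 : ∀ i, ∃ τ τ' : O, (τ' : D) = star (τ : D) ∧ (∀ x : O, x * τ' = τ' * x) ∧
      (ρ i).π (τ + τ') = 1) :
    ∃ s : (∀ i, {e : A i // star e = e}) → D, (∀ g, star (s g) = s g) ∧
      (∀ g, den O.toSubring.toAddSubgroup (s g) = ∏ i, rkc (g i).1) ∧
      (∀ g g', s g - s g' ∈ O → g = g') ∧
      (∀ g, ∀ a ∈ ∏ i, (v i).asIdeal, a • s g ∈ O) := by
  classical
  choose ϖ hϖ hϖ' using fun i => exists_varpi (k := k) (v i)
  have hsR : ∀ (c : k) (x : D), star (c • x) = c • star x := by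
    intro c x
    rw [Algebra.smul_def, star_mul, hstar, ← Algebra.commutes, ← Algebra.smul_def]
  -- symmetric lifts
  have hlift : ∀ i, ∀ e : {e : A i // star e = e}, ∃ x : O, star (x : D) = x ∧ (ρ i).π x = e.1 := by
    rintro i ⟨e, he⟩
    obtain ⟨τ, τ', hτ, hc, h1⟩ := h2 i
    obtain ⟨x, hx⟩ := (ρ i).surj e
    let x' : O := ⟨star (x : D), hO _ x.2⟩
    have hx' : (ρ i).π x' = e := by
      rw [(ρ i).star_comm x x' rfl, hx, he]
    refine ⟨τ * x + x' * τ', ?_, ?_⟩
    · show star ((τ : D) * (x : D) + star (x : D) * (τ' : D)) =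
        (τ : D) * (x : D) + star (x : D) * (τ' : D)
      rw [star_add, star_mul, star_mul, star_star, hτ, star_star, add_comm]
    · rw [hc, map_add, map_mul, map_mul, hx, hx', ← add_mul, ← map_add, h1, one_mul]
  choose ε hεs hε using hlift
  refine ⟨fun g => ∑ i, ϖ i • (ε i (g i) : D), ?_, ?_, ?_, ?_⟩
  · intro g
    rw [star_sum]
    exact Finset.sum_congr rfl fun i _ => by rw [hsR, hεs]
  · intro g
    set Ψ : O →+ ∀ i, A i := {
      toFun := fun x i => (g i).1 * (ρ i).π x
      map_zero' := by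
        ext i
        simp
      map_add' := by
        intro x y
        ext i
        simp [mul_add] } with hΨ
    have hker : Ψ.ker = (O.toSubring.toAddSubgroup.comap
        (AddMonoidHom.mulLeft (∑ i, ϖ i • (ε i (g i) : D)))).addSubgroupOf
          O.toSubring.toAddSubgroup := by
      ext x
      have h5 : x ∈ Ψ.ker ↔ ∀ i, (ρ i).π (ε i (g i) * x) = 0 := by
        rw [AddMonoidHom.mem_ker]
        constructor
        · intro h i
          have := congrFun h i
          simpa [hΨ, hε] using this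
        · intro h
          ext i
          have := h i
          simpa [hΨ, hε] using this
      rw [h5, ← sum_mem_iff hv ρ hϖ hϖ']
      rw [AddSubgroup.mem_addSubgroupOf, AddSubgroup.mem_comap]
      show _ ↔ (∑ i, ϖ i • (ε i (g i) : D)) * (x : D) ∈ O
      rw [Finset.sum_mul]
      simp only [smul_mul_assoc]
      rfl
    have hidx : Ψ.ker.index = Nat.card Ψ.range := AddSubgroup.index_ker Ψ
    have hden : den O.toSubring.toAddSubgroup (∑ i, ϖ i • (ε i (g i) : D)) = Ψ.ker.index := by
      rw [hker]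
      rfl
    rw [hden, hidx]
    have hrange : Nat.card Ψ.range = Nat.card (∀ i, Set.range fun x : A i => (g i).1 * x) := by
      refine Nat.card_congr (Equiv.ofBijective (fun y i => ⟨y.1 i, ?_⟩) ?_)
      · obtain ⟨x, hx⟩ := y.2
        exact ⟨(ρ i).π x, by rw [← hx]; rfl⟩
      · constructor
        · rintro ⟨y, hy⟩ ⟨y', hy'⟩ h
          apply Subtype.ext
          funext i
          have := congrFun h i
          exact congrArg Subtype.val this
        · intro z
          choose α hα using fun i => (z i).2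
          obtain ⟨x, hx⟩ := exists_residues hv ρ α
          refine ⟨⟨Ψ x, x, rfl⟩, ?_⟩
          funext i
          apply Subtype.ext
          show (g i).1 * (ρ i).π x = (z i).1
          rw [hx, ← hα]
    rw [hrange, Nat.card_pi]
    rfl
  · intro g g' h
    have h6 : ∑ i, ϖ i • (ε i (g i) : D) - ∑ i, ϖ i • (ε i (g' i) : D) =
        ∑ i, ϖ i • ((ε i (g i) - ε i (g' i) : O) : D) := by
      rw [← Finset.sum_sub_distrib]
      refine Finset.sum_congr rfl fun i _ => ?_
      rw [← smul_sub]
      rfl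
    rw [h6, sum_mem_iff hv ρ hϖ hϖ'] at h
    funext i
    have h7 := h i
    rw [map_sub, hε, hε, sub_eq_zero] at h7
    exact Subtype.ext h7
  · intro g a ha
    rw [Finset.smul_sum]
    refine O.sum_mem fun i _ => ?_
    have ha' : a ∈ (v i).asIdeal := (Ideal.prod_le_inf.trans (Finset.inf_le (Finset.mem_univ i))) ha
    obtain ⟨b, hb⟩ := hϖ i a ha'
    have : a • (ϖ i • (ε i (g i) : D)) = b • (ε i (g i) : D) := by
      rw [← algebraMap_smul k a, smul_smul, mul_comm, ← hb, algebraMap_smul]
    rw [this]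
    exact O.smul_mem (ε i (g i)).2 b

end Main

end Vale.Agent.P011.H973
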