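import Vale.Agent.P011.H973.LowModel
import Vale.Agent.P011.H380.UpNF
import Vale.Agent.P011.H74.LowNF

/-!
# Lower bound of the mass of open sets, number fields

`denseRange_KS` : weak approximation for `k`.
`low_nf` : **(LOW)** for the points `posS B S`, weights `denS B S`.
-/

set_option autoImplicit false
set_option linter.unusedSectionVars false

open MeasureTheory Filter Topology Set Module NumberField IsDedekindDomain
open scoped ENNReal NNReal Pointwise

namespace Vale.Agent.P011.H973

open Vale.Agent.P011.H544 Vale.Agent.P011.H380.UpBC Vale.Agent.P011.H380.UnitsTop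
  Vale.Agent.P011 Vale.Agent.P011.Arith

section dens

variable {k : Type} [Field k] [NumberField k] {S : Finset (HeightOneSpectrum (𝓞 k))}

/-- an integer which is a non unit at every place of `S` -/
theorem exists_q (S : Finset (HeightOneSpectrum (𝓞 k))) :
    ∃ q : ℕ, q ≠ 0 ∧ ∀ v ∈ S, v.valuation k (q : k) < 1 := by
  classical
  have h1 : ∀ v : HeightOneSpectrum (𝓞 k), ∃ q : ℕ, q ≠ 0 ∧ v.valuation k (q : k) < 1 := by
    intro v
    have h2 : Ideal.absNorm v.asIdeal ≠ 0 := by
      rw [Ne, Ideal.absNorm_eq_zero_iff]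
      exact v.ne_bot
    refine ⟨Ideal.absNorm v.asIdeal, h2, ?_⟩
    have h3 : ((Ideal.absNorm v.asIdeal : ℕ) : k) =
        algebraMap (𝓞 k) k (Ideal.absNorm v.asIdeal : 𝓞 k) := by simp
    rw [h3, v.valuation_lt_one_iff_mem]
    exact Ideal.absNorm_mem v.asIdeal
  choose q hq0 hq using h1
  refine ⟨∏ v ∈ S, q v, Finset.prod_ne_zero_iff.2 fun v _ => hq0 v, fun v hv => ?_⟩
  have h4 : ∀ m : ℕ, v.valuation k (m : k) ≤ 1 := fun m => by
    have : (m : k) = algebraMap (𝓞 k) k (m : 𝓞 k) := by simp
    rw [this]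
    exact v.valuation_le_one _
  rw [← Finset.mul_prod_erase S q hv, Nat.cast_mul, map_mul]
  exact mul_lt_one_of_lt_of_le (hq v) (h4 _)

/-- **Weak approximation.** -/
theorem denseRange_KS (S : Finset (HeightOneSpectrum (𝓞 k))) :
    DenseRange (algebraMap k (KS k S)) := by
  classical
  obtain ⟨q, hq0, hq⟩ := exists_q S
  set T : Subring (KS k S) := (algebraMap k (KS k S)).range.topologicalClosure with hT
  have hTc : IsClosed (T : Set (KS k S)) := Subring.isClosed_topologicalClosure _
  have hTk : ∀ c : k, algebraMap k (KS k S) c ∈ T := fun c =>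
    Subring.le_topologicalClosure _ ⟨c, rfl⟩
  have hnv : ∀ (v : HeightOneSpectrum (𝓞 k)) (c : k),
      ‖algebraMap k (v.adicCompletion k) c‖ < 1 ↔ v.valuation k c < 1 := fun v c => by
    rw [Even.norm_lt_one_iff, Even.valued_alg]
  have hqt : ∀ v ∈ S, Tendsto (fun j : ℕ => algebraMap k (v.adicCompletion k) ((q : k) ^ j))
      atTop (𝓝 0) := by
    intro v hv
    simp only [map_pow]
    exact tendsto_pow_atTop_nhds_zero_of_norm_lt_one ((hnv v _).2 (hq v hv))
  -- the idempotent
  have hidem : ((1, 0) : KS k S) ∈ T := by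
    refine hTc.mem_of_tendsto (b := atTop) (f := fun j : ℕ => algebraMap k (KS k S)
      (((2 * q : ℕ) : k) ^ j / (1 + ((2 * q : ℕ) : k) ^ j))) ?_ (Eventually.of_forall fun j => hTk _)
    have hqr : (1 : ℝ) < ((2 * q : ℕ) : ℝ) := by
      have : 1 ≤ q := Nat.one_le_iff_ne_zero.2 hq0
      have : 1 < 2 * q := by omega
      exact_mod_cast this
    refine Prod.tendsto_iff _ _ |>.2 ⟨tendsto_pi_nhds.2 fun v => ?_, tendsto_pi_nhds.2 fun v => ?_⟩
    · -- infinite places
      change Tendsto (fun j : ℕ => algebraMap k v.Completion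
        (((2 * q : ℕ) : k) ^ j / (1 + ((2 * q : ℕ) : k) ^ j))) atTop (𝓝 1)
      rw [tendsto_iff_norm_sub_tendsto_zero]
      have h1 : ∀ j : ℕ, ‖algebraMap k v.Completion
          (((2 * q : ℕ) : k) ^ j / (1 + ((2 * q : ℕ) : k) ^ j)) - 1‖ =
          (1 + ((2 * q : ℕ) : ℝ) ^ j)⁻¹ := by
        intro j
        have h2 : (1 + ((2 * q : ℕ) : k) ^ j) ≠ 0 := by
          have : (1 + (2 * q) ^ j : ℕ) ≠ 0 := by positivity
          exact_mod_cast this
        have h3 : algebraMap k v.Completion
            (((2 * q : ℕ) : k) ^ j / (1 + ((2 * q : ℕ) : k) ^ j)) - 1 =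
            algebraMap k v.Completion ((-(1 + ((2 * q : ℕ) : ℚ) ^ j)⁻¹ : ℚ) : k) := by
          rw [← map_one (algebraMap k v.Completion), ← map_sub]
          congr 1
          push_cast at h2 ⊢
          field_simp
          ring
        rw [h3, norm_rat]
        push_cast
        rw [abs_neg, abs_of_pos (by positivity)]
      simp only [h1]
      refine tendsto_inv_atTop_zero.comp (tendsto_atTop_add_const_left _ _ ?_)
      exact tendsto_pow_atTop_atTop_of_one_lt hqr
    · change Tendsto (fun j : ℕ => algebraMap k ((v : HeightOneSpectrum (𝓞 k)).adicCompletion k)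
        (((2 * q : ℕ) : k) ^ j / (1 + ((2 * q : ℕ) : k) ^ j))) atTop (𝓝 0)
      have h1 : Tendsto (fun j : ℕ => algebraMap k
          ((v : HeightOneSpectrum (𝓞 k)).adicCompletion k) (((2 * q : ℕ) : k) ^ j)) atTop (𝓝 0) := by
        simp only [map_pow]
        refine tendsto_pow_atTop_nhds_zero_of_norm_lt_one ((hnv _ _).2 ?_)
        rw [Nat.cast_mul, map_mul]
        have : (v : HeightOneSpectrum (𝓞 k)).valuation k ((2 : ℕ) : k) ≤ 1 := by
          have : ((2 : ℕ) : k) = algebraMap (𝓞 k) k ((2 : ℕ) : 𝓞 k) :=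
            (map_natCast (algebraMap (𝓞 k) k) 2).symm
          rw [this]
          exact HeightOneSpectrum.valuation_le_one _ _
        exact (mul_le_of_le_one_left' this).trans_lt (hq _ v.2)
      simp only [map_div₀, map_add, map_one]
      have h2 := h1.div (h1.const_add 1) (by rw [add_zero]; exact one_ne_zero)
      rwa [add_zero, zero_div] at h2
  have hidem' : ((0, 1) : KS k S) ∈ T := by
    have h1 : ((0, 1) : KS k S) = 1 - (1, 0) := by
      rw [Prod.one_eq_mk, Prod.mk_sub_mk, sub_self, sub_zero]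
    rw [h1]
    exact T.sub_mem T.one_mem hidem
  -- infinite places
  have hinf : ∀ r : (∀ v : InfinitePlace k, v.Completion), ((r, 0) : KS k S) ∈ T := by
    intro r
    have h1 : Continuous fun r : (∀ v : InfinitePlace k, v.Completion) => ((r, 0) : KS k S) := by
      fun_prop
    have h2 : IsClosed {r : (∀ v : InfinitePlace k, v.Completion) | ((r, 0) : KS k S) ∈ T} :=
      hTc.preimage h1
    have h3 : ∀ c : k, ((algebraMap k (∀ v : InfinitePlace k, v.Completion) c, 0) : KS k S) ∈ T := by
      intro c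
      have h4 : ((algebraMap k (∀ v : InfinitePlace k, v.Completion) c, 0) : KS k S) =
          (1, 0) * algebraMap k (KS k S) c := by
        refine Prod.ext ?_ ?_
        · exact (one_mul _).symm
        · exact (zero_mul _).symm
      rw [h4]
      exact T.mul_mem hidem (hTk c)
    have h5 : closure (Set.range (algebraMap k (∀ v : InfinitePlace k, v.Completion))) ⊆
        {r : (∀ v : InfinitePlace k, v.Completion) | ((r, 0) : KS k S) ∈ T} :=
      h2.closure_subset_iff.2 (by
        rintro _ ⟨c, rfl⟩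
        exact h3 c)
    exact h5 ((InfiniteAdeleRing.denseRange_algebraMap k) r)
  -- finite places
  have hfin : ∀ r : (∀ v : S, (v : HeightOneSpectrum (𝓞 k)).adicCompletion k),
      ((0, r) : KS k S) ∈ T := by
    intro r
    have hz : ∀ j : ℕ, ∃ c : k, ∀ v : S,
        ‖r v - algebraMap k ((v : HeightOneSpectrum (𝓞 k)).adicCompletion k) c‖ ≤
        ‖algebraMap k ((v : HeightOneSpectrum (𝓞 k)).adicCompletion k) ((q : k) ^ j)‖ := by
      intro j
      obtain ⟨c, -, hc⟩ := fin_all (S := S) (fun v => r v /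
        algebraMap k ((v : HeightOneSpectrum (𝓞 k)).adicCompletion k) ((q : k) ^ j))
      refine ⟨(q : k) ^ j * c, fun v => ?_⟩
      have h0 : algebraMap k ((v : HeightOneSpectrum (𝓞 k)).adicCompletion k) ((q : k) ^ j) ≠ 0 := by
        rw [Ne, map_eq_zero_iff _ (algebraMap k _).injective]
        exact pow_ne_zero _ (Nat.cast_ne_zero.2 hq0)
      have h1 : r v - algebraMap k ((v : HeightOneSpectrum (𝓞 k)).adicCompletion k) ((q : k) ^ j * c)
          = algebraMap k ((v : HeightOneSpectrum (𝓞 k)).adicCompletion k) ((q : k) ^ j) *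
          (r v / algebraMap k ((v : HeightOneSpectrum (𝓞 k)).adicCompletion k) ((q : k) ^ j) -
            algebraMap k ((v : HeightOneSpectrum (𝓞 k)).adicCompletion k) c) := by
        rw [mul_sub, mul_div_cancel₀ _ h0, map_mul]
      rw [h1, norm_mul]
      exact mul_le_of_le_one_right (norm_nonneg _) (hc v)
    choose c hc using hz
    refine hTc.mem_of_tendsto (b := atTop) (f := fun j : ℕ => (0, 1) * algebraMap k (KS k S) (c j)) ?_
      (Eventually.of_forall fun j => T.mul_mem hidem' (hTk _))
    refine Prod.tendsto_iff _ _ |>.2 ⟨?_, tendsto_pi_nhds.2 fun v => ?_⟩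
    · have : ∀ j, ((0, 1) * algebraMap k (KS k S) (c j) : KS k S).1 = 0 := fun j => zero_mul _
      simp only [this]
      exact tendsto_const_nhds
    · have : ∀ j, ((0, 1) * algebraMap k (KS k S) (c j) : KS k S).2 v =
          algebraMap k ((v : HeightOneSpectrum (𝓞 k)).adicCompletion k) (c j) := fun j => one_mul _
      simp only [this]
      rw [tendsto_iff_norm_sub_tendsto_zero]
      have h1 := (hqt v v.2).norm
      rw [norm_zero] at h1
      refine squeeze_zero (fun j => norm_nonneg _) (fun j => ?_) h1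
      rw [norm_sub_rev]
      exact hc j v
  intro r
  have h1 : r = (r.1, 0) + (0, r.2) := by
    rw [Prod.mk_add_mk, add_zero, zero_add]
  have h2 : r ∈ T := by
    rw [h1]
    exact T.add_mem (hinf _) (hfin _)
  exact h2

end dens

section concrete

variable {k K D : Type} [Field k] [NumberField k] [Field K] [StarRing K] [DivisionRing D]
  [StarRing D] [Algebra k K] [Algebra k D] [Algebra K D] [IsScalarTower k K D] [StarLin k D]
  {d : kˣ} {s : K} {n N : ℕ}

omit [NumberField k] [StarRing K] [StarRing D] [StarLin k D] [Algebra k K] [Algebra k D]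
  [Algebra K D] [IsScalarTower k K D] [Field k] [Field K] in
theorem uD_surjective {D : Type} [DivisionRing D] [StarRing D] :
    Function.Surjective (uD (D := D)) := by
  intro y
  have h1 := Unitary.mem_iff.1 y.2
  have h0 : (y : D) ≠ 0 := by
    intro h
    rw [h, mul_zero] at h1
    exact zero_ne_one h1.1
  exact ⟨⟨Units.mk0 y h0, h1.2⟩, Subtype.ext rfl⟩

/-- **(LOW) for number fields.** -/
theorem low_nf (hS : Even.Setting k K D d s) (hn : n ≠ 0) (hdeg : finrank K D = n ^ 2)
    (B : Basis (Fin N) k D) (S : Finset (HeightOneSpectrum (𝓞 k))) {x0 : H976.UD D}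
    (hx0 : x0 ≠ 1) {V : Set (unitary (BE B (KS k S)))} (hV : IsOpen V)
    (hxV : posS B S x0 ∈ V) :
    ∃ c : ℝ, 0 < c ∧ ∀ᶠ x : ℝ in 𝓝[>] 1, ∃ F : Finset (H976.UD D),
      (∀ y ∈ F, posS B S y ∈ V) ∧ c ≤ ∑ y ∈ F, (x - 1) * denS B S y ^ (-x) := by
  have hK0 : CharZero K := charZero_of_injective_algebraMap (algebraMap k K).injective
  have := hS.cen
  set w0 : D := algebraMap K D s with hw0
  have hw : ∀ x : D, w0 * x = x * w0 := fun x => Algebra.commutes s x
  have hne : w0 ≠ star w0 := by
    intro h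
    rw [hw0, Algebra.algebraMap_eq_smul_one, hS.star_smul, star_one, hS.star_s, neg_smul,
      eq_neg_iff_add_eq_zero, ← two_smul K, smul_smul, smul_eq_zero] at h
    have hs0 : s ≠ 0 := by
      intro h0
      have h1 := hS.sq
      rw [h0, zero_pow two_ne_zero] at h1
      exact d.ne_zero ((algebraMap k K).injective (by rw [← h1, map_zero]))
    rcases h with h | h
    · exact mul_ne_zero two_ne_zero hs0 h
    · exact one_ne_zero h
  have hlow : LowIn (ordO B (OS k S)) := by
    obtain ⟨c, hc, hev⟩ := H74.exists_low_NF hS hn hdeg B S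
    exact ⟨c, hc, hev.mono fun x ⟨T, h1, h2, _, h4⟩ => ⟨T, h1, h2, h4⟩⟩
  exact low_unitary (bcT B (KS k S)) (good_KS k S) (denseRange_KS S) (isOrd_S B S) hw hne hlow
    (uD (D := D)) uD_surjective (p0 := x0) (fun h => hx0 (uD_injective (h.trans (map_one _).symm)))
    hV hxV

end concrete

end Vale.Agent.P011.H973
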