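import Mathlib

/-!
# Two-sided multiplications of a central simple algebra, and simplicity of its reductions
-/

set_option autoImplicit false

open scoped TensorProduct

namespace Vale.Agent.P011.H973

/-- Every linear endomorphism of a central simple algebra agrees on a finite set with a sum of
two-sided multiplications. -/
theorem exists_bimul {K A : Type*} [Field K] [Ring A] [Algebra K A] [IsSimpleRing A]
    [Algebra.IsCentral K A] (T : A →ₗ[K] A) (s : Finset A) :
    ∃ (m : ℕ) (x y : Fin m → A), ∀ z ∈ s, T z = ∑ t, x t * z * y t := by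
  classical
  let hmod : Module (A ⊗[K] Aᵐᵒᵖ) A := TensorProduct.Algebra.module
  have hsm : ∀ (x : A) (y : Aᵐᵒᵖ) (z : A), (x ⊗ₜ[K] y) • z = x * z * y.unop := by
    intro x y z
    rw [TensorProduct.Algebra.smul_def]
    simp [mul_assoc]
  have hform : ∀ r : A ⊗[K] Aᵐᵒᵖ, ∃ (m : ℕ) (x y : Fin m → A), ∀ z : A,
      r • z = ∑ t, x t * z * y t := by
    intro r
    induction r using TensorProduct.induction_on with
    | zero => exact ⟨0, Fin.elim0, Fin.elim0, fun z => by
        rw [Finset.univ_eq_empty, Finset.sum_empty]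
        exact zero_smul (A ⊗[K] Aᵐᵒᵖ) z⟩
    | tmul x y => exact ⟨1, fun _ => x, fun _ => y.unop, fun z => by simp [hsm]⟩
    | add r r' h h' =>
      obtain ⟨m, x, y, h⟩ := h
      obtain ⟨m', x', y', h'⟩ := h'
      refine ⟨m + m', Fin.append x x', Fin.append y y', fun z => ?_⟩
      rw [add_smul, h, h', Fin.sum_univ_add]
      simp
  have hsimple : IsSimpleModule (A ⊗[K] Aᵐᵒᵖ) A := by
    have : Nontrivial A := inferInstance
    rw [isSimpleModule_iff]
    refine { exists_pair_ne := ⟨⊥, ⊤, bot_ne_top⟩, eq_bot_or_eq_top := fun N => ?_ }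
    by_cases hN : N = ⊥
    · exact Or.inl hN
    right
    obtain ⟨z, hz, hz0⟩ := (Submodule.ne_bot_iff N).1 hN
    have hmul : ∀ (x y w : A), w ∈ N → x * w * y ∈ N := by
      intro x y w hw
      have := N.smul_mem (x ⊗ₜ[K] MulOpposite.op y) hw
      rwa [hsm] at this
    let I : TwoSidedIdeal A := TwoSidedIdeal.mk' (N : Set A) N.zero_mem (fun hx hy => N.add_mem hx hy)
      (fun hx => by
        rename_i x
        have := hmul (-1) 1 x hx
        simpa using this)
      (fun {x y} hy => by
        have := hmul x 1 y hy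
        simpa using this)
      (fun {x y} hx => by
        have := hmul 1 y x hx
        simpa using this)
    have hI : I = ⊤ := by
      rcases IsSimpleRing.simple.eq_bot_or_eq_top I with h | h
      · exfalso
        apply hz0
        have : z ∈ I := by
          rw [TwoSidedIdeal.mem_mk']
          exact hz
        rw [h] at this
        simpa using this
      · exact h
    rw [Submodule.eq_top_iff']
    intro w
    have : w ∈ I := by rw [hI]; trivial
    rwa [TwoSidedIdeal.mem_mk'] at this
  have hsemi : IsSemisimpleModule (A ⊗[K] Aᵐᵒᵖ) A := inferInstance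
  -- the endomorphisms are the scalars
  have hend : ∀ f : Module.End (A ⊗[K] Aᵐᵒᵖ) A, ∃ c : K, ∀ z, f z = c • z := by
    intro f
    have h1 : ∀ x y z, f (x * z * y) = x * f z * y := by
      intro x y z
      have := f.map_smul (x ⊗ₜ[K] MulOpposite.op y) z
      rwa [hsm, hsm] at this
    have hl : ∀ z, f z = z * f 1 := by
      intro z
      have := h1 z 1 1
      simpa using this
    have hr : ∀ z, f z = f 1 * z := by
      intro z
      have := h1 1 z 1
      simpa using this
    have hc : f 1 ∈ Subalgebra.center K A := by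
      rw [Subalgebra.mem_center_iff]
      intro z
      rw [← hl, ← hr]
    rw [Algebra.IsCentral.center_eq_bot, Algebra.mem_bot] at hc
    obtain ⟨c, hc⟩ := hc
    refine ⟨c, fun z => ?_⟩
    rw [hr, ← hc, Algebra.smul_def]
  let f : Module.End (Module.End (A ⊗[K] Aᵐᵒᵖ) A) A := {
    toFun := T
    map_add' := T.map_add
    map_smul' := by
      intro g z
      obtain ⟨c, hc⟩ := hend g
      show T (g z) = g (T z)
      rw [hc, hc, T.map_smul] }
  obtain ⟨r, hr⟩ := jacobson_density f s
  obtain ⟨m, x, y, h⟩ := hform r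
  exact ⟨m, x, y, fun z hz => by rw [← h, ← hr z hz]; rfl⟩

/-- A ring with a coefficient subring `C` consisting of central elements, all nonzero ones
invertible in `C`, a finite spanning family `b`, and two-sided multiplications taking `b j` to
`b i` and the other `b l` to `0`, is simple with centre `C`. -/
theorem simple_central {A ι : Type*} [Ring A] [Nontrivial A] [Fintype ι] [DecidableEq ι]
    (C : Subring A) (hC : ∀ c ∈ C, ∀ x, c * x = x * c) (hinv : ∀ c ∈ C, c ≠ 0 → ∃ c' ∈ C, c * c' = 1)
    (b : ι → A) (hspan : ∀ z, ∃ γ : ι → A, (∀ i, γ i ∈ C) ∧ z = ∑ l, γ l * b l)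
    (hT : ∀ i j, ∃ (m : ℕ) (x y : Fin m → A), ∀ l, ∑ t, x t * b l * y t = if l = j then b i else 0) :
    IsSimpleRing A ∧ Set.center A = C := by
  -- the operators
  have hT' : ∀ (i j : ι), ∃ (m : ℕ) (x y : Fin m → A), ∀ (γ : ι → A), (∀ i, γ i ∈ C) →
      ∑ t, x t * (∑ l, γ l * b l) * y t = γ j * b i := by
    intro i j
    obtain ⟨m, x, y, h⟩ := hT i j
    refine ⟨m, x, y, fun γ hγ => ?_⟩
    calc ∑ t, x t * (∑ l, γ l * b l) * y t = ∑ t, ∑ l, γ l * (x t * b l * y t) := by
          refine Finset.sum_congr rfl fun t _ => ?_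
          rw [Finset.mul_sum, Finset.sum_mul]
          refine Finset.sum_congr rfl fun l _ => ?_
          rw [← mul_assoc (x t), ← hC _ (hγ l) (x t)]
          simp only [mul_assoc]
      _ = ∑ l, γ l * ∑ t, x t * b l * y t := by
          rw [Finset.sum_comm]
          refine Finset.sum_congr rfl fun l _ => ?_
          rw [Finset.mul_sum]
      _ = γ j * b i := by
          simp [h]
  obtain ⟨e, he, h1⟩ := hspan 1
  obtain ⟨j₀, hj₀⟩ : ∃ j, e j ≠ 0 := by
    by_contra hcon
    push Not at hcon
    apply one_ne_zero (α := A)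
    rw [h1]
    simp [hcon]
  constructor
  · refine ⟨{ exists_pair_ne := ⟨⊥, ⊤, ?_⟩, eq_bot_or_eq_top := fun I => ?_ }⟩
    · intro h
      have h2 : (1 : A) ∈ (⊥ : TwoSidedIdeal A) := by rw [h]; trivial
      simp at h2
    by_cases hI : I = ⊥
    · exact Or.inl hI
    right
    obtain ⟨z, hz, hz0⟩ : ∃ z ∈ I, z ≠ 0 := by
      by_contra hcon
      push Not at hcon
      apply hI
      rw [eq_bot_iff]
      intro z hz
      rw [hcon z hz]
      exact TwoSidedIdeal.zero_mem _
    obtain ⟨γ, hγ, rfl⟩ := hspan z
    obtain ⟨j, hj⟩ : ∃ j, γ j ≠ 0 := by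
      by_contra hcon
      push Not at hcon
      exact hz0 (by simp [hcon])
    obtain ⟨c', hc', hcc'⟩ := hinv _ (hγ j) hj
    have hb : ∀ i, b i ∈ I := by
      intro i
      obtain ⟨m, x, y, h⟩ := hT' i j
      have h2 : γ j * b i ∈ I := by
        rw [← h γ hγ]
        exact sum_mem fun t _ => I.mul_mem_right _ _ (I.mul_mem_left _ _ hz)
      have h3 : c' * (γ j * b i) = b i := by
        rw [← mul_assoc, hC c' hc' (γ j), hcc', one_mul]
      rw [← h3]
      exact I.mul_mem_left _ _ h2
    have h1I : (1 : A) ∈ I := by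
      rw [h1]
      exact sum_mem fun l _ => I.mul_mem_left _ _ (hb l)
    rw [eq_top_iff]
    intro w _
    have := I.mul_mem_left w 1 h1I
    rwa [mul_one] at this
  · ext z
    constructor
    · intro hz
      rw [Semigroup.mem_center_iff] at hz
      obtain ⟨γ, hγ, hzγ⟩ := hspan z
      obtain ⟨c', hc', hcc'⟩ := hinv _ (he j₀) hj₀
      have hb : ∀ i, b i * z = c' * γ j₀ * b i := by
        intro i
        obtain ⟨m, x, y, h⟩ := hT' i j₀
        have h2 : γ j₀ * b i = (e j₀ * b i) * z := by
          rw [← h γ hγ, ← h e he, ← hzγ, ← h1, Finset.sum_mul]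
          refine Finset.sum_congr rfl fun t _ => ?_
          rw [mul_one, mul_assoc, mul_assoc, ← hz (y t)]
        rw [mul_assoc, h2, ← mul_assoc, ← mul_assoc, hC c' hc' (e j₀), hcc', one_mul]
      have h4 : z = c' * γ j₀ := by
        calc z = 1 * z := (one_mul z).symm
          _ = ∑ l, e l * (b l * z) := by
              conv_lhs => rw [h1]
              rw [Finset.sum_mul]
              simp only [mul_assoc]
          _ = ∑ l, (c' * γ j₀) * (e l * b l) := by
              refine Finset.sum_congr rfl fun l _ => ?_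
              rw [hb, ← mul_assoc, ← mul_assoc (c' * γ j₀)]
              rw [hC _ (he l) (c' * γ j₀)]
          _ = c' * γ j₀ := by
              rw [← Finset.mul_sum, ← h1, mul_one]
      rw [h4]
      exact C.mul_mem hc' (hγ j₀)
    · intro hz
      rw [Semigroup.mem_center_iff]
      intro g
      exact (hC z hz g).symm

end Vale.Agent.P011.H973
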