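import Mathlib

/-!
# Rank one symmetric elements of a finite ring with involution

`rkc e` is the number of elements of the right ideal `e A`.  If `A` is a finite ring with
involution which is simple, of order `q ^ (2 n ^ 2)` with centre of order `q ^ 2` on which the
involution is nontrivial, or a product of two simple rings swapped by the involution, then there are
at least `q ^ (2 n - 2) * (q - 1)` symmetric elements `e` with `rkc e = q ^ (2 n)`.
-/

set_option autoImplicit false

open Matrix LinearAlgebra.Projectivization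

namespace Vale.Agent.P011.H973

/-- the number of elements of the right ideal generated by `e` -/
noncomputable def rkc {A : Type*} [Mul A] (e : A) : ℕ := Nat.card (Set.range fun x : A => e * x)

theorem rkc_equiv {A B : Type*} [Mul A] [Mul B] (φ : A ≃* B) (e : A) : rkc (φ e) = rkc e := by
  unfold rkc
  have h : (Set.range fun x : B => φ e * x) = φ '' (Set.range fun x : A => e * x) := by
    ext y
    constructor
    · rintro ⟨x, rfl⟩
      exact ⟨e * φ.symm x, ⟨φ.symm x, rfl⟩, by simp⟩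
    · rintro ⟨_, ⟨x, rfl⟩, rfl⟩
      exact ⟨φ x, by simp⟩
  rw [h]
  exact (Nat.card_image_of_injective φ.injective _)

section Mat

variable {E : Type*} [Field E] {n : ℕ}

/-- right multiples of a nonzero rank one matrix `u w^t`: all `u w'^t` -/
theorem range_mul_vecMulVec {u w : Fin n → E} (hw : w ≠ 0) :
    (Set.range fun x : Matrix (Fin n) (Fin n) E => vecMulVec u w * x) =
      Set.range fun w' : Fin n → E => vecMulVec u w' := by
  ext y
  constructor
  · rintro ⟨x, rfl⟩
    exact ⟨w ᵥ* x, by simp [Matrix.vecMulVec_mul]⟩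
  · rintro ⟨w', rfl⟩
    obtain ⟨i, hi⟩ := Function.ne_iff.1 hw
    refine ⟨vecMulVec (Pi.single i (w i)⁻¹) w', ?_⟩
    simp only [Matrix.vecMulVec_mul_vecMulVec]
    congr 1
    simp at hi
    simp [hi]

theorem vecMulVec_injective {u : Fin n → E} (hu : u ≠ 0) :
    Function.Injective fun w' : Fin n → E => vecMulVec u w' := by
  intro w w' h
  obtain ⟨i, hi⟩ := Function.ne_iff.1 hu
  ext j
  have := congrFun (congrFun h i) j
  simp only [vecMulVec_apply] at this
  exact mul_left_cancel₀ hi this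

theorem rkc_vecMulVec {u w : Fin n → E} (hu : u ≠ 0) (hw : w ≠ 0) :
    rkc (vecMulVec u w) = Nat.card E ^ n := by
  unfold rkc
  rw [range_mul_vecMulVec hw, Nat.card_congr (Equiv.ofInjective _ (vecMulVec_injective hu)).symm]
  simp [Nat.card_fun]

/-- left multiples -/
theorem range_vecMulVec_mul {u w : Fin n → E} (hu : u ≠ 0) :
    (Set.range fun x : Matrix (Fin n) (Fin n) E => x * vecMulVec u w) =
      Set.range fun u' : Fin n → E => vecMulVec u' w := by
  ext y
  constructor
  · rintro ⟨x, rfl⟩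
    exact ⟨x *ᵥ u, by simp [Matrix.mul_vecMulVec]⟩
  · rintro ⟨u', rfl⟩
    obtain ⟨i, hi⟩ := Function.ne_iff.1 hu
    refine ⟨vecMulVec u' (Pi.single i (u i)⁻¹), ?_⟩
    simp only [Matrix.vecMulVec_mul_vecMulVec]
    simp at hi
    simp [hi]

theorem vecMulVec_injective' {w : Fin n → E} (hw : w ≠ 0) :
    Function.Injective fun u' : Fin n → E => vecMulVec u' w := by
  intro u u' h
  obtain ⟨i, hi⟩ := Function.ne_iff.1 hw
  ext j
  have := congrFun (congrFun h j) i
  simp only [vecMulVec_apply] at this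
  exact mul_right_cancel₀ hi this

theorem card_range_vecMulVec_mul {u w : Fin n → E} (hu : u ≠ 0) (hw : w ≠ 0) :
    Nat.card (Set.range fun x : Matrix (Fin n) (Fin n) E => x * vecMulVec u w) =
      Nat.card E ^ n := by
  rw [range_vecMulVec_mul hu, Nat.card_congr (Equiv.ofInjective _ (vecMulVec_injective' hw)).symm]
  simp [Nat.card_fun]

/-- the line of `u` is determined by a nonzero matrix `u w^t` -/
theorem mk_eq_of_vecMulVec {ℓ ℓ' : ℙ E (Fin n → E)} {w w' : Fin n → E} (hw : w ≠ 0)
    (h : vecMulVec ℓ.rep w = vecMulVec ℓ'.rep w') : ℓ = ℓ' := by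
  obtain ⟨j, hj⟩ := Function.ne_iff.1 hw
  rw [← ℓ.mk_rep, ← ℓ'.mk_rep, Projectivization.mk_eq_mk_iff']
  refine ⟨w' j / w j, ?_⟩
  ext i
  have := congrFun (congrFun h i) j
  simp only [vecMulVec_apply] at this
  simp only [Pi.zero_apply] at hj
  simp only [Pi.smul_apply, smul_eq_mul]
  field_simp
  linear_combination -this

/-- In a matrix ring over a finite field with an additive anti-multiplicative involution `σ`, fixing
the scalars from `F`, and such that some `δ` commuting with everything has `σ δ = -δ`, every line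
`ℓ` carries a nonzero symmetric matrix `u w^t`, `u` in `ℓ`. -/
theorem exists_sym {σ : Matrix (Fin n) (Fin n) E → Matrix (Fin n) (Fin n) E}
    (hadd : ∀ x y, σ (x + y) = σ x + σ y) (hmul : ∀ x y, σ (x * y) = σ y * σ x)
    (hinv : ∀ x, σ (σ x) = x) {δ : Matrix (Fin n) (Fin n) E} (hδ : IsUnit δ)
    (hδc : ∀ x, δ * x = x * δ) (hδs : σ δ = -δ) {u : Fin n → E} (hu : u ≠ 0) :
    ∃ w : Fin n → E, w ≠ 0 ∧ σ (vecMulVec u w) = vecMulVec u w := by
  obtain ⟨i, hi⟩ := Function.ne_iff.1 hu
  simp only [Pi.zero_apply] at hi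
  set w₀ : Fin n → E := Pi.single i (u i)⁻¹ with hw₀
  have hw₀u : w₀ ⬝ᵥ u = 1 := by simp [hw₀, hi]
  have hw₀0 : w₀ ≠ 0 := by
    intro h
    rw [h] at hw₀u
    simp at hw₀u
  set ε := vecMulVec u w₀ with hε
  have hε0 : ε ≠ 0 := by
    intro h
    have h1 := congrFun (congrFun h i) i
    simp [hε, hw₀, vecMulVec_apply, hi] at h1
  have hσ0 : σ 0 = 0 := by
    have := hadd 0 0
    simpa using this
  have hσneg : ∀ x, σ (-x) = -σ x := by
    intro x
    have := hadd x (-x)
    rw [add_neg_cancel, hσ0] at this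
    exact (neg_eq_of_add_eq_zero_right this.symm).symm
  have hε' : σ ε ≠ 0 := by
    intro h
    apply hε0
    rw [← hinv ε, h, hσ0]
  obtain ⟨a, ha⟩ : ∃ a, σ ε a ≠ 0 := by
    by_contra hcon
    push Not at hcon
    exact hε' (funext hcon)
  -- the element `z`
  set z : Matrix (Fin n) (Fin n) E := vecMulVec u (σ ε a) with hz
  have hz0 : z ≠ 0 := by
    intro h
    obtain ⟨b, hb⟩ := Function.ne_iff.1 ha
    have := congrFun (congrFun h i) b
    simp only [hz, vecMulVec_apply, Matrix.zero_apply, mul_eq_zero] at this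
    rcases this with h1 | h1
    · exact hi h1
    · exact hb h1
  have hzx : ∃ x, z = ε * x * σ ε := by
    refine ⟨vecMulVec u (Pi.single a 1), ?_⟩
    rw [hε, Matrix.vecMulVec_mul_vecMulVec, hw₀u]
    rw [Matrix.vecMulVec_mul, one_smul, Matrix.single_one_vecMul]
    rfl
  obtain ⟨x, hx⟩ := hzx
  have hσz : σ z = ε * (σ x * σ ε) := by
    rw [hx, hmul, hmul, hinv]
  have hform : ∀ y, ∃ w, ε * y = vecMulVec u w := fun y => ⟨w₀ ᵥ* y, by
    rw [hε, Matrix.vecMulVec_mul]⟩
  -- the symmetric elements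
  by_cases hs : z + σ z = 0
  · have hσz' : σ z = -z := (neg_eq_of_add_eq_zero_right hs).symm
    have hsym : σ (δ * z) = δ * z := by
      rw [hmul, hσz', hδs, neg_mul_neg, hδc]
    obtain ⟨w, hw⟩ := hform (x * σ ε * δ)
    have hdz : δ * z = vecMulVec u w := by
      rw [← hw, hδc, hx]
      simp only [mul_assoc]
    refine ⟨w, ?_, ?_⟩
    · rintro rfl
      rw [vecMulVec_zero] at hdz
      exact hz0 ((hδ.mul_right_eq_zero).1 hdz)
    · rw [← hdz, hsym]
  · obtain ⟨w, hw⟩ := hform (x * σ ε + σ x * σ ε)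
    have hsum : z + σ z = vecMulVec u w := by
      rw [← hw, hσz, mul_add]
      conv_lhs => rw [hx]
      rw [mul_assoc]
    refine ⟨w, ?_, ?_⟩
    · rintro rfl
      rw [vecMulVec_zero] at hsum
      exact hs hsum
    · rw [← hsum, hadd, hinv, add_comm]

theorem card_sym_mat [Finite E] {F : Type*} [Field F] [Finite F]
    {σ : Matrix (Fin n) (Fin n) E → Matrix (Fin n) (Fin n) E}
    (hadd : ∀ x y, σ (x + y) = σ x + σ y) (hmul : ∀ x y, σ (x * y) = σ y * σ x)
    (hinv : ∀ x, σ (σ x) = x) {δ : Matrix (Fin n) (Fin n) E} (hδ : IsUnit δ)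
    (hδc : ∀ x, δ * x = x * δ) (hδs : σ δ = -δ) (γ : F →+* Matrix (Fin n) (Fin n) E)
    (hγc : ∀ c x, γ c * x = x * γ c) (hγs : ∀ c, σ (γ c) = γ c) :
    Nat.card (ℙ E (Fin n → E)) * (Nat.card F - 1) ≤
      Nat.card {e : Matrix (Fin n) (Fin n) E // σ e = e ∧ rkc e = Nat.card E ^ n} := by
  classical
  choose w hw0 hw using fun ℓ : ℙ E (Fin n → E) =>
    exists_sym hadd hmul hinv hδ hδc hδs ℓ.rep_nonzero
  have hz0 : ∀ ℓ : ℙ E (Fin n → E), vecMulVec ℓ.rep (w ℓ) ≠ 0 := by
    intro ℓ h
    apply hw0 ℓ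
    apply vecMulVec_injective ℓ.rep_nonzero
    simpa using h
  have hform : ∀ (ℓ : ℙ E (Fin n → E)) (c : F),
      vecMulVec ℓ.rep (w ℓ) * γ c = vecMulVec ℓ.rep (w ℓ ᵥ* γ c) := fun ℓ c => by
    rw [Matrix.vecMulVec_mul]
  have hunit : ∀ c : F, c ≠ 0 → ∀ x, x * γ c = 0 → x = 0 := by
    intro c hc x hx
    have : x * γ c * γ c⁻¹ = 0 := by rw [hx, zero_mul]
    rwa [mul_assoc, ← map_mul, mul_inv_cancel₀ hc, map_one, mul_one] at this
  have hne : ∀ (ℓ : ℙ E (Fin n → E)) (c : Fˣ), w ℓ ᵥ* γ c ≠ 0 := by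
    intro ℓ c h
    apply hz0 ℓ
    apply hunit c c.ne_zero
    rw [hform, h, vecMulVec_zero]
  let g : ℙ E (Fin n → E) × Fˣ →
      {e : Matrix (Fin n) (Fin n) E // σ e = e ∧ rkc e = Nat.card E ^ n} := fun p =>
    ⟨vecMulVec p.1.rep (w p.1) * γ p.2, by
      constructor
      · rw [hmul, hγs, hw, hγc]
      · rw [hform]
        exact rkc_vecMulVec p.1.rep_nonzero (hne p.1 p.2)⟩
  have hg : Function.Injective g := by
    rintro ⟨ℓ, c⟩ ⟨ℓ', c'⟩ h
    have h1 : vecMulVec ℓ.rep (w ℓ) * γ c = vecMulVec ℓ'.rep (w ℓ') * γ c' := congrArg Subtype.val h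
    have h2 : ℓ = ℓ' := by
      rw [hform, hform] at h1
      exact mk_eq_of_vecMulVec (hne ℓ c) h1
    subst h2
    congr 1
    by_contra hcc
    have hcc' : (c : F) - c' ≠ 0 := by
      rw [sub_ne_zero]
      exact fun h => hcc (Units.ext h)
    apply hz0 ℓ
    apply hunit _ hcc'
    rw [map_sub, mul_sub, h1, sub_self]
  have h1 := Nat.card_le_card_of_injective g hg
  rw [Nat.card_prod] at h1
  have h2 : Nat.card Fˣ = Nat.card F - 1 := Nat.card_units F
  rwa [h2] at h1

/-- rank one elements of a matrix ring: number -/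
theorem card_rank_one_mat [Finite E] :
    Nat.card (ℙ E (Fin n → E)) * (Nat.card E ^ n - 1) ≤
      Nat.card {e : Matrix (Fin n) (Fin n) E // rkc e = Nat.card E ^ n ∧
        Nat.card (Set.range fun x : Matrix (Fin n) (Fin n) E => x * e) = Nat.card E ^ n} := by
  classical
  let g : ℙ E (Fin n → E) × {w : Fin n → E // w ≠ 0} →
      {e : Matrix (Fin n) (Fin n) E // rkc e = Nat.card E ^ n ∧
        Nat.card (Set.range fun x : Matrix (Fin n) (Fin n) E => x * e) = Nat.card E ^ n} :=
    fun p => ⟨vecMulVec p.1.rep p.2.1, rkc_vecMulVec p.1.rep_nonzero p.2.2,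
      card_range_vecMulVec_mul p.1.rep_nonzero p.2.2⟩
  have hg : Function.Injective g := by
    rintro ⟨ℓ, w, hw⟩ ⟨ℓ', w', hw'⟩ h
    have h1 : vecMulVec ℓ.rep w = vecMulVec ℓ'.rep w' := congrArg Subtype.val h
    have h2 : ℓ = ℓ' := mk_eq_of_vecMulVec hw h1
    subst h2
    have h3 : w = w' := vecMulVec_injective ℓ.rep_nonzero h1
    subst h3
    rfl
  have h1 := Nat.card_le_card_of_injective g hg
  rw [Nat.card_prod] at h1
  have h2 : Nat.card {w : Fin n → E // w ≠ 0} = Nat.card E ^ n - 1 := by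
    have : Fintype E := Fintype.ofFinite E
    rw [Nat.card_eq_fintype_card, Nat.card_eq_fintype_card]
    simp [Fintype.card_subtype_compl]
  rwa [h2] at h1

end Mat

theorem pow_le_card_proj (E : Type*) [Field E] [Finite E] (n : ℕ) (hn : n ≠ 0) :
    Nat.card E ^ (n - 1) ≤ Nat.card (ℙ E (Fin n → E)) := by
  rw [Projectivization.card_of_finrank E (Fin n → E) (n := n) (by simp)]
  exact Finset.single_le_sum (f := fun i => Nat.card E ^ i) (fun _ _ => Nat.zero_le _)
    (Finset.mem_range.2 (by omega))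

theorem card_center_equiv {A B : Type*} [Ring A] [Ring B] (φ : A ≃+* B) :
    Nat.card (Set.center A) = Nat.card (Set.center B) := by
  have h : φ '' Set.center A = Set.center B := by
    ext y
    constructor
    · rintro ⟨x, hx, rfl⟩
      rw [Semigroup.mem_center_iff] at hx ⊢
      intro g
      obtain ⟨g, rfl⟩ := φ.surjective g
      rw [← map_mul, hx, map_mul]
    · intro hy
      refine ⟨φ.symm y, ?_, by simp⟩
      rw [Semigroup.mem_center_iff] at hy ⊢
      intro g
      apply φ.injective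
      simpa using hy (φ g)
  rw [← h]
  exact (Nat.card_image_of_injective φ.injective _).symm

theorem card_center_mat {m : ℕ} [NeZero m] (E : Type*) [Field E] :
    Nat.card (Set.center (Matrix (Fin m) (Fin m) E)) = Nat.card E := by
  rw [Matrix.center_eq_range]
  refine Nat.card_congr (Equiv.ofInjective _ ?_).symm
  intro a b h
  have := congrFun (congrFun h 0) 0
  simpa using this

/-- structure of a finite simple ring with given order and given order of the centre -/
theorem exists_equiv_mat.{u} {A : Type u} [Ring A] [Finite A] [IsSimpleRing A] {n c : ℕ} (hn : n ≠ 0)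
    (hcen : Nat.card (Set.center A) = c) (hA : Nat.card A = c ^ n ^ 2) :
    ∃ (E : Type u) (_ : Field E) (_ : Finite E), Nat.card E = c ∧
      Nonempty (A ≃+* Matrix (Fin n) (Fin n) E) := by
  obtain ⟨m, hm, E, _, ⟨φ⟩⟩ := IsSimpleRing.exists_ringEquiv_matrix_divisionRing A
  have : Finite (Matrix (Fin m) (Fin m) E) := Finite.of_equiv A φ.toEquiv
  have : Finite E := by
    have hi : Function.Injective fun c : E => Matrix.scalar (Fin m) c := by
      intro a b h
      have := congrFun (congrFun h 0) 0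
      simpa using this
    exact Finite.of_injective _ hi
  let hE : Field E := littleWedderburn E
  have φ' : A ≃+* Matrix (Fin m) (Fin m) E := φ
  have hc : Nat.card E = c := by
    rw [← card_center_mat (m := m) E, ← hcen, card_center_equiv φ']
  have h1 : Nat.card A = c ^ m ^ 2 := by
    rw [Nat.card_congr φ.toEquiv, ← hc]
    have : Fintype E := Fintype.ofFinite E
    simp [Matrix, sq, pow_mul]
  have hc1 : 1 < c := by
    rw [← hc]
    exact Finite.one_lt_card
  have h2 : m ^ 2 = n ^ 2 := Nat.pow_right_injective hc1 (h1.symm.trans hA)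
  have h3 : m = n := by
    exact Nat.pow_left_injective (n := 2) (by norm_num) h2
  subst h3
  exact ⟨E, hE, inferInstance, hc, ⟨φ'⟩⟩

/-- **Nonsplit case.** -/
theorem card_sym_nonsplit {A F : Type*} [Ring A] [StarRing A] [Finite A] [Field F] [Finite F]
    (γ : F →+* A) (hγc : ∀ c x, γ c * x = x * γ c) (hγs : ∀ c, star (γ c) = γ c)
    [IsSimpleRing A] {n : ℕ} (hn : n ≠ 0) (hcen : Nat.card (Set.center A) = Nat.card F ^ 2)
    (hA : Nat.card A = Nat.card F ^ (2 * n ^ 2)) {δ : A} (hδ : IsUnit δ)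
    (hδc : ∀ x, δ * x = x * δ) (hδs : star δ = -δ) :
    Nat.card F ^ (2 * n - 2) * (Nat.card F - 1) ≤
      Nat.card {e : A // star e = e ∧ rkc e = Nat.card F ^ (2 * n)} := by
  obtain ⟨E, _, _, hE, ⟨φ⟩⟩ := exists_equiv_mat hn hcen (by rw [hA, pow_mul])
  let σ : Matrix (Fin n) (Fin n) E → Matrix (Fin n) (Fin n) E := fun x => φ (star (φ.symm x))
  have h := card_sym_mat (E := E) (n := n) (F := F) (σ := σ)
    (by intro x y; simp [σ]) (by intro x y; simp [σ]) (by intro x; simp [σ])
    (δ := φ δ) (hδ.map φ) (by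
      intro x
      obtain ⟨x, rfl⟩ := φ.surjective x
      rw [← map_mul, hδc, map_mul]) (by simp [σ, hδs]) ((φ : A →+* _).comp γ) (by
      intro c x
      obtain ⟨x, rfl⟩ := φ.surjective x
      simp only [RingHom.comp_apply, RingHom.coe_coe]
      rw [← map_mul, hγc, map_mul]) (by
      intro c
      simp [σ, hγs])
  have h1 := pow_le_card_proj E n hn
  have h2 : Nat.card {e : Matrix (Fin n) (Fin n) E // σ e = e ∧ rkc e = Nat.card E ^ n} =
      Nat.card {e : A // star e = e ∧ rkc e = Nat.card F ^ (2 * n)} := by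
    refine (Nat.card_congr (Equiv.subtypeEquiv φ.toEquiv ?_)).symm
    intro a
    have h3 : rkc (φ a) = rkc a := rkc_equiv φ.toMulEquiv a
    have h4 : σ (φ a) = φ a ↔ star a = a := by simp [σ]
    show star a = a ∧ rkc a = Nat.card F ^ (2 * n) ↔ σ (φ a) = φ a ∧ rkc (φ a) = Nat.card E ^ n
    rw [h3, h4, hE, pow_mul]
  rw [← h2]
  refine le_trans ?_ h
  refine Nat.mul_le_mul_right _ (le_trans (le_of_eq ?_) h1)
  rw [hE, ← pow_mul]
  congr 1
  omega

/-- **Split case.** -/
theorem card_sym_split {A B : Type*} [Ring A] [StarRing A] [Finite A] [Ring B] [Finite B]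
    [IsSimpleRing B] {q n : ℕ} (hn : n ≠ 0) (hcen : Nat.card (Set.center B) = q)
    (hB : Nat.card B = q ^ n ^ 2) (π : A →+* B) (hinj : ∀ x, π x = 0 → π (star x) = 0 → x = 0)
    (hsurj : ∀ b b', ∃ x, π x = b ∧ π (star x) = b') :
    q ^ (2 * n - 2) * (q - 1) ≤ Nat.card {e : A // star e = e ∧ rkc e = q ^ (2 * n)} := by
  obtain ⟨E, _, _, hE, ⟨φ⟩⟩ := exists_equiv_mat hn hcen hB
  have hinj' : ∀ x y, π x = π y → π (star x) = π (star y) → x = y := by
    intro x y h1 h2
    have := hinj (x - y) (by rw [map_sub, h1, sub_self]) (by rw [star_sub, map_sub, h2, sub_self])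
    exact sub_eq_zero.1 this
  choose f hf hf' using fun e : Matrix (Fin n) (Fin n) E => hsurj (φ.symm e) (φ.symm e)
  have hstar : ∀ e, star (f e) = f e := by
    intro e
    apply hinj'
    · rw [hf', hf]
    · rw [star_star, hf, hf']
  have hrk : ∀ e, rkc (f e) = rkc e *
      Nat.card (Set.range fun x : Matrix (Fin n) (Fin n) E => x * e) := by
    intro e
    unfold rkc
    rw [← Nat.card_prod]
    refine Nat.card_congr (Equiv.ofBijective (fun y => (⟨φ (π y.1), ?_⟩, ⟨φ (π (star y.1)), ?_⟩)) ?_)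
    · obtain ⟨y, x, rfl⟩ := y
      exact ⟨φ (π x), by simp [hf]⟩
    · obtain ⟨y, x, rfl⟩ := y
      exact ⟨φ (π (star x)), by simp [hstar, hf]⟩
    · constructor
      · rintro ⟨y, hy⟩ ⟨y', hy'⟩ h
        simp only [Prod.mk.injEq, Subtype.mk.injEq, EmbeddingLike.apply_eq_iff_eq] at h
        exact Subtype.ext (hinj' _ _ h.1 h.2)
      · rintro ⟨⟨_, a, rfl⟩, ⟨_, b, rfl⟩⟩
        obtain ⟨x, hx, hx'⟩ := hsurj (φ.symm a) (φ.symm b)
        refine ⟨⟨f e * x, x, rfl⟩, ?_⟩
        simp only [Prod.mk.injEq]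
        constructor
        · simp [hf, hx]
        · simp [hstar, hf, hx']
  have h := card_rank_one_mat (E := E) (n := n)
  have h1 := pow_le_card_proj E n hn
  have hle : Nat.card {e : Matrix (Fin n) (Fin n) E // rkc e = Nat.card E ^ n ∧
        Nat.card (Set.range fun x : Matrix (Fin n) (Fin n) E => x * e) = Nat.card E ^ n} ≤
      Nat.card {e : A // star e = e ∧ rkc e = q ^ (2 * n)} := by
    refine Nat.card_le_card_of_injective (fun e => ⟨f e.1, hstar _, ?_⟩) ?_
    · rw [hrk, e.2.1, e.2.2, hE, ← pow_add, two_mul]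
    · intro a b hab
      have : f a.1 = f b.1 := congrArg Subtype.val hab
      have h3 : φ.symm a.1 = φ.symm b.1 := by rw [← hf a.1, ← hf b.1, this]
      exact Subtype.ext (φ.symm.injective h3)
  refine le_trans ?_ (h.trans hle)
  rw [hE] at h1 ⊢
  have hq : 1 ≤ q := by
    rw [← hE]
    exact Nat.card_pos
  have h4 : q ^ (n - 1) * (q - 1) ≤ q ^ n - 1 := by
    have h5 : q ^ n = q ^ (n - 1) * q := by
      rw [← pow_succ]
      congr 1
      omega
    rw [Nat.mul_sub, mul_one, h5]
    have : 1 ≤ q ^ (n - 1) := Nat.one_le_pow _ _ hq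
    omega
  calc q ^ (2 * n - 2) * (q - 1) = q ^ (n - 1) * (q ^ (n - 1) * (q - 1)) := by
        rw [← mul_assoc, ← pow_add]
        congr 2
        omega
    _ ≤ _ := Nat.mul_le_mul h1 h4

end Vale.Agent.P011.H973
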