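import Vale.Agent.P011.H973.PlCls
import Vale.Agent.P011.Arith.SUnit

/-!
# The units of a global function field outside a finite set of places, modulo squares
-/

namespace Vale.Agent.P011.H973.PF

open Vale.Agent.P011.H738 Vale.Agent.P011.H271 Vale.Agent.P011.Arith

set_option linter.unusedSectionVars false

noncomputable section

variable {F : Type} [Field F]

/-- the units outside a set of places -/
def SUF (S : Set (Place F)) : Subgroup Fˣ where
  carrier := {x | ∀ v ∉ S, v.abv (x : F) = 1}
  one_mem' v _ := by rw [Units.val_one, map_one]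
  mul_mem' hx hy v hv := by rw [Units.val_mul, map_mul, hx v hv, hy v hv, one_mul]
  inv_mem' {x} hx v hv := by
    have h : v.abv (x : F) = 1 := hx v hv
    rw [Units.val_inv_eq_inv_val, map_inv₀, h, inv_one]

theorem mem_SUF {S : Set (Place F)} {x : Fˣ} : x ∈ SUF S ↔ ∀ v ∉ S, v.abv (x : F) = 1 := Iff.rfl

theorem SUF_mono {S T : Set (Place F)} (h : S ⊆ T) : SUF S ≤ SUF T := fun _ hx v hv =>
  hx v fun h' => hv (h h')

variable [GFF F]

theorem finite_constants : (SUF (∅ : Set (Place F)) : Set Fˣ).Finite := by
  have h1 : {x : F | ∀ v : Place F, v.abv x ≤ (fun _ : Place F => (1 : ℝ)) v}.Finite :=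
    place_finite_le _ (by
      convert Set.finite_empty
      ext v
      simp)
  refine Set.Finite.of_finite_image (f := fun x : Fˣ => (x : F)) (h1.subset ?_)
    Units.val_injective.injOn
  rintro _ ⟨x, hx, rfl⟩ v
  exact (hx v (Set.notMem_empty v)).le

/-- units outside one place are constants -/
theorem SUF_singleton (v0 : Place F) : SUF {v0} = SUF (∅ : Set (Place F)) := by
  refine le_antisymm (fun x hx v _ => ?_) (SUF_mono (Set.empty_subset _))
  by_cases hv : v = v0
  · subst hv
    have h1 : lg (x : F) = Finsupp.single v (lg (x : F) v) := by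
      ext u
      by_cases hu : u = v
      · rw [hu, Finsupp.single_eq_same]
      · rw [Finsupp.single_eq_of_ne hu, lg_apply_eq_zero x.ne_zero]
        exact hx u hu
    have h2 := nD_lg (x := (x : F)) x.ne_zero
    rw [h1, nD_single] at h2
    rw [abv_eq x.ne_zero]
    exact h2
  · exact hx v hv

theorem sqIdx_constants (h2 : (2 : F) ≠ 0) : sqIdx (SUF (∅ : Set (Place F))) = 2 := by
  have : Finite (SUF (∅ : Set (Place F))) := (finite_constants (F := F)).to_subtype
  unfold sqIdx
  rw [IsCyclic.index_powMonoidHom_range]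
  refine Nat.gcd_eq_right ?_
  have hm : (-1 : Fˣ) ∈ SUF (∅ : Set (Place F)) := by
    intro v _
    rw [Units.val_neg, Units.val_one, v.abv.map_neg, map_one]
  have ho : orderOf (⟨-1, hm⟩ : SUF (∅ : Set (Place F))) = 2 := by
    rw [orderOf_eq_prime_iff]
    refine ⟨Subtype.ext (by simp), fun h => ?_⟩
    have h1 : (-1 : Fˣ) = 1 := congrArg Subtype.val h
    have h3 : (-1 : F) = 1 := by
      have := congrArg (fun x : Fˣ => (x : F)) h1
      simpa using this
    apply h2
    linear_combination -h3
  rw [← ho]
  exact orderOf_dvd_natCard _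

theorem sqIdx_SUF (h2 : (2 : F) ≠ 0) {S : Set (Place F)} (hS : S.Finite) (hne : S.Nonempty) :
    sqIdx (SUF S) = 2 ^ S.ncard := by
  obtain ⟨v0, hv0⟩ := hne
  have key : ∀ T : Set (Place F), T.Finite → v0 ∉ T →
      sqIdx (SUF (insert v0 T)) = 2 ^ (T.ncard + 1) := by
    intro T hT
    induction T, hT using Set.Finite.induction_on with
    | empty =>
      intro _
      rw [Set.ncard_empty, zero_add, pow_one]
      have e : insert v0 (∅ : Set (Place F)) = {v0} := by simp
      rw [e, SUF_singleton, sqIdx_constants h2]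
    | @insert v T hv hT ih =>
      intro hv0
      rw [Set.mem_insert_iff, not_or] at hv0
      obtain ⟨hvv, hv0T⟩ := hv0
      rw [Set.ncard_insert_of_notMem hv hT, Set.insert_comm]
      have hv' : v ∉ insert v0 T := by
        rw [Set.mem_insert_iff, not_or]
        exact ⟨fun h => hvv h.symm, hv⟩
      let f : SUF (insert v (insert v0 T)) →* Multiplicative ℤ :=
        { toFun := fun x => Multiplicative.ofAdd (ml v ((x : Fˣ) : F))
          map_one' := by
            rw [OneMemClass.coe_one, Units.val_one, (ml_one v one_ne_zero).2 (map_one _)]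
            rfl
          map_mul' := fun x y => by
            rw [Subgroup.coe_mul, Units.val_mul, ml_mul v (Units.ne_zero _) (Units.ne_zero _)]
            rfl }
      have hf1 : ∀ x, f x = 1 ↔ v.abv ((x : Fˣ) : F) = 1 := by
        intro x
        rw [← ml_one v (Units.ne_zero _)]
        exact Iff.rfl
      let B : Subgroup (SUF (insert v (insert v0 T))) :=
        (SUF (insert v0 T)).subgroupOf (SUF (insert v (insert v0 T)))
      have hf : f.ker = B := by
        ext x
        rw [MonoidHom.mem_ker, hf1, Subgroup.mem_subgroupOf]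
        constructor
        · intro h v' hv'
          by_cases hvv : v' = v
          · rw [hvv]; exact h
          · exact x.2 v' (by
              rw [Set.mem_insert_iff, not_or]
              exact ⟨hvv, hv'⟩)
        · intro h
          exact h v hv'
      have hne : ∃ x, f x ≠ 1 := by
        obtain ⟨u, hu1, hu2⟩ := exists_unit_pair (v0 := v0) (v := v) (fun h => hvv h.symm)
        refine ⟨⟨u, fun v' hv' => ?_⟩, ?_⟩
        · rw [Set.mem_insert_iff, Set.mem_insert_iff, not_or, not_or] at hv'
          exact hu2 v' hv'.1 hv'.2.1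
        · rw [Ne, hf1]
          exact hu1
      rw [sqIdx_extend f hf hne, sqIdx_congr (Subgroup.subgroupOfEquivOfLe
        (SUF_mono (Set.subset_insert _ _))), ih hv0T, ← pow_succ]
  have h := key (S \ {v0}) hS.sdiff (fun h => h.2 rfl)
  rw [Set.insert_sdiff_singleton, Set.insert_eq_of_mem hv0, Set.ncard_sdiff_singleton_add_one hv0 hS]
    at h
  exact h

/-- **the theorem of the units, modulo squares** -/
theorem sq_relIndex (h2 : (2 : F) ≠ 0) {S : Set (Place F)} (hS : S.Finite) (hne : S.Nonempty) :
    (Sq F).relIndex (SUF S) = 2 ^ S.ncard := by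
  rw [← sqIdx_SUF h2 hS hne]
  unfold sqIdx Subgroup.relIndex
  congr 1
  ext x
  rw [Subgroup.mem_subgroupOf]
  constructor
  · rintro ⟨y, hy⟩
    have hy' : y ^ 2 = (x : Fˣ) := hy
    have hyS : y ∈ SUF S := by
      intro v hv
      have h1 : v.abv ((x : Fˣ) : F) = 1 := x.2 v hv
      rw [← hy', Units.val_pow_eq_pow_val, map_pow] at h1
      exact (pow_eq_one_iff_of_nonneg (v.abv.nonneg _) two_ne_zero).mp h1
    exact ⟨⟨y, hyS⟩, Subtype.ext hy'⟩
  · rintro ⟨y, rfl⟩
    exact ⟨(y : Fˣ), rfl⟩

end

end Vale.Agent.P011.H973.PF
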