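import Vale.Agent.P011.H973.QuadPl
import Vale.Agent.P011.H973.SUnF
import Vale.Agent.P011.H63.FBase

/-!
# The norm index of the units of a quadratic extension of a global function field
-/

namespace Vale.Agent.P011.H973.PF

open Vale.Agent.P011.H738 Vale.Agent.P011.H271 Vale.Agent.P011.Arith
open Vale.Agent.P011.H63.FB (LSF)

set_option linter.unusedSectionVars false

noncomputable section

/-! ### principal places -/

section pr

variable {F : Type} [Field F]

/-- every place outside the set is principal up to the set -/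
def PrF (S : Set (Place F)) : Prop := ∀ v ∉ S, ∃ π : Fˣ, v.abv (π : F) = (qq v : ℝ)⁻¹ ∧
  ∀ v' ∉ S, v' ≠ v → v'.abv (π : F) = 1

theorem PrF.mono {S T : Set (Place F)} (h : PrF S) (hST : S ⊆ T) : PrF T := by
  intro v hv
  obtain ⟨π, h1, h2⟩ := h v (fun h' => hv (hST h'))
  exact ⟨π, h1, fun v' hv' hne => h2 v' (fun h' => hv' (hST h')) hne⟩

/-- Elements with prescribed orders outside `S`. -/
theorem exists_ordF {S : Set (Place F)} (hS : PrF S) (n : Place F → ℤ)
    (hn : {v | v ∉ S ∧ n v ≠ 0}.Finite) : ∃ f : Fˣ, ∀ v ∉ S, ml v (f : F) = n v := by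
  classical
  have hπ : ∀ v : Place F, ∃ π : Fˣ, v ∉ S → ml v (π : F) = -1 ∧
      ∀ v' ∉ S, v' ≠ v → ml v' (π : F) = 0 := by
    intro v
    by_cases hv : v ∈ S
    · exact ⟨1, fun h => absurd hv h⟩
    · obtain ⟨β, h1, h2⟩ := hS v hv
      refine ⟨β, fun _ => ⟨ml_unique v β.ne_zero (by rw [h1, zpow_neg_one]), fun v' hv' hne => ?_⟩⟩
      rw [ml_zero_iff v' β.ne_zero]
      exact h2 v' hv' hne
  choose π hπ using hπ
  have hprod : ∀ (T : Finset (Place F)) (v : Place F),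
      ml v ((∏ u ∈ T, π u ^ (-n u) : Fˣ) : F) = ∑ u ∈ T, -n u * ml v (π u : F) := by
    intro T v
    induction T using Finset.induction_on with
    | empty => rw [Finset.prod_empty, Finset.sum_empty, Units.val_one, ml_zero_iff v one_ne_zero,
        map_one]
    | insert u T hu ih =>
      rw [Finset.prod_insert hu, Finset.sum_insert hu, Units.val_mul,
        ml_mul' v (Units.ne_zero _) (Units.ne_zero _), ih, Units.val_zpow_eq_zpow_val,
        ml_zpow v (Units.ne_zero _)]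
  refine ⟨∏ v ∈ hn.toFinset, π v ^ (-n v), fun v hv => ?_⟩
  rw [hprod]
  by_cases hvT : v ∈ hn.toFinset
  · rw [Finset.sum_eq_single_of_mem v hvT]
    · rw [(hπ v hv).1]
      ring
    · intro v' hv' hne
      have hv'S : v' ∉ S := (hn.mem_toFinset.mp hv').1
      rw [(hπ v' hv'S).2 v hv hne.symm, mul_zero]
  · rw [Finset.sum_eq_zero]
    · by_contra h1
      exact hvT (hn.mem_toFinset.mpr ⟨hv, fun h => h1 h.symm⟩)
    · intro v' hv'
      have hv'S : v' ∉ S := (hn.mem_toFinset.mp hv').1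
      have hne : v ≠ v' := fun h => hvT (h ▸ hv')
      rw [(hπ v' hv'S).2 v hv hne, mul_zero]

theorem ml_finite [GFF F] {x : F} (hx : x ≠ 0) : {v : Place F | ml v x ≠ 0}.Finite := by
  refine (place_finite hx).subset fun v hv h => hv ?_
  rwa [ml_zero_iff v hx]

end pr

/-! ### the norm index -/

section index

variable {F : Type} [Field F] {E : Type} [Field E] [Algebra F E]

/-- The inclusion of the unit groups. -/
def ioF (F E : Type) [Field F] [Field E] [Algebra F E] : Fˣ →* Eˣ :=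
  Units.map (algebraMap F E : F →* E)

theorem ioF_val (x : Fˣ) : ((ioF F E x : Eˣ) : E) = algebraMap F E (x : F) := rfl

theorem ioF_injective : Function.Injective (ioF F E) :=
  Units.map_injective (algebraMap F E).injective

/-- The norm as an endomorphism. -/
def nmF (σ : E ≃ₐ[F] E) : Eˣ →* Eˣ :=
  MonoidHom.id _ * Units.map (σ.toAlgHom : E →* E)

theorem nmF_val (σ : E ≃ₐ[F] E) (z : Eˣ) : ((nmF σ z : Eˣ) : E) = z * σ z := rfl

variable [GFF F] [GFF E] {a : Fˣ} {θ : E} {σ : E ≃ₐ[F] E}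

/-- places below exist -/
def Bel (F E : Type) [Field F] [Field E] [Algebra F E] : Prop :=
  ∀ W : Place E, ∃ v : Place F, Av' W v

/-- Everything the set `S` has to satisfy. -/
structure BigF (a : Fˣ) (E : Type) [Field E] [Algebra F E] (S : Set (Place F)) : Prop where
  fin : S.Finite
  ne : S.Nonempty
  pr : PrF S
  prE : PrF (ovP E S)
  unit : a ∈ SUF S

theorem io_mem_SUF (hb : Bel F E) {S : Set (Place F)} {x : Fˣ} :
    ioF F E x ∈ SUF (ovP E S) ↔ x ∈ SUF S := by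
  rw [mem_SUF, mem_SUF]
  constructor
  · intro h v hv
    obtain ⟨W, hW⟩ := exists_aboveF (E := E) v
    exact (hW.eq_one _).1 (h W fun h' => hv ((mem_ovP_iff hW).1 h'))
  · intro h W hW
    obtain ⟨v, hv⟩ := hb W
    exact (hv.eq_one _).2 (h v fun h' => hW ((mem_ovP_iff hv).2 h'))

theorem conj_mem_ovP (σ : E ≃ₐ[F] E) (S : Set (Place F)) (W : Place E) :
    conjP σ W ∈ ovP E S ↔ W ∈ ovP E S := by
  constructor
  · rintro ⟨v, hv, h⟩
    exact ⟨v, hv, (conjP_av σ W v).1 h⟩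
  · rintro ⟨v, hv, h⟩
    exact ⟨v, hv, (conjP_av σ W v).2 h⟩

theorem nmF_mem (Q : QD a θ σ) (hb : Bel F E) {S : Set (Place F)} {m : Eˣ}
    (hm : m ∈ SUF (ovP E S)) : nmF σ m ∈ ((NF a ⊓ SUF S).map (ioF F E)) := by
  obtain ⟨p, q, hpq⟩ := coords Q.h2 Q.sq Q.ns (m : E)
  have h1 : ((nmF σ m : Eˣ) : E) = algebraMap F E (p ^ 2 - a * q ^ 2) := by
    rw [nmF_val, hpq, Q.norm_coords]
  have h0 : p ^ 2 - a * q ^ 2 ≠ 0 := by
    intro h
    rw [h, map_zero] at h1
    exact (nmF σ m).ne_zero h1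
  have h2 : ioF F E (Units.mk0 _ h0) = nmF σ m := by
    ext
    rw [h1, ioF_val, Units.val_mk0]
  refine ⟨Units.mk0 _ h0, ⟨⟨p, q, rfl⟩, ?_⟩, h2⟩
  refine (io_mem_SUF (E := E) hb).mp ?_
  rw [h2]
  intro W hW
  have h3 : (conjP σ W).abv (m : E) = 1 := hm _ fun h => hW ((conj_mem_ovP σ S W).1 h)
  rw [nmF_val, map_mul, hm W hW, one_mul]
  exact h3

/-- units outside `S` which are norms are norms of units outside `S`. -/
theorem map_nmF (Q : QD a θ σ) (hb : Bel F E) {S : Set (Place F)} (hS : PrF (ovP E S)) :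
    (SUF (ovP E S)).map (nmF σ) = (NF a ⊓ SUF S).map (ioF F E) := by
  apply le_antisymm
  · rintro _ ⟨m, hm, rfl⟩
    exact nmF_mem Q hb hm
  · rintro _ ⟨b, ⟨⟨p, q, hbe⟩, hbS⟩, rfl⟩
    set z : E := algebraMap F E p + algebraMap F E q * θ with hz
    have hN : z * σ z = algebraMap F E b := by rw [hz, Q.norm_coords, hbe]
    have hz0 : z ≠ 0 := by
      intro h
      rw [h, zero_mul] at hN
      exact b.ne_zero ((algebraMap F E).injective (hN.symm.trans (map_zero _).symm))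
    have hσz0 : σ z ≠ 0 := (map_ne_zero σ).2 hz0
    let y : Eˣ := Units.mk0 z hz0
    have hfin : {W : Place E | W ∉ ovP E S ∧ max (ml W z) 0 ≠ 0}.Finite := by
      refine (ml_finite hz0).subset ?_
      rintro W ⟨_, h⟩ h'
      apply h
      rw [h', max_self]
    obtain ⟨f, hf⟩ := exists_ordF hS (fun W => max (ml W z) 0) hfin
    have hf0 : (f : E) ≠ 0 := f.ne_zero
    have hσf0 : σ (f : E) ≠ 0 := (map_ne_zero σ).mpr hf0
    refine ⟨y * Units.mk0 _ hσf0 / f, ?_, ?_⟩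
    · intro W hW
      have hW' : conjP σ W ∉ ovP E S := fun h => hW ((conj_mem_ovP σ S W).1 h)
      have h5 : ml W (z * σ z) = 0 := by
        rw [ml_zero_iff W (mul_ne_zero hz0 hσz0), hN]
        exact (io_mem_SUF (E := E) hb).mpr hbS W hW
      rw [ml_mul' W hz0 hσz0] at h5
      have e1 : ml W (σ (f : E)) = max (ml W (σ z)) 0 := by
        rw [← conjP_ml σ W hf0, hf _ hW', conjP_ml σ W hz0]
      have h6 : ((y * Units.mk0 _ hσf0 / f : Eˣ) : E) = z * σ (f : E) * (f : E)⁻¹ := by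
        rw [Units.val_div_eq_div_val, Units.val_mul, Units.val_mk0, Units.val_mk0, div_eq_mul_inv]
      have h7 : z * σ (f : E) ≠ 0 := mul_ne_zero hz0 hσf0
      rw [h6, ← ml_zero_iff W (mul_ne_zero h7 (inv_ne_zero hf0)), ml_mul' W h7 (inv_ne_zero hf0),
        ml_mul' W hz0 hσf0, ml_inv' W hf0, hf W hW, e1]
      omega
    · ext
      rw [nmF_val, ioF_val, ← hN]
      simp only [Units.val_div_eq_div_val, Units.val_mul, Units.val_mk0, map_div₀, map_mul,
        Q.conj_conj, y]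
      field_simp

/-- Hilbert 90 for the units outside `S`. -/
theorem hilbert90F (Q : QD a θ σ) (h2 : (2 : F) ≠ 0) (hb : Bel F E) {S : Set (Place F)}
    (hB : BigF a E S) {n : Eˣ} (hn : n ∈ SUF (ovP E S)) (h1 : nmF σ n = 1) :
    ∃ z ∈ SUF (ovP E S), (n : E) * σ z = z := by
  classical
  have hnn : (n : E) * σ n = 1 := by
    rw [← nmF_val, h1, Units.val_one]
  obtain ⟨z₀, hz₀, hz₀'⟩ : ∃ z₀ : E, z₀ ≠ 0 ∧ (n : E) * σ z₀ = z₀ := by
    by_cases h : (n : E) = -1
    · refine ⟨θ, Q.theta_ne, ?_⟩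
      rw [h, Q.conj]
      ring
    · refine ⟨1 + n, fun h' => h (by linear_combination h'), ?_⟩
      rw [map_add, map_one, mul_add, hnn, mul_one, add_comm]
  have hσz₀ : σ z₀ ≠ 0 := (map_ne_zero σ).2 hz₀
  let y : Eˣ := Units.mk0 z₀ hz₀
  choose ab hab using fun v : Place F => exists_aboveF (E := E) v
  have habS : ∀ v ∉ S, ab v ∉ ovP E S := fun v hv h => hv ((mem_ovP_iff (hab v)).1 h)
  have hval : ∀ W ∉ ovP E S, ml W (σ z₀) = ml W z₀ := by
    intro W hW
    have h : ml W (n * σ z₀) = ml W z₀ := by rw [hz₀']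
    rwa [ml_mul' W n.ne_zero hσz₀, (ml_zero_iff W n.ne_zero).2 (hn W hW), zero_add] at h
  have hinj : Function.Injective ab := by
    intro v v' h
    have h3 := hab v'
    rw [← h] at h3
    exact (hab v).unique h3
  have hfin : {v | v ∉ S ∧ ml (ab v) z₀ ≠ 0}.Finite := by
    refine ((ml_finite hz₀).preimage hinj.injOn).subset ?_
    rintro v ⟨_, h⟩
    exact h
  obtain ⟨f, hf⟩ := exists_ordF hB.pr (fun v => ml (ab v) z₀) hfin
  have hf0 : (f : F) ≠ 0 := f.ne_zero
  have hfE : algebraMap F E f ≠ 0 := (map_ne_zero _).mpr hf0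
  refine ⟨y / ioF F E f, ?_, ?_⟩
  · intro W hW
    obtain ⟨v, hv⟩ := hb W
    have hvS : v ∉ S := fun h => hW ⟨v, h, hv⟩
    have hav := hB.unit v hvS
    have h3 : ml W z₀ = ml (ab v) z₀ := by
      rcases conj_trans Q (hab v) hv with h | h
      · rw [h]
      · rw [h, conjP_ml σ _ hz₀, hval (ab v) (habS v hvS)]
    have h6 : ((y / ioF F E f : Eˣ) : E) = z₀ * (algebraMap F E f)⁻¹ := by
      rw [Units.val_div_eq_div_val, ioF_val, div_eq_mul_inv]
      rfl
    rw [h6, ← ml_zero_iff W (mul_ne_zero hz₀ (inv_ne_zero hfE)), ml_mul' W hz₀ (inv_ne_zero hfE),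
      ml_inv' W hfE, ml_unram Q h2 hv hav hf0, hf v hvS, h3]
    ring
  · rw [Units.val_div_eq_div_val, ioF_val, map_div₀, AlgEquiv.commutes]
    rw [← mul_div_assoc, show ((y : Eˣ) : E) = z₀ from rfl, hz₀']

/-- The index formula. -/
theorem indexF (Q : QD a θ σ) (h2 : (2 : F) ≠ 0) (hb : Bel F E) {S : Set (Place F)}
    (hB : BigF a E S) :
    (NF a).relIndex (SUF S) * 2 = 2 ^ {v | v ∈ S ∧ ¬ SqN v (a : F)}.ncard := by
  classical
  have h2E : (2 : E) ≠ 0 := by
    rw [← map_ofNat (algebraMap F E) 2]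
    exact (map_ne_zero _).2 h2
  set U : Subgroup Fˣ := SUF S with hU
  set M : Subgroup Eˣ := SUF (ovP E S) with hM
  have hUM : U.map (ioF F E) ≤ M := by
    rintro _ ⟨x, hx, rfl⟩
    exact (io_mem_SUF hb).mpr hx
  have hneE : (ovP E S).Nonempty := by
    obtain ⟨v, hv⟩ := hB.ne
    obtain ⟨W, hW⟩ := exists_aboveF (E := E) v
    exact ⟨W, v, hv, hW⟩
  have hUsq : (Sq F).relIndex U = 2 ^ S.ncard := sq_relIndex h2 hB.fin hB.ne
  have hMsq : (Sq E).relIndex M = 2 ^ (ovP E S).ncard :=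
    sq_relIndex h2E (ovP_finite Q hB.fin) hneE
  have hcard := card_ovP (E := E) Q h2 hB.fin
  -- squares of `M`
  let B : Subgroup Eˣ := (Sq E ⊓ M) ⊔ U.map (ioF F E)
  have hBM : B ≤ M := sup_le inf_le_right hUM
  have e1 : (Sq E ⊓ M).relIndex B * B.relIndex M = 2 ^ (ovP E S).ncard := by
    rw [Subgroup.relIndex_mul_relIndex _ _ _ le_sup_left hBM, Subgroup.inf_relIndex_right, hMsq]
  have e2 : (Sq E ⊓ M).relIndex B = ((Sq E).comap (ioF F E)).relIndex U := by
    rw [Subgroup.relIndex_sup_left, Subgroup.relIndex_comap, ← Subgroup.inf_relIndex_right,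
      ← Subgroup.inf_relIndex_right (Sq E), inf_assoc, inf_eq_right.mpr hUM]
  have e3 : (Sq F ⊓ U).relIndex ((Sq E).comap (ioF F E) ⊓ U) *
      ((Sq E).comap (ioF F E)).relIndex U = 2 ^ S.ncard := by
    rw [← Subgroup.inf_relIndex_right ((Sq E).comap (ioF F E)),
      Subgroup.relIndex_mul_relIndex _ _ _ ?_ inf_le_right, Subgroup.inf_relIndex_right, hUsq]
    refine inf_le_inf_right _ ?_
    rintro _ ⟨y, rfl⟩
    exact ⟨ioF F E y, by simp⟩
  have e4 : (Sq F ⊓ U).relIndex ((Sq E).comap (ioF F E) ⊓ U) = 2 := by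
    have haS : a ∈ (Sq E).comap (ioF F E) := by
      rw [Subgroup.mem_comap, mem_Sq_iff, ioF_val, ← Q.sq]
      exact ⟨θ, by ring⟩
    rw [Subgroup.relIndex, Subgroup.index_eq_two_iff]
    refine ⟨⟨a, haS, hB.unit⟩, ?_⟩
    rintro ⟨b, hb1, hb2⟩
    simp only [Subgroup.mem_subgroupOf, Subgroup.mem_inf]
    have h2' : a ∉ Sq F := fun h => Q.ns (mem_Sq_iff.mp h)
    have h3 : b * a ∈ U := Subgroup.mul_mem _ hb2 hB.unit
    by_cases h4 : b ∈ Sq F
    · right
      refine ⟨⟨h4, hb2⟩, ?_⟩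
      rintro ⟨h5, _⟩
      exact h2' ((Subgroup.mul_mem_cancel_left _ h4).mp h5)
    · left
      refine ⟨⟨?_, h3⟩, fun h => h4 h.1⟩
      obtain ⟨z, hz⟩ := mem_Sq_iff.mp (show ioF F E b ∈ Sq E from hb1)
      rw [ioF_val] at hz
      change b * a ∈ Sq F
      rw [mul_comm]
      obtain ⟨p, q, rfl⟩ := coords Q.h2 Q.sq Q.ns z
      have h5 : algebraMap F E (p ^ 2 + a * q ^ 2 - b) + algebraMap F E (2 * p * q) * θ = 0 := by
        simp only [map_sub, map_add, map_mul, map_pow, hz, ← Q.sq, map_ofNat]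
        ring
      obtain ⟨h6, h7⟩ := coords_zero Q.sq Q.ns h5
      have h8 : p * q = 0 := by
        have : 2 * (p * q) = 0 := by rw [← mul_assoc]; exact h7
        exact (mul_eq_zero.mp this).resolve_left h2
      rcases mul_eq_zero.mp h8 with h | h
      · subst h
        rw [mem_Sq_iff]
        refine ⟨a * q, ?_⟩
        rw [Units.val_mul]
        linear_combination (-(a : F)) * h6
      · subst h
        exact absurd (mem_Sq_iff.mpr ⟨p, by linear_combination -h6⟩) h4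
  -- norms
  have e5 : (Sq F ⊓ U).relIndex (NF a ⊓ U) * (NF a).relIndex U = 2 ^ S.ncard := by
    rw [← Subgroup.inf_relIndex_right (NF a),
      Subgroup.relIndex_mul_relIndex _ _ _ ?_ inf_le_right, Subgroup.inf_relIndex_right, hUsq]
    exact inf_le_inf_right _ (Sq_le_NF a)
  have e6 : (Sq F ⊓ U).relIndex (NF a ⊓ U) = B.relIndex M := by
    rw [← Subgroup.relIndex_map_map_of_injective _ _ (ioF_injective (F := F) (E := E)),
      ← map_nmF Q hb hB.prE, ← Subgroup.relIndex_comap, ← Subgroup.inf_relIndex_right]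
    congr 1
    have hunit : ∀ u : Fˣ, u ^ 2 ∈ U → u ∈ U := by
      intro u hu v hv
      have h1 := hu v hv
      rw [Units.val_pow_eq_pow_val, map_pow] at h1
      exact (pow_eq_one_iff_of_nonneg (v.abv.nonneg _) two_ne_zero).mp h1
    have hnm : ∀ u : Fˣ, nmF σ (ioF F E u) = ioF F E (u ^ 2) := by
      intro u
      ext
      rw [nmF_val, ioF_val, ioF_val, AlgEquiv.commutes, Units.val_pow_eq_pow_val, map_pow, pow_two]
    apply le_antisymm
    · rintro m ⟨hm, hmM⟩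
      obtain ⟨_, ⟨⟨u, rfl⟩, huU⟩, hu⟩ := hm
      have huU : u ∈ U := hunit u huU
      have h1 : nmF σ (m / ioF F E u) = 1 := by
        rw [map_div, ← hu, hnm]
        exact div_self' _
      have h3 : m / ioF F E u ∈ M := Subgroup.div_mem _ hmM ((io_mem_SUF hb).mpr huU)
      obtain ⟨z, hz, hz'⟩ := hilbert90F Q h2 hb hB h3 h1
      obtain ⟨c, ⟨_, hcU⟩, hc⟩ := nmF_mem Q hb hz
      have h3 : m / ioF F E u = z ^ 2 / ioF F E c := by
        rw [hc]
        ext
        have hσz : σ (z : E) ≠ 0 := (map_ne_zero σ).mpr z.ne_zero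
        have hz0 : (z : E) ≠ 0 := z.ne_zero
        rw [Units.val_div_eq_div_val (z ^ 2), nmF_val, Units.val_pow_eq_pow_val]
        field_simp
        exact hz'
      have h4 : m = z ^ 2 * ioF F E (u / c) := by
        rw [map_div, mul_div_assoc', mul_comm (z ^ 2), mul_div_assoc, ← h3, mul_div_cancel]
      rw [h4]
      refine Subgroup.mul_mem_sup ⟨⟨z, rfl⟩, Subgroup.pow_mem _ hz 2⟩ ?_
      exact ⟨u / c, Subgroup.div_mem _ huU hcU, rfl⟩
    · refine le_inf ?_ hBM
      refine sup_le ?_ ?_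
      · rintro _ ⟨⟨z, rfl⟩, hz⟩
        have hzM : z ∈ M := by
          intro W hW
          have h1 := hz W hW
          change W.abv ((z ^ 2 : Eˣ) : E) = 1 at h1
          rw [Units.val_pow_eq_pow_val, map_pow] at h1
          exact (pow_eq_one_iff_of_nonneg (W.abv.nonneg _) two_ne_zero).mp h1
        obtain ⟨c, ⟨_, hcU⟩, hc⟩ := nmF_mem Q hb hzM
        refine Subgroup.mem_comap.mpr ?_
        rw [powMonoidHom_apply, map_pow, ← hc, ← map_pow]
        exact ⟨c ^ 2, ⟨⟨c, rfl⟩, Subgroup.pow_mem _ hcU 2⟩, rfl⟩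
      · rintro _ ⟨u, hu, rfl⟩
        refine Subgroup.mem_comap.mpr ?_
        rw [hnm]
        exact ⟨u ^ 2, ⟨⟨u, rfl⟩, Subgroup.pow_mem _ hu 2⟩, rfl⟩
  -- combine
  rw [e4] at e3
  rw [e2] at e1
  rw [e6] at e5
  set k := ((Sq E).comap (ioF F E)).relIndex U
  set l := B.relIndex M
  set n := (NF a).relIndex U
  set t := {v | v ∈ S ∧ ¬ SqN v (a : F)}.ncard
  have h1 : 2 ^ (ovP E S).ncard * (n * 2) = 2 ^ (ovP E S).ncard * 2 ^ t := by
    rw [← pow_add, hcard, two_mul, pow_add 2 S.ncard, ← e1]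
    nth_rewrite 1 [← e3]
    rw [← e5]
    ring
  exact Nat.eq_of_mul_eq_mul_left (by positivity) h1

end index

/-! ### good sets -/

section good

variable {F : Type} [Field F]

/-- the number of places of `S` which do not split -/
def ncF (a : Fˣ) (S : Set (Place F)) : ℕ := {v | v ∈ S ∧ a ∉ LSF v}.ncard

/-- The finite set `S` is large enough for the arithmetic of `F(√a)`. -/
structure GoodF (a : Fˣ) (S : Set (Place F)) : Prop where
  fin : S.Finite
  pr : ∀ v ∉ S, ∃ π : Fˣ, v.abv (π : F) = (qq v : ℝ)⁻¹ ∧ ∀ v' ∉ S, v' ≠ v → v'.abv (π : F) = 1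
  unit : a ∈ SUF S
  idx : (NF a).relIndex (SUF S) * 2 = 2 ^ ncF a S
  split : ∀ v ∉ S, a ∈ LSF v → ∃ β ∈ NF a, v.abv (β : F) = (qq v : ℝ)⁻¹ ∧
    ∀ v' ∉ S, v' ≠ v → v'.abv (β : F) = 1

variable [GFF F]

theorem sqN_iff (h2 : (2 : F) ≠ 0) (v : Place F) (a : Fˣ) : SqN v (a : F) ↔ a ∈ LSF v := by
  rw [H63.FB.mem_LSF_iff h2]
  constructor
  · rintro ⟨y, hy, h⟩
    exact ⟨Units.mk0 y hy, h⟩
  · rintro ⟨y, h⟩
    exact ⟨y, y.ne_zero, h⟩

variable {E : Type} [Field E] [GFF E] [Algebra F E] {a : Fˣ} {θ : E} {σ : E ≃ₐ[F] E}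

theorem goodF_of (Q : QD a θ σ) (h2 : (2 : F) ≠ 0) (hb : Bel F E) {S : Set (Place F)}
    (hB : BigF a E S) : GoodF a S where
  fin := hB.fin
  pr := hB.pr
  unit := hB.unit
  idx := by
    rw [indexF Q h2 hb hB, ncF]
    congr 2
    ext v
    simp only [Set.mem_ofPred_eq, sqN_iff h2 v a]
  split := by
    intro v hv hav
    obtain ⟨W, hW⟩ := exists_aboveF (E := E) v
    have hWS : W ∉ ovP E S := fun h => hv ((mem_ovP_iff hW).1 h)
    obtain ⟨ϖ, hϖ1, hϖ2⟩ := hB.prE W hWS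
    obtain ⟨p, q, hpq⟩ := coords Q.h2 Q.sq Q.ns (ϖ : E)
    have hN : (ϖ : E) * σ ϖ = algebraMap F E (p ^ 2 - a * q ^ 2) := by
      rw [hpq, Q.norm_coords]
    have hϖ0 : (ϖ : E) ≠ 0 := ϖ.ne_zero
    have hσϖ0 : σ (ϖ : E) ≠ 0 := (map_ne_zero σ).mpr hϖ0
    have h0 : p ^ 2 - a * q ^ 2 ≠ 0 := by
      intro h
      rw [h, map_zero] at hN
      exact (mul_ne_zero hϖ0 hσϖ0) hN
    have ha1 := hB.unit v hv
    have hne : conjP σ W ≠ W := (split_iffP Q h2 hW).1 ((sqN_iff h2 v a).2 hav)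
    refine ⟨Units.mk0 _ h0, ⟨p, q, rfl⟩, ?_, ?_⟩
    · rw [Units.val_mk0, ml_spec v h0, ← ml_unram Q h2 hW ha1 h0, ← hN, ml_mul' W hϖ0 hσϖ0,
        ml_unique W hϖ0 (m := -1) (by rw [hϖ1, zpow_neg_one]),
        ml_unique W hσϖ0 (m := 0) (by
          rw [zpow_zero]
          exact hϖ2 (conjP σ W) (fun h => hWS ((conj_mem_ovP σ S W).1 h)) hne),
        add_zero, zpow_neg_one]
    · intro v' hv' hne'
      obtain ⟨W₁, hW₁⟩ := exists_aboveF (E := E) v'
      have hW₁S : W₁ ∉ ovP E S := fun h => hv' ((mem_ovP_iff hW₁).1 h)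
      rw [Units.val_mk0, ← hW₁.eq_one, ← hN, map_mul]
      have hc : Av' (conjP σ W₁) v' := (conjP_av σ W₁ v').2 hW₁
      have h5 : W₁.abv (ϖ : E) = 1 := hϖ2 W₁ hW₁S (by
        rintro rfl
        exact hne' (hW₁.unique hW))
      have h6 : (conjP σ W₁).abv (ϖ : E) = 1 :=
        hϖ2 _ (fun h => hW₁S ((conj_mem_ovP σ S W₁).1 h)) (by
          intro h7
          rw [h7] at hc
          exact hne' (hc.unique hW))
      rw [h5, one_mul]
      exact h6

/-- the field generated by a square root -/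
theorem exists_quadF (h2 : (2 : F) ≠ 0) (a : Fˣ) (ha : ¬ IsSquare (a : F)) :
    ∃ (E : Type) (_ : Field E) (_ : GFF E) (_ : Algebra F E) (θ : E) (σ : E ≃ₐ[F] E),
      QD a θ σ ∧ Bel F E := by
  have hirr : Irreducible (Polynomial.X ^ 2 - Polynomial.C (a : F)) := by
    apply X_pow_sub_C_irreducible_of_prime Nat.prime_two
    intro b hb
    exact ha ⟨b, by rw [← hb, sq]⟩
  have := Fact.mk hirr
  let E := AdjoinRoot (Polynomial.X ^ 2 - Polynomial.C (a : F))
  have hfr : Module.finrank F E = 2 := by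
    rw [(AdjoinRoot.powerBasis hirr.ne_zero).finrank, AdjoinRoot.powerBasis_dim]
    exact Polynomial.natDegree_X_pow_sub_C
  have hfd : FiniteDimensional F E := Module.finite_of_finrank_pos (by rw [hfr]; norm_num)
  have hgff : GFF E := Hey.H63.gff_of_finite (k := F)
  let θ : E := AdjoinRoot.root _
  have hθ : θ ^ 2 = algebraMap F E a := by
    have h := AdjoinRoot.eval₂_root (Polynomial.X ^ 2 - Polynomial.C (a : F))
    rw [Polynomial.eval₂_sub, Polynomial.eval₂_pow, Polynomial.eval₂_X, Polynomial.eval₂_C,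
      sub_eq_zero] at h
    exact h
  have hquad : Algebra.IsQuadraticExtension F E := ⟨hfr⟩
  have hsep : Algebra.IsSeparable F E := by
    have h1 : IsSeparable F θ := by
      have h3 : (Polynomial.X ^ 2 - Polynomial.C (a : F)).Separable :=
        Polynomial.separable_X_pow_sub_C _ (by exact_mod_cast h2) a.ne_zero
      refine h3.of_dvd (minpoly.dvd F _ ?_)
      rw [map_sub, map_pow, Polynomial.aeval_X, Polynomial.aeval_C, hθ, sub_self]
    refine ⟨fun z => ?_⟩
    obtain ⟨p, q, rfl⟩ := coords hfr hθ ha z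
    exact Field.isSeparable_add (isSeparable_algebraMap _)
      (Field.isSeparable_mul (isSeparable_algebraMap _) h1)
  have hgal : IsGalois F E := ⟨⟩
  have h1 : Nat.card (E ≃ₐ[F] E) = 2 := (IsGalois.card_aut_eq_finrank F E).trans hfr
  have : Finite (E ≃ₐ[F] E) := Nat.finite_of_card_ne_zero (by rw [h1]; norm_num)
  have : Nontrivial (E ≃ₐ[F] E) := Finite.one_lt_card_iff_nontrivial.mp (by rw [h1]; norm_num)
  obtain ⟨σ, hσ⟩ := exists_ne (1 : E ≃ₐ[F] E)
  refine ⟨E, inferInstance, hgff, inferInstance, θ, σ, ⟨hfr, hθ, ?_, ha⟩, fun W => ?_⟩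
  · have h3 : (σ θ) ^ 2 = θ ^ 2 := by rw [← map_pow, hθ, AlgEquiv.commutes]
    rcases sq_eq_sq_iff_eq_or_eq_neg.mp h3 with h4 | h4
    · exfalso
      apply hσ
      ext z
      obtain ⟨p, q, rfl⟩ := coords hfr hθ ha z
      rw [map_add, map_mul, AlgEquiv.commutes, AlgEquiv.commutes, h4]
      rfl
    · exact h4
  · obtain ⟨v, c, hc, h⟩ := Hey.H63.exists_below (k := F) W
    exact ⟨v, fun x => (show H271.S3.Ab W v from ⟨c, hc, h⟩).le_one_iff⟩

/-- **good sets exist** -/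
theorem exists_goodF (h2 : (2 : F) ≠ 0) (a : Fˣ) (ha : ¬ IsSquare (a : F)) :
    ∃ S₀ : Set (Place F), S₀.Finite ∧ ∀ S : Set (Place F), S₀ ⊆ S → S.Finite → GoodF a S := by
  obtain ⟨E, _, _, _, θ, σ, Q, hb⟩ := exists_quadF h2 a ha
  obtain ⟨S₁, hS₁, hPr₁⟩ := exists_PrF (F := F)
  obtain ⟨S₂, hS₂, hPr₂⟩ := exists_PrF (F := E)
  obtain ⟨v0⟩ := nonempty_place (F := F)
  choose be hbe using fun W : Place E => hb W
  have hb : Bel F E := fun W => ⟨be W, hbe W⟩
  have hP1 : PrF S₁ := hPr₁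
  have hP2 : PrF S₂ := hPr₂
  refine ⟨S₁ ∪ be '' S₂ ∪ {v | v.abv (a : F) ≠ 1} ∪ {v0},
    (((hS₁.union (hS₂.image _)).union (place_finite a.ne_zero)).union (Set.finite_singleton v0)),
    ?_⟩
  intro S hS hfin
  refine goodF_of Q h2 hb ⟨hfin, ⟨v0, hS (Or.inr rfl)⟩, hP1.mono ?_, hP2.mono ?_, ?_⟩
  · exact (Set.subset_union_left.trans (Set.subset_union_left.trans Set.subset_union_left)).trans hS
  · intro W hW
    exact ⟨be W, hS (Or.inl (Or.inl (Or.inr ⟨W, hW, rfl⟩))), hbe W⟩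
  · intro v hv
    by_contra h
    exact hv (hS (Or.inl (Or.inr h)))

end good

end

end Vale.Agent.P011.H973.PF
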