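import Vale.Agent.P011.H973.RankOne
import Vale.Agent.P011.H973.Bimul

/-!
# The number of rank one symmetric elements of a residue algebra (every characteristic)
-/

set_option autoImplicit false

namespace Vale.Agent.P011.H973

section

variable {F A ι : Type*} [Field F] [Ring A] [StarRing A]

omit [StarRing A] in
theorem center_comm (z : Subring.center A) (x : A) : (z : A) * x = x * z :=
  ((Subring.mem_center_iff.1 z.2) x).symm

/-- linear independence of `1, θ` -/
theorem indep_theta [Nontrivial A] (γ : F →+* Subring.center A)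
    (hγs : ∀ c, star (γ c : A) = γ c)
    (θ : Subring.center A) {T N : F} (hθs : star (θ : A) = γ T - θ)
    (hθθ : θ * θ = γ T * θ - γ N) (hdisc : T ^ 2 - 4 * N ≠ 0) {a b : F}
    (h : γ a + γ b * θ = 0) : a = 0 ∧ b = 0 := by
  have h' : γ a + γ b * (γ T - θ) = 0 := by
    have h1 := congrArg (fun z : Subring.center A => star (z : A)) h
    simp only [Subring.coe_add, Subring.coe_mul, Subring.coe_zero, star_add, star_mul, star_zero,
      hγs, hθs] at h1
    apply Subtype.ext
    rw [Subring.coe_add, Subring.coe_mul, Subring.coe_zero, center_comm, ← h1]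
    rfl
  have h1 : 2 * a + b * T = 0 := by
    apply γ.injective
    rw [map_add, map_mul, map_mul, map_zero, map_ofNat]
    linear_combination h + h'
  have h2 : a * a + a * b * T + b * b * N = 0 := by
    apply γ.injective
    simp only [map_add, map_mul, map_zero]
    linear_combination (γ a + γ b * θ) * h' + γ b * γ b * hθθ
  have hb : b = 0 := by
    have h3 : b * b * (T ^ 2 - 4 * N) = 0 := by
      linear_combination (2 * a + b * T) * h1 - 4 * h2
    have := (mul_eq_zero.1 h3).resolve_right hdisc
    exact mul_self_eq_zero.1 this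
  refine ⟨?_, hb⟩
  rw [hb, map_zero, zero_mul, add_zero] at h
  exact γ.injective (by rw [h, map_zero])

/-- the elements `a + b θ` -/
def thetaRing (γ : F →+* Subring.center A) (θ : Subring.center A) {T N : F}
    (hθθ : θ * θ = γ T * θ - γ N) : Subring A where
  carrier := Set.range fun p : F × F => ((γ p.1 + γ p.2 * θ : Subring.center A) : A)
  mul_mem' := by
    rintro _ _ ⟨⟨a, b⟩, rfl⟩ ⟨⟨p, r⟩, rfl⟩
    refine ⟨(a * p - b * r * N, a * r + b * p + b * r * T), ?_⟩
    simp only
    rw [← Subring.coe_mul]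
    congr 1
    simp only [map_add, map_mul, map_sub]
    linear_combination -γ b * γ r * hθθ
  one_mem' := ⟨(1, 0), by simp⟩
  add_mem' := by
    rintro _ _ ⟨⟨a, b⟩, rfl⟩ ⟨⟨p, r⟩, rfl⟩
    refine ⟨(a + p, b + r), ?_⟩
    simp only
    rw [← Subring.coe_add]
    congr 1
    simp only [map_add]
    ring
  zero_mem' := ⟨(0, 0), by simp⟩
  neg_mem' := by
    rintro _ ⟨⟨a, b⟩, rfl⟩
    refine ⟨(-a, -b), ?_⟩
    simp only
    rw [← Subring.coe_neg]
    congr 1
    simp only [map_neg]
    ring

theorem card_sym_of_split [Finite F] [Fintype ι] [DecidableEq ι] (γ : F →+* Subring.center A)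
    (hγs : ∀ c, star (γ c : A) = γ c)
    (θ : Subring.center A) {T c : F} (hθs : star (θ : A) = γ T - θ)
    (hθθ : θ * θ = γ T * θ - γ (c * (T - c))) (hc : c - (T - c) ≠ 0) (b : ι → A)
    (hg : Function.Bijective fun c : ι → F × F =>
      ∑ l, ((γ (c l).1 + γ (c l).2 * θ : Subring.center A) : A) * b l)
    (hT : ∀ i j, ∃ (m : ℕ) (x y : Fin m → A), ∀ l, ∑ t, x t * b l * y t = if l = j then b i else 0)
    {n : ℕ} (hn : n ≠ 0) (hι : Fintype.card ι = n ^ 2) :
    Nat.card F ^ (2 * n - 2) * (Nat.card F - 1) ≤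
      Nat.card {e : A // star e = e ∧ rkc e = Nat.card F ^ (2 * n)} := by
  classical
  have hq : 1 < Nat.card F := Finite.one_lt_card
  have hcardA : Nat.card A = Nat.card F ^ (2 * n ^ 2) := by
    rw [← Nat.card_congr (Equiv.ofBijective _ hg), Nat.card_fun, Nat.card_prod,
      Nat.card_eq_fintype_card (α := ι), hι, ← sq, ← pow_mul]
  have hn2 : 0 < n ^ 2 := by positivity
  have hAfin : Finite A := Finite.of_equiv _ (Equiv.ofBijective _ hg)
  have hu : γ (c - (T - c))⁻¹ * γ (c - (T - c)) = 1 := by
    rw [← map_mul, inv_mul_cancel₀ hc, map_one]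
  obtain ⟨u, hu'⟩ : ∃ u, u = γ (c - (T - c))⁻¹ := ⟨_, rfl⟩
  rw [← hu'] at hu
  have hus : star (u : A) = u := by rw [hu', hγs]
  obtain ⟨ε, hε⟩ : ∃ ε : Subring.center A, ε = u * (θ - γ (T - c)) := ⟨_, rfl⟩
  have hεε : ε * ε = ε := by
    rw [hε]
    simp only [map_sub, map_mul] at hu hθθ ⊢
    linear_combination u ^ 2 * hθθ + (u * (θ - γ T + γ c)) * hu
  have hεs : star (ε : A) = 1 - ε := by
    have h1 : star (ε : A) = ((u * (γ T - θ - γ (T - c)) : Subring.center A) : A) := by
      rw [hε, Subring.coe_mul, star_mul, hus, AddSubgroupClass.coe_sub, star_sub, hθs, hγs, Subring.coe_mul,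
        center_comm u]
      rfl
    rw [h1, ← Subring.coe_one, ← AddSubgroupClass.coe_sub]
    congr 1
    rw [hε]
    simp only [map_sub] at hu ⊢
    linear_combination hu
  have hεc := center_comm ε
  have hεεA : (ε : A) * ε = ε := congrArg Subtype.val hεε
  obtain ⟨I, hI⟩ : ∃ I : Ideal A, I = Ideal.span {1 - (ε : A)} := ⟨_, rfl⟩
  have hεc' : ∀ x, (1 - (ε : A)) * x = x * (1 - ε) := by
    intro x
    rw [sub_mul, mul_sub, one_mul, mul_one, hεc]
  have hmemI : ∀ x, x ∈ I ↔ (ε : A) * x = 0 := by
    intro x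
    rw [hI, Ideal.mem_span_singleton']
    constructor
    · rintro ⟨y, rfl⟩
      rw [← hεc', ← mul_assoc, mul_sub, mul_one, hεεA, sub_self, zero_mul]
    · intro h
      refine ⟨x, ?_⟩
      rw [← hεc', sub_mul, one_mul, h, sub_zero]
  have hItwo : I.IsTwoSided := ⟨fun {a} b ha => by
    rw [hmemI] at ha ⊢
    rw [← mul_assoc, ha, zero_mul]⟩
  let B := A ⧸ I
  let π : A →+* B := Ideal.Quotient.mk I
  have hπ0 : ∀ x, π x = 0 ↔ (ε : A) * x = 0 := fun x => by
    rw [← hmemI]
    exact Ideal.Quotient.eq_zero_iff_mem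
  have hinj : ∀ x, π x = 0 → π (star x) = 0 → x = 0 := by
    intro x h1 h2
    rw [hπ0] at h1 h2
    have h3 : (1 - (ε : A)) * x = 0 := by
      have := congrArg star h2
      rw [star_mul, star_star, hεs, star_zero, ← hεc'] at this
      exact this
    calc x = (ε : A) * x + (1 - ε) * x := by rw [← add_mul, add_sub_cancel, one_mul]
      _ = 0 := by rw [h1, h3, add_zero]
  have hπε : π ε = 1 := by
    rw [← sub_eq_zero, ← map_one π, ← map_sub, hπ0, mul_sub, hεεA, mul_one, sub_self]
  have hπε' : π (1 - ε) = 0 := by rw [map_sub, hπε, map_one, sub_self]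
  have hsurj : ∀ x y : B, ∃ z, π z = x ∧ π (star z) = y := by
    intro x y
    obtain ⟨x, rfl⟩ := Ideal.Quotient.mk_surjective x
    obtain ⟨y, rfl⟩ := Ideal.Quotient.mk_surjective y
    refine ⟨(ε : A) * x + (1 - ε) * star y, ?_, ?_⟩
    · rw [map_add, map_mul, map_mul, hπε, hπε', one_mul, zero_mul, add_zero]
    · have h5 : star (1 - (ε : A)) = ε := by rw [star_sub, star_one, hεs, sub_sub_cancel]
      rw [star_add, star_mul, star_mul, star_star, hεs, h5, map_add, map_mul, map_mul, hπε, hπε',
        mul_zero, mul_one, zero_add]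
  have hBfin : Finite B := Quotient.finite _
  have hcardB : Nat.card B * Nat.card B = Nat.card A := by
    rw [← Nat.card_prod]
    refine (Nat.card_congr (Equiv.ofBijective (fun z : A => (π z, π (star z))) ⟨?_, ?_⟩)).symm
    · intro x y h
      rw [Prod.mk.injEq] at h
      have := hinj (x - y) (by rw [map_sub, h.1, sub_self])
        (by rw [star_sub, map_sub, h.2, sub_self])
      exact sub_eq_zero.1 this
    · rintro ⟨x, y⟩
      obtain ⟨z, hz, hz'⟩ := hsurj x y
      exact ⟨z, Prod.ext hz hz'⟩
  have hcardB' : Nat.card B = Nat.card F ^ n ^ 2 := by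
    have h6 : Nat.card B ^ 2 = (Nat.card F ^ n ^ 2) ^ 2 := by
      rw [sq, hcardB, hcardA, ← pow_mul, mul_comm (n ^ 2)]
    exact Nat.pow_left_injective (n := 2) (by norm_num) h6
  have hBnt : Nontrivial B := by
    rw [← Finite.one_lt_card_iff_nontrivial, hcardB']
    exact Nat.one_lt_pow (by positivity) hq
  have hπθ : π θ = π (γ c) := by
    have h7 : (θ : A) = ((γ (c - (T - c)) * ε + γ (T - c) : Subring.center A) : A) := by
      congr 1
      rw [hε]
      simp only [map_sub] at hu ⊢
      linear_combination -(θ - γ T + γ c) * hu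
    have h8 : (γ c : A) = ((γ (c - (T - c)) + γ (T - c) : Subring.center A) : A) := by
      rw [← map_add, sub_add_cancel]
    rw [h7, h8, Subring.coe_add, Subring.coe_add, Subring.coe_mul, map_add, map_add, map_mul, hπε,
      mul_one]
  let γA : F →+* A := (Subring.center A).subtype.comp γ
  have hγA : ∀ c, γA c = γ c := fun c => rfl
  have key := simple_central (A := B) (ι := ι) ((π.comp γA).range) (by
      rintro _ ⟨c, rfl⟩ x
      obtain ⟨x, rfl⟩ := Ideal.Quotient.mk_surjective x
      show π (γ c) * π x = π x * π (γ c)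
      rw [← map_mul, center_comm, map_mul]) (by
      rintro _ ⟨c, rfl⟩ hc
      have hc' : c ≠ 0 := by
        rintro rfl
        exact hc (map_zero _)
      refine ⟨_, ⟨c⁻¹, rfl⟩, ?_⟩
      rw [← map_mul, mul_inv_cancel₀ hc', map_one]) (fun l => π (b l)) (by
      intro z
      obtain ⟨z, rfl⟩ := Ideal.Quotient.mk_surjective z
      obtain ⟨e, he⟩ := hg.2 z
      refine ⟨fun l => π (γA ((e l).1 + (e l).2 * c)), fun l => ⟨_, rfl⟩, ?_⟩
      rw [← he]
      show π _ = _
      rw [map_sum]
      refine Finset.sum_congr rfl fun l _ => ?_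
      have h9 : γA ((e l).1 + (e l).2 * c) = (γ (e l).1 : A) + (γ (e l).2 : A) * γ c := by
        rw [hγA, map_add, map_mul]
        rfl
      show _ = π (γA ((e l).1 + (e l).2 * c)) * π (b l)
      rw [map_mul, Subring.coe_add, Subring.coe_mul, map_add, map_mul, hπθ, h9, map_add,
        map_mul]) (by
      intro i j
      obtain ⟨m, x, y, h⟩ := hT i j
      refine ⟨m, fun t => π (x t), fun t => π (y t), fun l => ?_⟩
      have := congrArg π (h l)
      rw [map_sum] at this
      simp only [map_mul] at this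
      rw [this]
      split_ifs <;> simp)
  have hsimple := key.1
  have hcen : Nat.card (Set.center B) = Nat.card F := by
    rw [key.2]
    exact (Nat.card_congr (Equiv.ofInjective _ (RingHom.injective (π.comp γA)))).symm
  exact card_sym_split hn hcen hcardB' π hinj hsurj

theorem card_sym_of [Finite F] [Fintype ι] [DecidableEq ι] (γ : F →+* Subring.center A)
    (hγs : ∀ c, star (γ c : A) = γ c)
    (θ : Subring.center A) {T N : F} (hθs : star (θ : A) = γ T - θ)
    (hθθ : θ * θ = γ T * θ - γ N) (hdisc : T ^ 2 - 4 * N ≠ 0) (b : ι → A)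
    (hg : Function.Bijective fun c : ι → F × F =>
      ∑ l, ((γ (c l).1 + γ (c l).2 * θ : Subring.center A) : A) * b l)
    (hT : ∀ i j, ∃ (m : ℕ) (x y : Fin m → A), ∀ l, ∑ t, x t * b l * y t = if l = j then b i else 0)
    {n : ℕ} (hn : n ≠ 0) (hι : Fintype.card ι = n ^ 2) :
    Nat.card F ^ (2 * n - 2) * (Nat.card F - 1) ≤
      Nat.card {e : A // star e = e ∧ rkc e = Nat.card F ^ (2 * n)} := by
  classical
  have hq : 1 < Nat.card F := Finite.one_lt_card
  have hcardA : Nat.card A = Nat.card F ^ (2 * n ^ 2) := by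
    rw [← Nat.card_congr (Equiv.ofBijective _ hg), Nat.card_fun, Nat.card_prod,
      Nat.card_eq_fintype_card (α := ι), hι, ← sq, ← pow_mul]
  have hn2 : 0 < n ^ 2 := by positivity
  have hAfin : Finite A := Finite.of_equiv _ (Equiv.ofBijective _ hg)
  have hnt : Nontrivial A := by
    rw [← Finite.one_lt_card_iff_nontrivial, hcardA]
    exact Nat.one_lt_pow (by positivity) hq
  by_cases hsq : ∃ c : F, c * c - T * c + N = 0
  · obtain ⟨c, hc⟩ := hsq
    have hN : N = c * (T - c) := by linear_combination hc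
    refine card_sym_of_split γ hγs θ hθs (by rw [hθθ, hN]) ?_ b hg hT hn hι
    intro h
    apply hdisc
    rw [hN]
    linear_combination (c - (T - c)) * h
  · have hinvC : ∀ a b : F, γ a + γ b * θ ≠ 0 → ∃ a' b' : F,
        (γ a + γ b * θ) * (γ a' + γ b' * θ) = 1 := by
      intro a b hab
      have hN : a * a + a * b * T + b * b * N ≠ 0 := by
        intro h
        by_cases hb : b = 0
        · rw [hb] at h
          have : a = 0 := by
            apply mul_self_eq_zero.1
            linear_combination h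
          exact hab (by rw [this, hb, map_zero, zero_mul, add_zero])
        · apply hsq
          refine ⟨-(a / b), ?_⟩
          field_simp
          linear_combination h
      obtain ⟨z, hz⟩ : ∃ z, z * (a * a + a * b * T + b * b * N) = 1 := ⟨_, inv_mul_cancel₀ hN⟩
      refine ⟨(a + b * T) * z, -b * z, ?_⟩
      have hz' := congrArg γ hz
      simp only [map_add, map_mul, map_one, map_neg] at hz' ⊢
      linear_combination hz' - γ b * γ b * γ z * hθθ
    have key := simple_central (A := A) (ι := ι) (thetaRing γ θ hθθ) (by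
        rintro _ ⟨⟨a, b⟩, rfl⟩ x
        exact center_comm _ x) (by
        rintro _ ⟨⟨a, b⟩, rfl⟩ hc
        obtain ⟨a', b', h⟩ := hinvC a b (fun h => hc (by
          show ((γ a + γ b * θ : Subring.center A) : A) = 0
          rw [h]
          rfl))
        exact ⟨_, ⟨(a', b'), rfl⟩, congrArg Subtype.val h⟩) b (by
        intro z
        obtain ⟨e, he⟩ := hg.2 z
        exact ⟨fun l => ((γ (e l).1 + γ (e l).2 * θ : Subring.center A) : A),
          fun l => ⟨e l, rfl⟩, he.symm⟩) hT
    have hsimple := key.1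
    have hcen : Nat.card (Set.center A) = Nat.card F ^ 2 := by
      rw [key.2]
      have hCinj : Function.Injective fun p : F × F =>
          ((γ p.1 + γ p.2 * θ : Subring.center A) : A) := by
        rintro ⟨a, b⟩ ⟨p, r⟩ h
        simp only at h
        have h' := Subtype.ext h
        have := indep_theta γ hγs θ hθs hθθ hdisc (a := a - p) (b := b - r) (by
          rw [map_sub, map_sub]
          linear_combination h')
        rw [sub_eq_zero, sub_eq_zero] at this
        rw [this.1, this.2]
      have h5 := (Nat.card_congr (Equiv.ofInjective _ hCinj)).symm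
      rw [Nat.card_prod, ← sq] at h5
      exact h5
    obtain ⟨z, hz⟩ : ∃ z, z * (T ^ 2 - 4 * N) = 1 := ⟨_, inv_mul_cancel₀ hdisc⟩
    obtain ⟨δ, hδ⟩ : ∃ δ : Subring.center A, δ = 2 * θ - γ T := ⟨_, rfl⟩
    refine card_sym_nonsplit (δ := (δ : A)) ((Subring.center A).subtype.comp γ)
      (fun c x => center_comm _ x) hγs hn hcen hcardA ?_ (center_comm δ) ?_
    · have h1 : δ * (δ * γ z) = 1 := by
        have hz' := congrArg γ hz
        simp only [map_sub, map_mul, map_one, map_pow, map_ofNat] at hz'
        rw [hδ]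
        linear_combination hz' + 4 * γ z * hθθ
      have h1' : δ * γ z * δ = 1 := by
        rw [← h1]
        ring
      exact ⟨⟨δ, (δ * γ z : Subring.center A), congrArg Subtype.val h1, congrArg Subtype.val h1'⟩,
        rfl⟩
    · have h2 : (δ : A) = θ + θ - γ T := by
        rw [hδ, AddSubgroupClass.coe_sub, two_mul]
        rfl
      rw [h2, star_sub, star_add, hθs, hγs]
      abel

end

end Vale.Agent.P011.H973
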