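import Vale.Agent.P011.H973.Crt
import Vale.Agent.P011.H973.LocalCount

/-!
# Almost all primes are good
-/

set_option autoImplicit false
set_option linter.unusedSectionVars false

open IsDedekindDomain

universe u

namespace Vale.Agent.P011.H973

section Quot

variable {R S : Type*} [CommRing R] [Ring S] [Algebra R S]

/-- the ideal generated by central elements is two-sided -/
theorem map_isTwoSided (v : Ideal R) : (Ideal.map (algebraMap R S) v).IsTwoSided := by
  refine ⟨fun {a} b ha => ?_⟩
  rw [Ideal.map] at ha ⊢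
  induction ha using Submodule.span_induction with
  | mem x hx =>
    obtain ⟨c, hc, rfl⟩ := hx
    rw [Algebra.commutes]
    exact Ideal.mul_mem_left _ _ (Ideal.subset_span ⟨c, hc, rfl⟩)
  | zero => rw [zero_mul]; exact zero_mem _
  | add x y _ _ hx hy => rw [add_mul]; exact add_mem hx hy
  | smul r x _ hx => rw [smul_eq_mul, mul_assoc]; exact Ideal.mul_mem_left _ _ hx

theorem map_star_mem [StarRing S] (hs : ∀ a : R, star (algebraMap R S a) = algebraMap R S a)
    (v : Ideal R) : ∀ x ∈ Ideal.map (algebraMap R S) v, star x ∈ Ideal.map (algebraMap R S) v := by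
  have := map_isTwoSided (S := S) v
  intro x hx
  have h1 := hx
  rw [Ideal.map] at hx
  induction hx using Submodule.span_induction with
  | mem x hx =>
    obtain ⟨c, hc, rfl⟩ := hx
    rw [hs]
    exact Ideal.mem_map_of_mem _ hc
  | zero => rw [star_zero]; exact zero_mem _
  | add x y hx' hy' hx hy =>
    rw [star_add]
    exact add_mem (hx hx') (hy hy')
  | smul r x hx' hx =>
    rw [smul_eq_mul, star_mul]
    exact Ideal.mul_mem_right _ _ (hx hx')

/-- the quotient of a star ring by a star stable ideal -/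
@[reducible] noncomputable def quotStar [StarRing S] (I : Ideal S) [I.IsTwoSided]
    (hI : ∀ x ∈ I, star x ∈ I) : StarRing (S ⧸ I) :=
  have key : ∀ x : S, Ideal.Quotient.mk I (star (Quotient.out (Ideal.Quotient.mk I x))) =
      Ideal.Quotient.mk I (star x) := by
    intro x
    rw [Ideal.Quotient.eq, ← star_sub]
    apply hI
    rw [← Ideal.Quotient.eq]
    exact Ideal.Quotient.mk_out _
  { star := fun a => Ideal.Quotient.mk I (star (Quotient.out a))
    star_involutive := by
      intro a
      obtain ⟨a, rfl⟩ := Ideal.Quotient.mk_surjective a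
      show Ideal.Quotient.mk I (star (Quotient.out (Ideal.Quotient.mk I (star (Quotient.out
        (Ideal.Quotient.mk I a)))))) = _
      rw [key a, key (star a), star_star]
    star_mul := by
      intro a b
      obtain ⟨a, rfl⟩ := Ideal.Quotient.mk_surjective a
      obtain ⟨b, rfl⟩ := Ideal.Quotient.mk_surjective b
      show Ideal.Quotient.mk I (star (Quotient.out (Ideal.Quotient.mk I a * Ideal.Quotient.mk I b))) =
        Ideal.Quotient.mk I (star (Quotient.out (Ideal.Quotient.mk I b))) *
          Ideal.Quotient.mk I (star (Quotient.out (Ideal.Quotient.mk I a)))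
      rw [← map_mul, key, key, key, ← map_mul, star_mul]
    star_add := by
      intro a b
      obtain ⟨a, rfl⟩ := Ideal.Quotient.mk_surjective a
      obtain ⟨b, rfl⟩ := Ideal.Quotient.mk_surjective b
      show Ideal.Quotient.mk I (star (Quotient.out (Ideal.Quotient.mk I a + Ideal.Quotient.mk I b))) =
        Ideal.Quotient.mk I (star (Quotient.out (Ideal.Quotient.mk I a))) +
          Ideal.Quotient.mk I (star (Quotient.out (Ideal.Quotient.mk I b)))
      rw [← map_add, key, key, key, ← map_add, star_add] }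

theorem quotStar_mk [StarRing S] (I : Ideal S) [I.IsTwoSided] (hI : ∀ x ∈ I, star x ∈ I) (x : S) :
    (quotStar I hI).star (Ideal.Quotient.mk I x) = Ideal.Quotient.mk I (star x) := by
  show Ideal.Quotient.mk I (star (Quotient.out (Ideal.Quotient.mk I x))) = _
  rw [Ideal.Quotient.eq, ← star_sub]
  apply hI
  rw [← Ideal.Quotient.eq]
  exact Ideal.Quotient.mk_out _

end Quot

section Main

variable {R k K : Type*} {D : Type u} [CommRing R] [IsDedekindDomain R] [Field k] [Algebra R k]
  [IsFractionRing R k] [Field K] [Ring D] [StarRing D] [Algebra k K] [Algebra k D] [Algebra K D]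
  [IsScalarTower k K D] [Algebra R D] [IsScalarTower R k D]

/-- an element of `v O` is divisible by `v` -/
theorem div_of_mem {O : Subalgebra R D} {v : Ideal R} {x : O}
    (hx : x ∈ Ideal.map (algebraMap R O) v) (ϖ : k)
    (hϖ : ∀ a ∈ v, ∃ b : R, algebraMap R k b = ϖ * algebraMap R k a) : ϖ • (x : D) ∈ O := by
  rw [Ideal.map] at hx
  induction hx using Submodule.span_induction with
  | mem x hx =>
    obtain ⟨a, ha, rfl⟩ := hx
    obtain ⟨b, hb⟩ := hϖ a ha
    have : ϖ • ((algebraMap R O a : O) : D) = algebraMap R D b := by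
      show ϖ • algebraMap R D a = _
      rw [IsScalarTower.algebraMap_apply R k D, IsScalarTower.algebraMap_apply R k D, hb, map_mul,
        Algebra.smul_def]
    rw [this]
    exact O.algebraMap_mem b
  | zero => simp
  | add x y _ _ hx hy =>
    rw [Subalgebra.coe_add, smul_add]
    exact O.add_mem hx hy
  | smul r x _ hx =>
    rw [smul_eq_mul, Subalgebra.coe_mul, ← mul_smul_comm]
    exact O.mul_mem r.2 hx

/-- the map `(α, β) ↦ ∑ (α l + β l θ) b l` -/
noncomputable def comb {ι : Type*} [Fintype ι] (θ : D) (b : ι → D) (α β : ι → R) : D :=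
  ∑ l, (algebraMap R D (α l) + algebraMap R D (β l) * θ) * b l

theorem comb_add {ι : Type*} [Fintype ι] (θ : D) (b : ι → D) (α β α' β' : ι → R) :
    comb θ b (α + α') (β + β') = comb θ b α β + comb θ b α' β' := by
  unfold comb
  rw [← Finset.sum_add_distrib]
  refine Finset.sum_congr rfl fun l _ => ?_
  simp only [Pi.add_apply, map_add]
  noncomm_ring

theorem comb_smul {ι : Type*} [Fintype ι] (θ : D) (b : ι → D) (m : R) (α β : ι → R) :
    comb θ b (m • α) (m • β) = m • comb θ b α β := by
  unfold comb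
  rw [Finset.smul_sum]
  refine Finset.sum_congr rfl fun l _ => ?_
  simp only [Pi.smul_apply, smul_eq_mul, map_mul, Algebra.smul_def, mul_add, add_mul, mul_assoc]

/-- the coordinates are unique -/
theorem comb_inj {θ : K}
    (hK : ∀ α β : k, algebraMap k K α + algebraMap k K β * θ = 0 → α = 0 ∧ β = 0)
    {ι : Type*} [Fintype ι] (b : Module.Basis ι K D) {α β α' β' : ι → R}
    (h : comb (algebraMap K D θ) b α β = comb (algebraMap K D θ) b α' β') : α = α' ∧ β = β' := by
  have hRinj : Function.Injective (algebraMap R k) := IsFractionRing.injective R k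
  have h1 : ∀ α β : ι → R, comb (algebraMap K D θ) b α β =
      ∑ l, (algebraMap k K (algebraMap R k (α l)) + algebraMap k K (algebraMap R k (β l)) * θ) •
        b l := by
    intro α β
    unfold comb
    refine Finset.sum_congr rfl fun l _ => ?_
    rw [Algebra.smul_def, map_add, map_mul, ← IsScalarTower.algebraMap_apply k K D,
      ← IsScalarTower.algebraMap_apply k K D, ← IsScalarTower.algebraMap_apply R k D,
      ← IsScalarTower.algebraMap_apply R k D]
  rw [h1, h1] at h
  have h3 : ∀ l, algebraMap k K (algebraMap R k (α l)) +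
      algebraMap k K (algebraMap R k (β l)) * θ =
      algebraMap k K (algebraMap R k (α' l)) + algebraMap k K (algebraMap R k (β' l)) * θ := by
    intro l
    have := congrArg (fun z => b.repr z l) h
    simpa only [Module.Basis.repr_sum_self] using this
  have h4 : ∀ l, α l = α' l ∧ β l = β' l := by
    intro l
    have := hK (algebraMap R k (α l - α' l)) (algebraMap R k (β l - β' l)) (by
      simp only [map_sub]
      linear_combination h3 l)
    rw [map_eq_zero_iff _ hRinj, map_eq_zero_iff _ hRinj, sub_eq_zero, sub_eq_zero] at this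
    exact this
  exact ⟨funext fun l => (h4 l).1, funext fun l => (h4 l).2⟩

/-- elements of `v S` are sums of elements `a y`, `a ∈ v` -/
theorem mem_closure_of_mem_map {S : Type*} [Ring S] [Algebra R S] {v : Ideal R} {x : S}
    (hx : x ∈ Ideal.map (algebraMap R S) v) :
    x ∈ AddSubmonoid.closure {z : S | ∃ a ∈ v, ∃ y : S, z = a • y} := by
  rw [Ideal.map, Ideal.span] at hx
  induction hx using Submodule.span_induction with
  | mem x hx' =>
    obtain ⟨a, ha, rfl⟩ := hx'
    refine AddSubmonoid.subset_closure ⟨a, ha, 1, ?_⟩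
    rw [Algebra.smul_def, mul_one]
  | zero => exact zero_mem _
  | add x y hx' hy' ihx ihy => exact add_mem ihx ihy
  | smul r x hx' ih =>
    clear hx'
    induction ih using AddSubmonoid.closure_induction with
    | mem x hx =>
      obtain ⟨a, ha, y, rfl⟩ := hx
      refine AddSubmonoid.subset_closure ⟨a, ha, r * y, ?_⟩
      rw [smul_eq_mul, mul_smul_comm]
    | zero => rw [smul_zero]; exact zero_mem _
    | add x y _ _ hx hy => rw [smul_add]; exact add_mem hx hy

theorem map_comb {O : Subalgebra R D} {θ : D} {ι : Type*} [Fintype ι] (b : ι → D)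
    {v : Ideal R} (hv : v.IsPrime) (hLF : ∀ x ∈ O, ∃ m ∉ v, ∃ α β : ι → R, m • x = comb θ b α β)
    {x : O} (hx : x ∈ Ideal.map (algebraMap R O) v) : ∃ m ∉ v, ∃ α β : ι → R, (∀ l, α l ∈ v) ∧
      (∀ l, β l ∈ v) ∧ m • (x : D) = comb θ b α β := by
  have hx' := mem_closure_of_mem_map hx
  clear hx
  induction hx' using AddSubmonoid.closure_induction with
  | mem x hx =>
    obtain ⟨a, ha, y, rfl⟩ := hx
    obtain ⟨m, hm, α, β, h⟩ := hLF y y.2
    refine ⟨m, hm, a • α, a • β, fun l => Ideal.mul_mem_right _ _ ha,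
      fun l => Ideal.mul_mem_right _ _ ha, ?_⟩
    rw [comb_smul, ← h, smul_smul, mul_comm a m, mul_smul]
    rfl
  | zero =>
    refine ⟨1, fun h => hv.ne_top ((Ideal.eq_top_iff_one _).2 h), 0, 0, fun l => zero_mem _,
      fun l => zero_mem _, ?_⟩
    simp [comb]
  | add x y hx' hy' ihx ihy =>
    obtain ⟨m, hm, α, β, h1, h2, h3⟩ := ihx
    obtain ⟨m', hm', α', β', h1', h2', h3'⟩ := ihy
    refine ⟨m * m', fun h => (hv.mem_or_mem h).elim hm hm', m' • α + m • α',
      m' • β + m • β', fun l => add_mem (Ideal.mul_mem_left _ _ (h1 l))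
        (Ideal.mul_mem_left _ _ (h1' l)), fun l => add_mem (Ideal.mul_mem_left _ _ (h2 l))
        (Ideal.mul_mem_left _ _ (h2' l)), ?_⟩
    rw [comb_add, comb_smul, comb_smul, ← h3, ← h3', smul_smul, smul_smul, Subalgebra.coe_add,
      smul_add, mul_comm m' m]

/-- the elementary operators in the order -/
theorem exists_ops [IsSimpleRing D] [Algebra.IsCentral K D] {O : Subalgebra R D}
    {ι : Type*} [Fintype ι] [DecidableEq ι] (b : Module.Basis ι K D)
    (hfrac : ∀ x : D, ∃ a : R, a ≠ 0 ∧ a • x ∈ O) (i j : ι) :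
    ∃ (a : R), a ≠ 0 ∧ ∃ (m : ℕ) (x y : Fin m → O), ∀ l,
      ∑ t, (x t : D) * b l * y t = if l = j then (a * a) • b i else 0 := by
  classical
  obtain ⟨m, x, y, h⟩ := exists_bimul ((b.coord j).smulRight (b i)) (Finset.univ.image b)
  choose ax hax0 hax using fun t => hfrac (x t)
  choose ay hay0 hay using fun t => hfrac (y t)
  set a : R := ∏ t, (ax t * ay t) with ha
  have ha0 : a ≠ 0 := Finset.prod_ne_zero_iff.2 fun t _ => mul_ne_zero (hax0 t) (hay0 t)
  have hx : ∀ t, a • x t ∈ O := by
    intro t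
    rw [ha, ← Finset.prod_erase_mul _ _ (Finset.mem_univ t), mul_comm (ax t), ← mul_assoc,
      mul_smul]
    exact O.smul_mem (hax t) _
  have hy : ∀ t, a • y t ∈ O := by
    intro t
    rw [ha, ← Finset.prod_erase_mul _ _ (Finset.mem_univ t), ← mul_assoc, mul_smul]
    exact O.smul_mem (hay t) _
  refine ⟨a, ha0, m, fun t => ⟨_, hx t⟩, fun t => ⟨_, hy t⟩, fun l => ?_⟩
  have h3 := h (b l) (Finset.mem_image_of_mem _ (Finset.mem_univ l))
  have h4 : (b.coord j).smulRight (b i) (b l) = if l = j then b i else 0 := by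
    rw [LinearMap.smulRight_apply, Module.Basis.coord_apply, Module.Basis.repr_self,
      Finsupp.single_apply]
    split_ifs <;> simp
  have h5 : ∑ t, (a • x t) * b l * (a • y t) = (a * a) • ∑ t, x t * b l * y t := by
    rw [Finset.smul_sum]
    refine Finset.sum_congr rfl fun t _ => ?_
    rw [smul_mul_assoc, smul_mul_assoc, mul_smul_comm, smul_smul]
  show ∑ t, (a • x t) * b l * (a • y t) = _
  rw [h5, ← h3, h4]
  split_ifs <;> simp

/-- The data of the residue map. -/
theorem exists_res {O : Subalgebra R D}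
    (hstar : ∀ c : k, star (algebraMap k D c) = algebraMap k D c)
    (hO : ∀ x ∈ O, star x ∈ O) (v : Ideal R) :
    ∃ (A : Type u) (_ : Ring A) (_ : StarRing A) (ρ : Res k O v A)
      (γ : (R ⧸ v) →+* Subring.center A), (∀ x, ρ.π x = 0 ↔ x ∈ Ideal.map (algebraMap R O) v) ∧
      (∀ a, (γ (Ideal.Quotient.mk _ a) : A) = ρ.π (algebraMap R O a)) ∧
      (∀ c, star (γ c : A) = γ c) := by
  have hsR : ∀ a : R, star (algebraMap R D a) = algebraMap R D a := by
    intro a
    rw [IsScalarTower.algebraMap_apply R k D, hstar]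
  let hS : StarRing O := {
    star := fun x => ⟨star (x : D), hO _ x.2⟩
    star_involutive := fun x => Subtype.ext (star_star (x : D))
    star_mul := fun x y => Subtype.ext (star_mul (x : D) y)
    star_add := fun x y => Subtype.ext (star_add (x : D) y) }
  have hScoe : ∀ x : O, ((star x : O) : D) = star (x : D) := fun x => rfl
  set I : Ideal O := Ideal.map (algebraMap R O) v with hI
  have hItwo : I.IsTwoSided := map_isTwoSided _
  have hIstar : ∀ x ∈ I, star x ∈ I := map_star_mem (fun a => Subtype.ext (hsR a)) _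
  let hA : StarRing (O ⧸ I) := quotStar I hIstar
  have hπs : ∀ x : O, star (Ideal.Quotient.mk I x) = Ideal.Quotient.mk I (star x) :=
    quotStar_mk I hIstar
  have hπ0 : ∀ x : O, Ideal.Quotient.mk I x = 0 ↔ x ∈ I := fun x => Ideal.Quotient.eq_zero_iff_mem
  have hkill : ∀ a ∈ v, ∀ y : O, Ideal.Quotient.mk I (a • y) = 0 := by
    intro a ha y
    rw [hπ0, Algebra.smul_def]
    exact Ideal.mul_mem_right _ _ (Ideal.mem_map_of_mem _ ha)
  let γ' : R →+* Subring.center (O ⧸ I) :=
    ((Ideal.Quotient.mk I).comp (algebraMap R O)).codRestrict (Subring.center (O ⧸ I)) (by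
      intro a
      rw [Subring.mem_center_iff]
      intro x
      obtain ⟨x, rfl⟩ := Ideal.Quotient.mk_surjective x
      rw [RingHom.comp_apply, ← map_mul, ← map_mul, Algebra.commutes])
  have hγ' : ∀ a, (γ' a : O ⧸ I) = Ideal.Quotient.mk I (algebraMap R O a) := fun a => rfl
  let γ : (R ⧸ v) →+* Subring.center (O ⧸ I) := Ideal.Quotient.lift v γ' (by
    intro a ha
    apply Subtype.ext
    rw [hγ']
    have := hkill a ha 1
    rwa [Algebra.smul_def, mul_one] at this)
  have hγ : ∀ a, (γ (Ideal.Quotient.mk _ a) : O ⧸ I) = Ideal.Quotient.mk I (algebraMap R O a) :=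
    fun a => rfl
  refine ⟨O ⧸ I, inferInstance, hA,
    ⟨Ideal.Quotient.mk I, Ideal.Quotient.mk_surjective, ?_, hkill, ?_⟩, γ, hπ0, hγ, ?_⟩
  · intro x y hxy
    rw [hπs]
    congr 1
    exact Subtype.ext hxy
  · intro x hx ϖ hϖ
    rw [hπ0] at hx
    exact div_of_mem hx ϖ hϖ
  · intro c
    obtain ⟨c, rfl⟩ := Ideal.Quotient.mk_surjective c
    rw [hγ, hπs]
    congr 1
    exact Subtype.ext (hsR c)

/-- the symmetric operators at one good prime -/
theorem good_at {O : Subalgebra R D}
    (hstar : ∀ c : k, star (algebraMap k D c) = algebraMap k D c)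
    (hO : ∀ x ∈ O, star x ∈ O) {θ : K} {T N : R}
    (hθs : star (algebraMap K D θ) = algebraMap R D T - algebraMap K D θ)
    (hθO : algebraMap K D θ ∈ O)
    (hθθ : θ * θ = algebraMap k K (algebraMap R k T) * θ - algebraMap k K (algebraMap R k N))
    (hK : ∀ α β : k, algebraMap k K α + algebraMap k K β * θ = 0 → α = 0 ∧ β = 0)
    {ι : Type*} [Fintype ι] [DecidableEq ι] (b : Module.Basis ι K D) (hbO : ∀ l, b l ∈ O)
    {v : Ideal R} (hv : v.IsMaximal) (hvfin : Finite (R ⧸ v))
    (hLF : ∀ x ∈ O, ∃ m ∉ v, ∃ α β : ι → R, m • x = comb (algebraMap K D θ) b α β)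
    (hdisc : T ^ 2 - 4 * N ∉ v)
    (hT : ∀ i j : ι, ∃ a : R, a ∉ v ∧ ∃ (m : ℕ) (x y : Fin m → O), ∀ l,
      ∑ t, (x t : D) * b l * y t = if l = j then a • b i else 0)
    {n : ℕ} (hn : n ≠ 0) (hι : Fintype.card ι = n ^ 2) :
    ∃ (A : Type u) (_ : Ring A) (_ : StarRing A) (ρ : Res k O v A), Finite A ∧
      Nat.card (R ⧸ v) ^ (2 * n - 2) * (Nat.card (R ⧸ v) - 1) ≤
          Nat.card {e : A // star e = e ∧ rkc e = Nat.card (R ⧸ v) ^ (2 * n)} ∧
        ∃ τ τ' : O, (τ' : D) = star (τ : D) ∧ (∀ x : O, x * τ' = τ' * x) ∧ ρ.π (τ + τ') = 1 := by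
  classical
  obtain ⟨A, _, _, ρ, γ, hπ0, hγ, hγs⟩ := exists_res hstar hO v
  let hF : Field (R ⧸ v) := Ideal.Quotient.field v
  have hunit : ∀ m ∉ v, ∃ c : R ⧸ v, c * Ideal.Quotient.mk _ m = 1 := by
    intro m hm
    have hm0 : (Ideal.Quotient.mk v m : R ⧸ v) ≠ 0 := by
      rwa [Ne, Ideal.Quotient.eq_zero_iff_mem]
    exact ⟨(Ideal.Quotient.mk v m : R ⧸ v)⁻¹, inv_mul_cancel₀ hm0⟩
  let θO : O := ⟨algebraMap K D θ, hθO⟩
  have hθOc : ∀ x : O, x * θO = θO * x := fun x =>
    Subtype.ext (Algebra.commutes θ (x : D)).symm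
  let θA : Subring.center A := ⟨ρ.π θO, by
    rw [Subring.mem_center_iff]
    intro x
    obtain ⟨x, rfl⟩ := ρ.surj x
    rw [← map_mul, ← map_mul, hθOc]⟩
  have hθOs : star (θO : D) = ((algebraMap R O T - θO : O) : D) := hθs
  have hθOθ : θO * θO = algebraMap R O T * θO - algebraMap R O N := by
    apply Subtype.ext
    show algebraMap K D θ * algebraMap K D θ =
      algebraMap R D T * algebraMap K D θ - algebraMap R D N
    rw [← map_mul, hθθ, map_sub, map_mul, ← IsScalarTower.algebraMap_apply k K D,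
      ← IsScalarTower.algebraMap_apply k K D, ← IsScalarTower.algebraMap_apply R k D,
      ← IsScalarTower.algebraMap_apply R k D]
  let bO : ι → O := fun l => ⟨b l, hbO l⟩
  have hcombO : ∀ α β : ι → R, comb (algebraMap K D θ) b α β =
      ((∑ l, (algebraMap R O (α l) + algebraMap R O (β l) * θO) * bO l : O) : D) := by
    intro α β
    unfold comb
    rw [AddSubmonoidClass.coe_finsetSum]
    rfl
  have hcoe : ∀ a c : R ⧸ v, ((γ a + γ c * θA : Subring.center A) : A) =
      (γ a : A) + γ c * ρ.π θO := fun a c => rfl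
  have hγsum : ∀ α β : ι → R,
      ρ.π (∑ l, (algebraMap R O (α l) + algebraMap R O (β l) * θO) * bO l) =
      ∑ l, ((γ (Ideal.Quotient.mk _ (α l)) + γ (Ideal.Quotient.mk _ (β l)) * θA :
        Subring.center A) : A) * ρ.π (bO l) := by
    intro α β
    rw [map_sum]
    refine Finset.sum_congr rfl fun l _ => ?_
    rw [map_mul, map_add, map_mul, hcoe, hγ, hγ]
  set g : (ι → (R ⧸ v) × (R ⧸ v)) → A := fun c =>
    ∑ l, ((γ (c l).1 + γ (c l).2 * θA : Subring.center A) : A) * ρ.π (bO l) with hgdef
  have hgadd : ∀ c c', g (c - c') = g c - g c' := by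
    intro c c'
    rw [hgdef]
    simp only
    rw [← Finset.sum_sub_distrib]
    refine Finset.sum_congr rfl fun l _ => ?_
    rw [← sub_mul]
    congr 1
    rw [← AddSubgroupClass.coe_sub]
    congr 1
    simp only [Pi.sub_apply, Prod.fst_sub, Prod.snd_sub, map_sub]
    ring
  have hg : Function.Bijective g := by
    constructor
    · intro c c' h
      have h0 : g (c - c') = 0 := by rw [hgadd, h, sub_self]
      rw [← sub_eq_zero]
      generalize c - c' = e at h0
      choose α hα using fun l => Ideal.Quotient.mk_surjective (e l).1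
      choose β hβ using fun l => Ideal.Quotient.mk_surjective (e l).2
      have h1 : ρ.π (∑ l, (algebraMap R O (α l) + algebraMap R O (β l) * θO) * bO l) = 0 := by
        rw [hγsum, ← h0]
        refine Finset.sum_congr rfl fun l _ => ?_
        rw [hα, hβ]
      rw [hπ0] at h1
      obtain ⟨m, hm, α', β', h3, h4, h5⟩ := map_comb b hv.isPrime hLF h1
      rw [← hcombO, ← comb_smul] at h5
      obtain ⟨h6, h7⟩ := comb_inj hK b h5
      funext l
      have h8 : m * α l ∈ v := by
        have := congrFun h6 l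
        rw [Pi.smul_apply, smul_eq_mul] at this
        rw [this]
        exact h3 l
      have h9 : m * β l ∈ v := by
        have := congrFun h7 l
        rw [Pi.smul_apply, smul_eq_mul] at this
        rw [this]
        exact h4 l
      have h10 := (hv.isPrime.mem_or_mem h8).resolve_left hm
      have h11 := (hv.isPrime.mem_or_mem h9).resolve_left hm
      refine Prod.ext ?_ ?_
      · rw [← hα]
        exact Ideal.Quotient.eq_zero_iff_mem.2 h10
      · rw [← hβ]
        exact Ideal.Quotient.eq_zero_iff_mem.2 h11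
    · intro z
      obtain ⟨x, rfl⟩ := ρ.surj z
      obtain ⟨m, hm, α, β, h⟩ := hLF x x.2
      obtain ⟨c, hc⟩ := hunit m hm
      refine ⟨fun l => (c * Ideal.Quotient.mk _ (α l), c * Ideal.Quotient.mk _ (β l)), ?_⟩
      have h3 : m • x = ∑ l, (algebraMap R O (α l) + algebraMap R O (β l) * θO) * bO l := by
        apply Subtype.ext
        rw [← hcombO, ← h]
        rfl
      have h4 : (γ (Ideal.Quotient.mk _ m) : A) * ρ.π x =
          ∑ l, ((γ (Ideal.Quotient.mk _ (α l)) + γ (Ideal.Quotient.mk _ (β l)) * θA :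
            Subring.center A) : A) * ρ.π (bO l) := by
        rw [← hγsum, ← h3, Algebra.smul_def, map_mul, hγ]
      calc g _ = (γ c : A) * ∑ l, ((γ (Ideal.Quotient.mk _ (α l)) +
            γ (Ideal.Quotient.mk _ (β l)) * θA : Subring.center A) : A) * ρ.π (bO l) := by
            rw [hgdef, Finset.mul_sum]
            refine Finset.sum_congr rfl fun l _ => ?_
            rw [← mul_assoc, ← Subring.coe_mul]
            congr 2
            simp only [map_mul]
            ring
        _ = ρ.π x := by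
            rw [← h4, ← mul_assoc, ← Subring.coe_mul, ← map_mul, hc, map_one, Subring.coe_one,
              one_mul]
  have hAfin : Finite A := Finite.of_equiv _ (Equiv.ofBijective g hg)
  have hdisc' : (Ideal.Quotient.mk v T) ^ 2 - 4 * Ideal.Quotient.mk v N ≠ (0 : R ⧸ v) := by
    intro h
    apply hdisc
    rw [← Ideal.Quotient.eq_zero_iff_mem, map_sub, map_pow, map_mul, map_ofNat]
    exact h
  refine ⟨A, _, _, ρ, hAfin, ?_, ?_⟩
  · refine card_sym_of γ hγs θA (T := Ideal.Quotient.mk v T) (N := Ideal.Quotient.mk v N) ?_ ?_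
      hdisc' (fun l => ρ.π (bO l)) hg ?_ hn hι
    · show star (ρ.π θO) = _
      rw [← ρ.star_comm θO _ hθOs.symm, map_sub, hγ]
    · apply Subtype.ext
      show ρ.π θO * ρ.π θO = (γ _ : A) * ρ.π θO - (γ _ : A)
      rw [← map_mul, hθOθ, map_sub, map_mul, hγ, hγ]
    · intro i j
      obtain ⟨a, ha, m, x, y, h⟩ := hT i j
      obtain ⟨c, hc⟩ := hunit a ha
      refine ⟨m, fun t => (γ c : A) * ρ.π (x t), fun t => ρ.π (y t), fun l => ?_⟩
      have h6 : ∑ t, x t * bO l * y t = if l = j then a • bO i else 0 := by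
        apply Subtype.ext
        have h8 : ((∑ t, x t * bO l * y t : O) : D) = ∑ t, (x t : D) * b l * y t := by
          rw [AddSubmonoidClass.coe_finsetSum]
          rfl
        rw [h8, h l]
        split_ifs <;> rfl
      have h7 : ∑ t, (γ c : A) * ρ.π (x t) * ρ.π (bO l) * ρ.π (y t) =
          (γ c : A) * ρ.π (∑ t, x t * bO l * y t) := by
        rw [map_sum, Finset.mul_sum]
        refine Finset.sum_congr rfl fun t _ => ?_
        simp only [map_mul, mul_assoc]
      rw [h7, h6]
      split_ifs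
      · rw [Algebra.smul_def, map_mul, ← hγ, ← mul_assoc, ← Subring.coe_mul, ← map_mul, hc, map_one,
          Subring.coe_one, one_mul]
      · rw [map_zero, mul_zero]
  · obtain ⟨c, hc⟩ := hunit _ hdisc
    obtain ⟨c, rfl⟩ := Ideal.Quotient.mk_surjective c
    have hRc : ∀ a : R, algebraMap R O a ∈ Subring.center O := fun a =>
      Subring.mem_center_iff.2 fun x => (Algebra.commutes a x).symm
    have hsR : ∀ a : R, star (algebraMap R D a) = algebraMap R D a := by
      intro a
      rw [IsScalarTower.algebraMap_apply R k D, hstar]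
    obtain ⟨θc, hθc⟩ : ∃ z : Subring.center O, (z : O) = θO :=
      ⟨⟨θO, Subring.mem_center_iff.2 hθOc⟩, rfl⟩
    obtain ⟨Tc, hTc⟩ : ∃ z : Subring.center O, (z : O) = algebraMap R O T := ⟨⟨_, hRc T⟩, rfl⟩
    obtain ⟨Nc, hNc⟩ : ∃ z : Subring.center O, (z : O) = algebraMap R O N := ⟨⟨_, hRc N⟩, rfl⟩
    obtain ⟨cc, hcc⟩ : ∃ z : Subring.center O, (z : O) = algebraMap R O c := ⟨⟨_, hRc c⟩, rfl⟩
    have h1 : θc * θc = Tc * θc - Nc := by
      apply Subtype.ext
      show (θc : O) * (θc : O) = (Tc : O) * (θc : O) - (Nc : O)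
      rw [hθc, hTc, hNc, hθOθ]
    refine ⟨(cc * (θc * (θc + θc - Tc)) : Subring.center O),
      (cc * ((Tc - θc) * (Tc - (θc + θc))) : Subring.center O), ?_, ?_, ?_⟩
    · have h2 : (cc * ((Tc - θc) * (Tc - (θc + θc))) : Subring.center O) =
          ((Tc - θc) + (Tc - θc) - Tc) * (Tc - θc) * cc := by ring
      rw [h2]
      have h3 : ((((Tc - θc) + (Tc - θc) - Tc) * (Tc - θc) * cc : Subring.center O) : O) =
          ((algebraMap R O T - θO) + (algebraMap R O T - θO) - algebraMap R O T) *
            (algebraMap R O T - θO) * algebraMap R O c := by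
        rw [← hTc, ← hθc, ← hcc]
        rfl
      have h4 : ((cc * (θc * (θc + θc - Tc)) : Subring.center O) : O) =
          algebraMap R O c * (θO * (θO + θO - algebraMap R O T)) := by
        rw [← hTc, ← hθc, ← hcc]
        rfl
      rw [h3, h4]
      show ((algebraMap R D T - algebraMap K D θ) + (algebraMap R D T - algebraMap K D θ) -
        algebraMap R D T) * (algebraMap R D T - algebraMap K D θ) * algebraMap R D c =
        star (algebraMap R D c * (algebraMap K D θ * (algebraMap K D θ + algebraMap K D θ -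
          algebraMap R D T)))
      simp only [star_mul, star_sub, star_add, hθs, hsR]
    · intro x
      exact Subring.mem_center_iff.1 (cc * ((Tc - θc) * (Tc - (θc + θc))) : Subring.center O).2 x
    · rw [← Subring.coe_add]
      have h2 : (cc * (θc * (θc + θc - Tc)) + cc * ((Tc - θc) * (Tc - (θc + θc))) :
          Subring.center O) = cc * (Tc ^ 2 - 4 * Nc) := by
        linear_combination 4 * cc * h1
      have h3 : ((cc * (Tc ^ 2 - 4 * Nc) : Subring.center O) : O) =
          algebraMap R O (c * (T ^ 2 - 4 * N)) := by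
        rw [map_mul, map_sub, map_pow, map_mul, map_ofNat, ← hTc, ← hNc, ← hcc]
        rfl
      rw [h2, h3, ← hγ, map_mul, hc, map_one, Subring.coe_one]

/-- the good set of primes is cofinite -/
theorem exists_good [IsSimpleRing D] [Algebra.IsCentral K D] {O : Subalgebra R D}
    (hstar : ∀ c : k, star (algebraMap k D c) = algebraMap k D c)
    (hO : ∀ x ∈ O, star x ∈ O) {θ : K} {T N : R}
    (hθs : star (algebraMap K D θ) = algebraMap R D T - algebraMap K D θ)
    (hθO : algebraMap K D θ ∈ O)
    (hθθ : θ * θ = algebraMap k K (algebraMap R k T) * θ - algebraMap k K (algebraMap R k N))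
    (hdisc : T ^ 2 - 4 * N ≠ 0)
    (hK : ∀ α β : k, algebraMap k K α + algebraMap k K β * θ = 0 → α = 0 ∧ β = 0)
    {ι : Type*} [Fintype ι] (b : Module.Basis ι K D) (hbO : ∀ l, b l ∈ O)
    (hfrac : ∀ x : D, ∃ a : R, a ≠ 0 ∧ a • x ∈ O) {B₀ : Set (HeightOneSpectrum R)}
    (hB₀ : B₀.Finite) (hLF : ∀ v ∉ B₀, ∀ x ∈ O, ∃ m ∉ v.asIdeal, ∃ α β : ι → R,
      m • x = comb (algebraMap K D θ) b α β) {n : ℕ} (hn : n ≠ 0) (hι : Fintype.card ι = n ^ 2) :
    ∃ B : Set (HeightOneSpectrum R), B.Finite ∧ B₀ ⊆ B ∧ ∀ v ∉ B, Finite (R ⧸ v.asIdeal) →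
      ∃ (A : Type u) (_ : Ring A) (_ : StarRing A) (ρ : Res k O v.asIdeal A), Finite A ∧
        Nat.card (R ⧸ v.asIdeal) ^ (2 * n - 2) * (Nat.card (R ⧸ v.asIdeal) - 1) ≤
          Nat.card {e : A // star e = e ∧ rkc e = Nat.card (R ⧸ v.asIdeal) ^ (2 * n)} ∧
        ∃ τ τ' : O, (τ' : D) = star (τ : D) ∧ (∀ x : O, x * τ' = τ' * x) ∧ ρ.π (τ + τ') = 1 := by
  classical
  choose aT haT0 mT xT yT hT using exists_ops (D := D) b hfrac
  have hfin : ∀ a : R, a ≠ 0 → {v : HeightOneSpectrum R | a ∈ v.asIdeal}.Finite := by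
    intro a ha
    have h1 : Ideal.span {a} ≠ 0 := by
      rw [Ne, Ideal.zero_eq_bot, Ideal.span_singleton_eq_bot]
      exact ha
    refine (Ideal.finite_factors h1).subset fun v hv => ?_
    show v.asIdeal ∣ Ideal.span {a}
    rw [Ideal.dvd_span_singleton]
    exact hv
  refine ⟨B₀ ∪ {v | T ^ 2 - 4 * N ∈ v.asIdeal} ∪ ⋃ p : ι × ι, {v | aT p.1 p.2 ∈ v.asIdeal}, ?_, ?_,
    ?_⟩
  · exact (hB₀.union (hfin _ hdisc)).union (Set.finite_iUnion fun p => hfin _ (haT0 _ _))
  · intro v hv
    exact Or.inl (Or.inl hv)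
  intro v hv hvfin
  simp only [Set.mem_union, Set.mem_iUnion, Set.mem_ofPred_eq, not_or, not_exists] at hv
  obtain ⟨⟨hvB₀, hvd⟩, hvT⟩ := hv
  refine good_at hstar hO hθs hθO hθθ hK b hbO v.isMaximal hvfin (hLF v hvB₀) hvd ?_ hn hι
  intro i j
  exact ⟨aT i j * aT i j, fun h => (v.isPrime.mem_or_mem h).elim (hvT (i, j)) (hvT (i, j)), mT i j,
    xT i j, yT i j, hT i j⟩

end Main

end Vale.Agent.P011.H973
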