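import Vale.Agent.P011.H380.UpBC

/-!
# Lower bound of the mass of the elements of small height in open sets

`LowIn Lam` : the lower bound for the symmetric elements modulo the order (`exists_low_loc`).
`low_sym`, `low_open` : the mass of the symmetric elements, and of the unitary elements, whose image
in `E` lies in a given open set is at least `c / (x - 1)`.
-/

set_option autoImplicit false
set_option linter.unusedSectionVars false

open MeasureTheory Filter Topology Set Module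
open scoped ENNReal NNReal Pointwise

namespace Vale.Agent.P011.H973

open Vale.Agent.P011.H544 Vale.Agent.P011.H380.UpBC Vale.Agent.P011.H380.UnitsTop

section Alg

variable {E : Type*} [Ring E]

theorem den_add_le {Λ : Subring E} {s v : E} (hs : H699.den Λ s ≠ 0) (hv : H699.den Λ v ≠ 0) :
    H699.den Λ (s + v) ≤ H699.den Λ s * H699.den Λ v := by
  have h0 : (H699.colon Λ s ⊓ H699.colon Λ v).relIndex Λ.toAddSubgroup ≠ 0 :=
    AddSubgroup.relIndex_inf_ne_zero hs hv
  refine (AddSubgroup.relIndex_le_of_le_left ?_ h0).trans AddSubgroup.relIndex_inf_le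
  rintro x ⟨h1, h2⟩
  refine ⟨h1.1, ?_⟩
  rw [add_mul]
  exact Λ.add_mem h1.2 h2.2

variable [TopologicalSpace E] [IsTopologicalRing E] [T2Space E] [LocallyCompactSpace E]
  [MeasurableSpace E] [BorelSpace E] {Λ : Subring E}

/-- the denominator of the Cayley transform, inequality, no unit hypothesis -/
theorem den_cay_le (hΛ : H699.LRing Λ) {s w θ θ' h : E} (hθ : θ ∈ Λ) (hθ' : θ' ∈ Λ)
    (hs : H699.den Λ s ≠ 0) (d : Eˣ) (hd : (d : E) = s - θ) (hw : w * (s - θ) = s - θ')
    (hh : h ∈ Λ) (hu : IsUnit h) (h1 : ((d⁻¹ : Eˣ) : E) * h ∈ Λ)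
    (h2 : s * (((d⁻¹ : Eˣ) : E) * h) ∈ Λ) :
    (H699.den Λ w : ℝ≥0) ≤ H699.den Λ s * distribHaarChar E d := by
  set J : AddSubgroup E := (H699.colon Λ s).map (AddMonoidHom.mulLeft (d : E)) with hJ
  have hmem : ∀ x ∈ H699.colon Λ s, (d : E) * x ∈ J := fun x hx => ⟨x, hx, rfl⟩
  have hdx : ∀ x, (d : E) * x = s * x - θ * x := by
    intro x
    rw [hd, sub_mul]
  have hJΛ : J ≤ Λ.toAddSubgroup := by
    rintro _ ⟨x, hx, rfl⟩
    show (d : E) * x ∈ Λ
    rw [hdx]
    exact Λ.sub_mem hx.2 (Λ.mul_mem hθ hx.1)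
  have hJfin : J.relIndex Λ.toAddSubgroup ≠ 0 := by
    refine H699.finite_mul_index hΛ hh hu fun x hx => ?_
    have e1 : h * x = (d : E) * (((d⁻¹ : Eˣ) : E) * h * x) := by
      rw [mul_assoc, ← mul_assoc (d : E), Units.mul_inv, one_mul]
    rw [e1]
    refine hmem _ ⟨Λ.mul_mem h1 hx, ?_⟩
    rw [← mul_assoc]
    exact Λ.mul_mem h2 hx
  have hJw : J ≤ H699.colon Λ w := by
    rintro _ ⟨x, hx, rfl⟩
    refine ⟨hJΛ ⟨x, hx, rfl⟩, ?_⟩
    show w * ((d : E) * x) ∈ Λ
    rw [hd, ← mul_assoc, hw, sub_mul]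
    exact Λ.sub_mem hx.2 (Λ.mul_mem hθ' hx.1)
  have h3 := (H699.index_mul_mod hΛ.latt (H699.colon_le Λ s) hJΛ hs d (fun x => ⟨hmem x, by
    rintro ⟨y, hy, hyx⟩
    have : y = x := by
      have := congrArg (fun z => ((d⁻¹ : Eˣ) : E) * z) hyx
      simpa using this
    exact this ▸ hy⟩) (fun y hy => hy)).2 hJfin
  have h4 := AddSubgroup.relIndex_le_of_le_left hJw hJfin
  calc (H699.den Λ w : ℝ≥0) ≤ (J.relIndex Λ.toAddSubgroup : ℝ≥0) := by exact_mod_cast h4
    _ = _ := h3

/-- the module is bounded on compact sets -/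
theorem mod_le {K : Set E} (hK : IsCompact K) :
    ∃ C : ℝ≥0, ∀ d : Eˣ, (d : E) ∈ K → distribHaarChar E d ≤ C := by
  obtain ⟨W, hW, hWn⟩ := exists_compact_mem_nhds (0 : E)
  set μ : Measure E := Measure.addHaar with hμ
  have hW0 : μ W ≠ 0 := (Measure.measure_pos_of_mem_nhds μ hWn).ne'
  have hWt : μ W ≠ ⊤ := hW.measure_lt_top.ne
  have hKW : μ (K * W) ≠ ⊤ := (hK.mul hW).measure_lt_top.ne
  refine ⟨(μ (K * W) / μ W).toNNReal, fun d hd => ?_⟩
  have h1 := distribHaarChar_mul μ d W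
  have h2 : d • W ⊆ K * W := by
    rintro _ ⟨x, hx, rfl⟩
    exact ⟨d, hd, x, hx, rfl⟩
  have h3 : (distribHaarChar E d : ℝ≥0∞) ≤ μ (K * W) / μ W := by
    rw [ENNReal.le_div_iff_mul_le (Or.inl hW0) (Or.inl hWt), h1]
    exact measure_mono h2
  have h4 : μ (K * W) / μ W ≠ ⊤ := ENNReal.div_ne_top hKW hW0
  rw [← ENNReal.coe_le_coe, ENNReal.coe_toNNReal h4]
  exact h3

end Alg

/-- the lower bound for the symmetric elements modulo the order -/
def LowIn {A : Type*} [Ring A] [StarRing A] (Lam : Subring A) : Prop :=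
  ∃ c : ℝ, 0 < c ∧ ∀ᶠ x : ℝ in 𝓝[>] 1, ∃ F : Finset A, (∀ s ∈ F, star s = s) ∧
    (∀ s ∈ F, ∀ t ∈ F, s - t ∈ Lam → s = t) ∧
    c / (x - 1) ≤ ∑ s ∈ F, (H699.den Lam s : ℝ) ^ (-x)

section Main

variable {k R A E ι : Type*} [Field k] [CommRing R] [TopologicalSpace R] [IsTopologicalRing R]
  [Algebra k R] [DivisionRing A] [StarRing A] [Algebra k A] [StarLin k A] [Ring E] [StarRing E]
  [TopologicalSpace E] [IsTopologicalRing E] [Algebra R E] [Fintype ι] [DecidableEq ι]
  (B : BC k R A E ι)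

/-- the image of `A` is dense -/
theorem dense_j (hd : DenseRange (algebraMap k R)) : DenseRange B.j := by
  have h1 : DenseRange fun c : ι → k => fun i => algebraMap k R (c i) := by
    exact DenseRange.piMap fun _ => hd
  have h2 : DenseRange fun c : ι → k => B.φ.symm (fun i => algebraMap k R (c i)) :=
    B.φ.symm.surjective.denseRange.comp h1 B.φ.symm.continuous
  refine h2.mono ?_
  rintro _ ⟨c, rfl⟩
  refine ⟨∑ i, c i • B.a i, ?_⟩
  apply B.φ.injective
  funext i
  rw [B.φ_eq, ContinuousLinearEquiv.apply_symm_apply]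
  congr 1
  simp [Finsupp.single_apply]

open Vale.Agent.P011.H380.SymBC in
/-- the retraction of `E` to the symmetric elements -/
noncomputable def rho (w0 : A) (x : E) : E := x - B.j (w0 * einv w0) * (x - star x)

open Vale.Agent.P011.H380.SymBC in
theorem rho_j (w0 : A) (x : A) : rho B w0 (B.j x) = B.j (retr k w0 x) := by
  rw [rho, retr_apply, ← B.j_star, ← map_sub, ← map_mul, ← map_sub, mul_assoc]

theorem rho_sym (w0 : A) {x : E} (hx : star x = x) : rho B w0 x = x := by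
  rw [rho, hx, sub_self, mul_zero, sub_zero]

theorem continuous_rho (w0 : A) : Continuous (rho B w0) := by
  have := B.continuousStar
  unfold rho
  fun_prop

open Vale.Agent.P011.H380.SymBC in
theorem sym_dense (hd : DenseRange (algebraMap k R)) {w0 : A} (hw : ∀ x, w0 * x = x * w0)
    (hne : w0 ≠ star w0) {V : Set E} (hV : IsOpen V) {e : E} (he : star e = e) (heV : e ∈ V) :
    ∃ v : A, star v = v ∧ B.j v ∈ V := by
  have h1 : IsOpen (rho B w0 ⁻¹' V) := hV.preimage (continuous_rho B w0)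
  obtain ⟨a, ha⟩ := (dense_j B hd).exists_mem_open h1 ⟨e, by
    rw [mem_preimage, rho_sym B w0 he]
    exact heV⟩
  refine ⟨retr k w0 a, star_retr hw hne a, ?_⟩
  rw [← rho_j]
  exact ha

section lat

variable [Nontrivial R] {O : Subring k}
  (hOd : ∀ K : Set R, IsCompact K → {c : k | c ∈ O ∧ algebraMap k R c ∈ K}.Finite)
  (hOc : ∃ K : Set R, IsCompact K ∧ ∀ r : R, ∃ c ∈ O, r - algebraMap k R c ∈ K)
  (hO : ∀ x : k, ∃ d ∈ O, d ≠ 0 ∧ d * x ∈ O)
  {Lam : Subring A} (H : IsOrd B.a O Lam)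

include hOd hOc hO H

open Vale.Agent.P011.H380.SymBC in
/-- the symmetric elements modulo the symmetric elements of the order are bounded -/
theorem sym_coc {w0 : A} (hw : ∀ x, w0 * x = x * w0) (hne : w0 ≠ star w0) :
    ∃ C0 : Set E, IsCompact C0 ∧ ∀ s : A, star s = s → ∃ l ∈ Lam, star l = l ∧ B.j (s - l) ∈ C0 := by
  obtain ⟨K, hK, hcov⟩ := (B.lat hOd hOc H).coc
  set q : A := w0 * einv w0 with hq
  have hqc : ∀ x, q * x = x * q := by
    intro x
    rw [hq, mul_assoc, einv_comm hw, ← mul_assoc, hw, mul_assoc]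
  obtain ⟨h1, hh1, h10, hqh1⟩ := exists_mul_mem B hO H q
  set h : A := h1 * star h1 with hh
  have hstar1 : star h1 ∈ Lam := H.star_mem _ hh1
  have hhL : h ∈ Lam := Lam.mul_mem hh1 hstar1
  have hh0 : h ≠ 0 := mul_ne_zero h10 (by rwa [Ne, star_eq_zero])
  have hhs : star h = h := by rw [hh, star_mul, star_star]
  have hqh : q * h ∈ Lam := by
    rw [hh, ← mul_assoc]
    exact Lam.mul_mem hqh1 hstar1
  refine ⟨rho B w0 '' ((fun c => B.j h * c) '' K), (hK.image (by fun_prop)).image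
    (continuous_rho B w0), fun s hs => ?_⟩
  obtain ⟨_, ⟨l, hl, rfl⟩, hlK⟩ := hcov (B.j (h⁻¹ * s))
  refine ⟨retr k w0 (h * l), ?_, star_retr hw hne _, ?_⟩
  · have e2 : q * (star l * h) = star l * (q * h) := by
      rw [← mul_assoc, hqc, mul_assoc]
    have e1 : retr k w0 (h * l) = h * l - (q * h * l - star l * (q * h)) := by
      rw [retr_apply, ← mul_assoc w0, ← hq, star_mul, hhs, mul_sub, e2, mul_assoc q h l]
    rw [e1]
    exact Lam.sub_mem (Lam.mul_mem hhL hl) (Lam.sub_mem (Lam.mul_mem hqh hl)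
      (Lam.mul_mem (H.star_mem _ hl) hqh))
  · refine ⟨B.j (s - h * l), ⟨B.j (h⁻¹ * s) - B.j l, hlK, ?_⟩, ?_⟩
    · simp only
      rw [← map_sub, ← map_mul, mul_sub, ← mul_assoc, mul_inv_cancel₀ hh0, one_mul]
    · rw [rho_j, map_sub, retr_of_sym hs]

variable [Countable Lam]

/-- **Lower bound for the symmetric elements in an open set.** -/
theorem low_sym [T2Space R] (hd : DenseRange (algebraMap k R)) {w0 : A}
    (hw : ∀ x, w0 * x = x * w0)
    (hne : w0 ≠ star w0) (hlow : LowIn Lam) {V : Set E} (hV : IsOpen V) {e : E}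
    (he : star e = e) (heV : e ∈ V) :
    ∃ c : ℝ, 0 < c ∧ ∀ᶠ x : ℝ in 𝓝[>] 1, ∃ F : Finset A, (∀ s ∈ F, star s = s ∧ B.j s ∈ V) ∧
      c / (x - 1) ≤ ∑ s ∈ F, (H699.den Lam s : ℝ) ^ (-x) := by
  classical
  have hden : ∀ s : A, H699.den Lam s ≠ 0 := den_ne_zero B hOd hOc hO H
  have hcs := B.continuousStar
  have ht2 := B.t2
  obtain ⟨C0, hC0, hcov⟩ := sym_coc B hOd hOc hO H hw hne
  obtain ⟨c, hc, hev⟩ := hlow
  -- cover by translates of `V`
  have hC1 : IsCompact (C0 ∩ {z | star z = z}) :=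
    hC0.inter_right (isClosed_eq continuous_star continuous_id)
  obtain ⟨t, ht⟩ := hC1.elim_finite_subcover (fun v : {v : A // star v = v} => {z | z - B.j v ∈ V})
    (fun v => hV.preimage (by fun_prop)) (by
      rintro z ⟨-, hz⟩
      have hz' : star z = z := hz
      have h1 : IsOpen {y : E | z - y ∈ V} := hV.preimage (by fun_prop)
      obtain ⟨v, hv, hvV⟩ := sym_dense B hd hw hne h1 (e := z - e) (by rw [star_sub, hz', he]) (by
        show z - (z - e) ∈ V
        rwa [sub_sub_cancel])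
      exact mem_iUnion.2 ⟨⟨v, hv⟩, hvV⟩)
  have hch : ∀ s : A, star s = s → ∃ v ∈ t, ∃ l ∈ Lam, star l = l ∧ B.j (s - l - (v : A)) ∈ V := by
    intro s hs
    obtain ⟨l, hl, hls, hlC⟩ := hcov s hs
    have h1 : B.j (s - l) ∈ C0 ∩ {z | star z = z} := ⟨hlC, by
      show star (B.j (s - l)) = B.j (s - l)
      rw [← B.j_star, star_sub, hs, hls]⟩
    obtain ⟨v, hv⟩ := mem_iUnion.1 (ht h1)
    obtain ⟨hvt, hv2⟩ := mem_iUnion.1 hv
    refine ⟨v, hvt, l, hl, hls, ?_⟩
    rw [map_sub]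
    exact hv2
  have hne' : Nonempty {v : A // star v = v} := ⟨⟨0, star_zero A⟩⟩
  choose! vf hvf lf hlf hlfs hV' using hch
  set M : ℕ := ∏ v ∈ t, H699.den Lam (-(v : A)) with hM
  have hM0 : 1 ≤ M := Nat.one_le_iff_ne_zero.2 (Finset.prod_ne_zero_iff.2 fun v _ => hden _)
  have hMv : ∀ v ∈ t, H699.den Lam (-(v : A)) ≤ M := fun v hv =>
    Nat.le_of_dvd hM0 (Finset.dvd_prod_of_mem _ hv)
  set g : A → A := fun s => s - lf s - (vf s : A) with hg
  have hgden : ∀ s, star s = s → H699.den Lam (g s) ≤ H699.den Lam s * M := by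
    intro s hs
    have h1 : H699.den Lam (s - lf s) = H699.den Lam s := by
      rw [sub_eq_add_neg]
      exact H699.den_add (Lam.neg_mem (hlf s hs)) s
    calc H699.den Lam (g s) = H699.den Lam (s - lf s + -(vf s : A)) := by
          simp only [hg, sub_eq_add_neg]
      _ ≤ H699.den Lam (s - lf s) * H699.den Lam (-(vf s : A)) := den_add_le (hden _) (hden _)
      _ ≤ H699.den Lam s * M := by
        rw [h1]
        exact Nat.mul_le_mul_left _ (hMv _ (hvf s hs))
  have hMr : (1 : ℝ) ≤ M := by exact_mod_cast hM0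
  refine ⟨c / ((t.card + 1) * (M : ℝ) ^ 2), by positivity, ?_⟩
  have h12 : Set.Ioc (1 : ℝ) 2 ∈ 𝓝[>] (1 : ℝ) := Ioc_mem_nhdsGT (by norm_num)
  filter_upwards [hev, h12] with x hx hx12
  obtain ⟨F0, hF1, hF2, hF3⟩ := hx
  have hx1 : 0 < x - 1 := sub_pos.2 hx12.1
  set a : A → ℝ := fun s => (H699.den Lam s : ℝ) ^ (-x) with ha
  have ha0 : ∀ s, 0 ≤ a s := fun s => by rw [ha]; positivity
  -- pigeonhole
  have hmaps : ∀ s ∈ F0, vf s ∈ t := fun s hs => hvf s (hF1 s hs)
  obtain ⟨v, hv⟩ : ∃ v, c / (x - 1) ≤ (t.card + 1) * ∑ s ∈ F0 with vf s = v, a s := by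
    by_contra hcon
    push Not at hcon
    have h1 : ∑ s ∈ F0, a s = ∑ v ∈ t, ∑ s ∈ F0 with vf s = v, a s :=
      (Finset.sum_fiberwise_of_maps_to hmaps a).symm
    have h2 : ∑ v ∈ t, ∑ s ∈ F0 with vf s = v, a s ≤ ∑ v ∈ t, c / (x - 1) / (t.card + 1) := by
      refine Finset.sum_le_sum fun v _ => ?_
      rw [le_div_iff₀ (by positivity), mul_comm]
      exact (hcon v).le
    rw [Finset.sum_const, nsmul_eq_mul] at h2
    have h3 : 0 < c / (x - 1) := div_pos hc hx1
    have h4 : (t.card : ℝ) * (c / (x - 1) / (t.card + 1)) < c / (x - 1) := by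
      rw [mul_div_assoc', div_lt_iff₀ (by positivity)]
      nlinarith
    linarith
  have hginj : Set.InjOn g (F0.filter fun s => vf s = v) := by
    intro s hs s' hs' h
    rw [Finset.mem_coe, Finset.mem_filter] at hs hs'
    refine hF2 s hs.1 s' hs'.1 ?_
    have h1 : s - s' = lf s - lf s' := by
      have h2 : s - lf s - (vf s : A) = s' - lf s' - (vf s' : A) := h
      rw [hs.2, hs'.2] at h2
      have h3 : s - lf s = s' - lf s' := sub_left_injective h2
      rw [sub_eq_sub_iff_add_eq_add] at h3 ⊢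
      rw [h3, add_comm]
    rw [h1]
    exact Lam.sub_mem (hlf s (hF1 s hs.1)) (hlf s' (hF1 s' hs'.1))
  refine ⟨(F0.filter fun s => vf s = v).image g, ?_, ?_⟩
  · intro y hy
    obtain ⟨s, hs, rfl⟩ := Finset.mem_image.1 hy
    have hs1 := hF1 s (Finset.mem_filter.1 hs).1
    refine ⟨?_, hV' s hs1⟩
    rw [hg]
    simp only
    rw [star_sub, star_sub, hs1, hlfs s hs1, (vf s).2]
  · rw [Finset.sum_image hginj]
    have h1 : (M : ℝ) ^ (-2 : ℝ) * ∑ s ∈ F0 with vf s = v, a s ≤
        ∑ s ∈ F0 with vf s = v, (H699.den Lam (g s) : ℝ) ^ (-x) := by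
      rw [Finset.mul_sum]
      refine Finset.sum_le_sum fun s hs => ?_
      have hs1 := hF1 s (Finset.mem_filter.1 hs).1
      have h2 : (H699.den Lam (g s) : ℝ) ≤ M * H699.den Lam s := by
        have := hgden s hs1
        rw [mul_comm] at this
        exact_mod_cast this
      have h3 : (0 : ℝ) < H699.den Lam (g s) := by
        exact_mod_cast Nat.pos_of_ne_zero (hden _)
      calc (M : ℝ) ^ (-2 : ℝ) * a s ≤ (M : ℝ) ^ (-x) * a s := by
            refine mul_le_mul_of_nonneg_right ?_ (ha0 s)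
            exact Real.rpow_le_rpow_of_exponent_le hMr (by linarith [hx12.2])
        _ = (M * H699.den Lam s : ℝ) ^ (-x) := by
            rw [Real.mul_rpow (by positivity) (by positivity)]
        _ ≤ _ := Real.rpow_le_rpow_of_nonpos h3 h2 (by linarith [hx12.1])
    refine le_trans ?_ h1
    have h4 : (M : ℝ) ^ (-2 : ℝ) = ((M : ℝ) ^ 2)⁻¹ := by
      rw [Real.rpow_neg (by positivity)]
      norm_num
    rw [h4, div_div, mul_comm ((t.card + 1 : ℝ) * (M : ℝ) ^ 2), ← div_div]
    rw [div_le_iff₀ (by positivity)]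
    calc c / (x - 1) ≤ (t.card + 1) * ∑ s ∈ F0 with vf s = v, a s := hv
      _ = _ := by
        field_simp

omit [Nontrivial R] [Countable Lam] in
theorem exists_smul_mem' [Nontrivial R] (a : A) : ∃ m : k, m ≠ 0 ∧ m • a ∈ Lam := by
  classical
  obtain ⟨d, hd, hlo⟩ := H.lo
  obtain ⟨m, hm0, hm⟩ : ∃ m : k, m ≠ 0 ∧ ∀ i, m * B.a.repr a i ∈ O := by
    choose f hf hf0 hfm using fun i => hO (B.a.repr a i)
    refine ⟨∏ i, f i, Finset.prod_ne_zero_iff.2 fun i _ => hf0 i, fun i => ?_⟩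
    rw [← Finset.mul_prod_erase _ _ (Finset.mem_univ i), mul_comm (f i), mul_assoc]
    exact O.mul_mem (O.prod_mem fun j _ => hf j) (hfm i)
  refine ⟨d * m, mul_ne_zero hd hm0, ?_⟩
  have h1 := hlo (fun i => m * B.a.repr a i) hm
  have h2 : ∑ i, (d * (m * B.a.repr a i)) • B.a i = (d * m) • a := by
    conv_rhs => rw [← B.a.sum_repr a]
    rw [Finset.smul_sum]
    refine Finset.sum_congr rfl fun i _ => ?_
    rw [smul_smul, mul_assoc]
  rwa [h2] at h1

/-- **Lower bound for the unitary elements in an open set.** -/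
theorem low_open [T2Space R] [LocallyCompactSpace R] (hRu : GoodUnits R)
    (hd : DenseRange (algebraMap k R)) {w0 : A} (hw : ∀ x, w0 * x = x * w0)
    (hne : w0 ≠ star w0) (hlow : LowIn Lam) {x0 : A} (hx0 : x0 * star x0 = 1) (hx01 : x0 ≠ 1)
    {V : Set E} (hV : IsOpen V) (hxV : B.j x0 ∈ V) :
    ∃ c : ℝ, 0 < c ∧ ∀ᶠ x : ℝ in 𝓝[>] 1, ∃ F : Finset A,
      (∀ y ∈ F, star y * y = 1 ∧ y * star y = 1 ∧ B.j y ∈ V) ∧
      c ≤ ∑ y ∈ F, (x - 1) * (H699.den Lam y : ℝ) ^ (-x) := by
  classical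
  have hden : ∀ s : A, H699.den Lam s ≠ 0 := den_ne_zero B hOd hOc hO H
  have hcs := B.continuousStar
  have ht2 := B.t2
  have hlc := B.locallyCompact
  let : MeasurableSpace E := borel E
  have : BorelSpace E := ⟨rfl⟩
  have hEu : GoodUnits E := GoodUnits.algebra B.φ hRu
  -- the parameter
  obtain ⟨m, hm0, hmw⟩ := exists_smul_mem' B hOd hOc hO H w0
  set θ : A := m • w0 with hθ
  have hθc : ∀ x, θ * x = x * θ := by
    intro x
    rw [hθ, smul_mul_assoc, hw, mul_smul_comm]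
  have hθs : star θ = m • star w0 := by rw [hθ, StarLin.star_smul']
  have hθne : θ - star θ ≠ 0 := by
    rw [hθs, hθ, ← smul_sub]
    exact smul_ne_zero hm0 (sub_ne_zero.2 hne)
  have hθ'c : ∀ x, star θ * x = x * star θ := by
    intro x
    have h := congrArg star (hθc (star x))
    rw [star_mul, star_mul, star_star] at h
    exact h.symm
  have hθ'L : star θ ∈ Lam := H.star_mem _ hmw
  -- the Cayley transform
  set cay : A → A := fun s => (s - star θ) * (s - θ)⁻¹ with hcay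
  have hcom : ∀ s : A, Commute (s - star θ) (s - θ) := by
    intro s
    show (s - star θ) * (s - θ) = (s - θ) * (s - star θ)
    have e1 := hθc s
    have e2 := hθ'c s
    have e3 := hθc (star θ)
    calc (s - star θ) * (s - θ) = s * s - s * θ - star θ * s + star θ * θ := by noncomm_ring
      _ = s * s - θ * s - s * star θ + θ * star θ := by rw [e1, e2, e3]
      _ = (s - θ) * (s - star θ) := by noncomm_ring
  have hunit : ∀ s : A, star s = s → s - θ ≠ 0 := by
    intro s hs h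
    rw [sub_eq_zero] at h
    apply hθne
    rw [← h, hs, sub_self]
  have hunit' : ∀ s : A, star s = s → s - star θ ≠ 0 := by
    intro s hs h
    rw [sub_eq_zero] at h
    apply hθne
    have h1 := congrArg star h
    rw [hs, star_star] at h1
    rw [← h1, hs, sub_self]
  have hcayU : ∀ s : A, star s = s → cay s * star (cay s) = 1 := by
    intro s hs
    have h1 : star (cay s) = (s - star θ)⁻¹ * (s - θ) := by
      rw [hcay]
      simp only
      rw [star_mul, star_inv₀, star_sub, star_sub, star_star, hs]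
    have h2 : Commute (s - θ)⁻¹ (s - star θ)⁻¹ :=
      ((show Commute (s - θ) (s - star θ) from (hcom s).symm).inv_left₀).inv_right₀
    rw [h1, hcay]
    simp only
    rw [mul_assoc, ← mul_assoc (s - θ)⁻¹, h2.eq, mul_assoc (s - star θ)⁻¹,
      inv_mul_cancel₀ (hunit s hs), mul_one, mul_inv_cancel₀ (hunit' s hs)]
  have hcayi : ∀ s s' : A, star s = s → star s' = s' → cay s = cay s' → s = s' := by
    intro s s' hs hs' h
    have h1 : ∀ s : A, star s = s → (cay s - 1) * (s - θ) = θ - star θ := by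
      intro s hs
      rw [hcay]
      simp only
      rw [sub_mul, mul_assoc, inv_mul_cancel₀ (hunit s hs), mul_one, one_mul]
      abel
    have h2 := h1 s hs
    have h3 := h1 s' hs'
    have h4 : cay s - 1 ≠ 0 := by
      intro h0
      rw [h0, zero_mul] at h2
      exact hθne h2.symm
    rw [h, ← h3] at h2
    rw [h] at h4
    have h5 := mul_left_cancel₀ h4 h2
    exact sub_left_injective h5
  -- the point
  have hx1 : x0 - 1 ≠ 0 := sub_ne_zero.2 hx01
  obtain ⟨s0, hs0⟩ : ∃ s0 : A, s0 = (x0 - 1)⁻¹ * (x0 * θ - star θ) := ⟨_, rfl⟩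
  have hs0e : (x0 - 1) * s0 = x0 * θ - star θ := by
    rw [hs0, ← mul_assoc, mul_inv_cancel₀ hx1, one_mul]
  have hs0s : star s0 = s0 := by
    have hxx : star x0 * x0 = 1 := mul_eq_one_comm.1 hx0
    have h1 : star s0 * (star x0 - 1) = star θ * star x0 - θ := by
      have := congrArg star hs0e
      rwa [star_mul, star_sub, star_sub, star_one, star_mul, star_star] at this
    have h2 : star s0 * (1 - x0) = star θ - θ * x0 := by
      have := congrArg (fun z => z * x0) h1
      simp only [sub_mul, mul_sub, mul_assoc, hxx, mul_one] at this ⊢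
      exact this
    have h3 : s0 * (1 - x0) = star θ - θ * x0 := by
      have hc : Commute x0 s0 := by
        rw [hs0]
        refine Commute.mul_right ?_ ?_
        · exact ((Commute.refl x0).sub_right (Commute.one_right x0)).inv_right₀
        · refine (Commute.sub_right ?_ ?_)
          · exact (Commute.refl x0).mul_right (show x0 * θ = θ * x0 from (hθc x0).symm)
          · exact (show x0 * star θ = star θ * x0 from (hθ'c x0).symm)
      have h4 : s0 * (1 - x0) = -((x0 - 1) * s0) := by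
        rw [mul_sub, sub_mul, mul_one, one_mul, ← hc.eq]
        abel
      rw [h4, hs0e, hθc]
      abel
    have h5 : (1 : A) - x0 ≠ 0 := by
      rw [← neg_sub]
      exact neg_ne_zero.2 hx1
    exact mul_right_cancel₀ h5 (h2.trans h3.symm)
  have hcay0 : cay s0 = x0 := by
    have h1 : x0 * (s0 - θ) = s0 - star θ := by
      have : (x0 - 1) * s0 = x0 * θ - star θ := hs0e
      rw [sub_mul, one_mul] at this
      rw [mul_sub, sub_eq_sub_iff_add_eq_add]
      rw [sub_eq_sub_iff_add_eq_add] at this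
      rw [this]
      abel
    rw [hcay]
    simp only
    rw [← h1, mul_assoc, mul_inv_cancel₀ (hunit s0 hs0s), mul_one]
  -- the neighbourhood
  set Φ : E → E := fun z => (z - B.j (star θ)) * Ring.inverse (z - B.j θ) with hΦ
  have hjinv : ∀ u : A, u ≠ 0 → Ring.inverse (B.j u) = B.j u⁻¹ := by
    intro u hu
    exact inverse_eq (by rw [← map_mul, mul_inv_cancel₀ hu, map_one])
      (by rw [← map_mul, inv_mul_cancel₀ hu, map_one])
  have hΦj : ∀ s : A, star s = s → Φ (B.j s) = B.j (cay s) := by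
    intro s hs
    rw [hΦ, hcay]
    simp only
    rw [← map_sub, ← map_sub, hjinv _ (hunit s hs), map_mul]
  have hju : ∀ s : A, star s = s → IsUnit (B.j s - B.j θ) := by
    intro s hs
    rw [← map_sub]
    exact (IsUnit.mk0 _ (hunit s hs)).map B.j
  have hΦc : ContinuousAt Φ (B.j s0) := by
    have h1 : ContinuousAt Ring.inverse (B.j s0 - B.j θ) :=
      hEu.inv.continuousAt (hEu.isOpen.mem_nhds (hju s0 hs0s))
    have h2 : ContinuousAt (fun z : E => z - B.j θ) (B.j s0) := by fun_prop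
    have h3 : ContinuousAt (fun z : E => Ring.inverse (z - B.j θ)) (B.j s0) :=
      ContinuousAt.comp (g := Ring.inverse) (f := fun z : E => z - B.j θ) h1 h2
    exact ContinuousAt.mul (by fun_prop) h3
  obtain ⟨K, hK, hKn⟩ := exists_compact_mem_nhds (B.j s0 - B.j θ)
  obtain ⟨C, hC⟩ := mod_le hK
  have hV1 : Φ ⁻¹' V ∩ (fun z => z - B.j θ) ⁻¹' K ∈ 𝓝 (B.j s0) := by
    refine inter_mem (hΦc (hV.mem_nhds ?_)) ?_
    · rw [hΦj s0 hs0s, hcay0]
      exact hxV
    · exact (by fun_prop : Continuous fun z : E => z - B.j θ).continuousAt hKn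
  obtain ⟨c, hc, hev⟩ := low_sym B hOd hOc hO H hd hw hne hlow (V := interior
    (Φ ⁻¹' V ∩ (fun z => z - B.j θ) ⁻¹' K)) isOpen_interior (e := B.j s0)
    (by rw [← B.j_star, hs0s]) (mem_interior_iff_mem_nhds.2 hV1)
  set C' : ℝ := max C 1 with hC'
  have hC'1 : 1 ≤ C' := le_max_right _ _
  have hdencay : ∀ s : A, star s = s → B.j s - B.j θ ∈ K →
      (H699.den Lam (cay s) : ℝ) ≤ C' * H699.den Lam s := by
    intro s hs hsK
    obtain ⟨h1, hh1, hh10, hh1'⟩ := exists_mul_mem B hO H (s - θ)⁻¹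
    obtain ⟨h2, hh2, hh20, hh2'⟩ := exists_mul_mem B hO H (s * ((s - θ)⁻¹ * h1))
    have hΛ := lring B hOd hOc H
    let d : Eˣ := Units.map (B.j : A →* E) (Units.mk0 _ (hunit s hs))
    have hdv : (d : E) = B.j s - B.j θ := by rw [← map_sub]; rfl
    have hdi : ((d⁻¹ : Eˣ) : E) = B.j (s - θ)⁻¹ := rfl
    have h3 := den_cay_le hΛ (s := B.j s) (w := B.j (cay s)) (θ := B.j θ) (θ' := B.j (star θ))
      (h := B.j (h1 * h2)) ⟨θ, hmw, rfl⟩ ⟨star θ, hθ'L, rfl⟩
      (by rw [H699.den_map B.j B.j_inj]; exact hden s) d hdv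
      (by
        rw [← map_sub, ← map_sub, ← map_mul, hcay]
        simp only
        rw [mul_assoc, inv_mul_cancel₀ (hunit s hs), mul_one])
      ⟨h1 * h2, Lam.mul_mem hh1 hh2, rfl⟩ ((IsUnit.mk0 _ (mul_ne_zero hh10 hh20)).map B.j)
      (by
        rw [hdi, ← map_mul, ← mul_assoc]
        exact ⟨_, Lam.mul_mem hh1' hh2, rfl⟩)
      (by
        rw [hdi, ← map_mul, ← map_mul, ← mul_assoc _ h1 h2, ← mul_assoc s]
        exact ⟨_, hh2', rfl⟩)
    rw [H699.den_map B.j B.j_inj, H699.den_map B.j B.j_inj] at h3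
    have h4 : distribHaarChar E d ≤ C := hC d (by rw [hdv]; exact hsK)
    have h5 : (H699.den Lam (cay s) : ℝ≥0) ≤ H699.den Lam s * C :=
      h3.trans (mul_le_mul_right h4 _)
    have h6 : (H699.den Lam (cay s) : ℝ) ≤ H699.den Lam s * (C : ℝ) := by
      exact_mod_cast h5
    refine h6.trans ?_
    rw [mul_comm]
    exact mul_le_mul_of_nonneg_right (le_max_left _ _) (Nat.cast_nonneg _)
  refine ⟨c / C' ^ 2, by positivity, ?_⟩
  have h12 : Set.Ioc (1 : ℝ) 2 ∈ 𝓝[>] (1 : ℝ) := Ioc_mem_nhdsGT (by norm_num)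
  filter_upwards [hev, h12] with x hx hx12
  obtain ⟨F, hF1, hF2⟩ := hx
  have hx1 : 0 < x - 1 := sub_pos.2 hx12.1
  refine ⟨F.image cay, ?_, ?_⟩
  · intro y hy
    obtain ⟨s, hs, rfl⟩ := Finset.mem_image.1 hy
    obtain ⟨hs1, hs2⟩ := hF1 s hs
    have h1 := interior_subset hs2
    refine ⟨mul_eq_one_comm.1 (hcayU s hs1), hcayU s hs1, ?_⟩
    rw [← hΦj s hs1]
    exact h1.1
  · rw [Finset.sum_image fun s hs s' hs' h => hcayi s s' (hF1 s hs).1 (hF1 s' hs').1 h,
      ← Finset.mul_sum]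
    have h1 : C' ^ (-2 : ℝ) * ∑ s ∈ F, (H699.den Lam s : ℝ) ^ (-x) ≤
        ∑ s ∈ F, (H699.den Lam (cay s) : ℝ) ^ (-x) := by
      rw [Finset.mul_sum]
      refine Finset.sum_le_sum fun s hs => ?_
      obtain ⟨hs1, hs2⟩ := hF1 s hs
      have h2 := hdencay s hs1 (interior_subset hs2).2
      have h3 : (0 : ℝ) < H699.den Lam (cay s) := by
        exact_mod_cast Nat.pos_of_ne_zero (hden _)
      calc C' ^ (-2 : ℝ) * (H699.den Lam s : ℝ) ^ (-x) ≤ C' ^ (-x) * (H699.den Lam s : ℝ) ^ (-x) := by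
            refine mul_le_mul_of_nonneg_right ?_ (by positivity)
            exact Real.rpow_le_rpow_of_exponent_le hC'1 (by linarith [hx12.2])
        _ = (C' * H699.den Lam s : ℝ) ^ (-x) := by
            rw [Real.mul_rpow (by positivity) (by positivity)]
        _ ≤ _ := Real.rpow_le_rpow_of_nonpos h3 h2 (by linarith [hx12.1])
    have h4 : C' ^ (-2 : ℝ) = (C' ^ 2)⁻¹ := by
      rw [Real.rpow_neg (by positivity)]
      norm_num
    calc c / C' ^ 2 = (x - 1) * (C' ^ (-2 : ℝ) * (c / (x - 1))) := by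
          rw [h4]
          field_simp
      _ ≤ (x - 1) * (C' ^ (-2 : ℝ) * ∑ s ∈ F, (H699.den Lam s : ℝ) ^ (-x)) := by
          refine mul_le_mul_of_nonneg_left (mul_le_mul_of_nonneg_left hF2 (by positivity)) hx1.le
      _ ≤ _ := mul_le_mul_of_nonneg_left h1 hx1.le

end lat

end Main

end Vale.Agent.P011.H973
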