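import Vale.Agent.P011.H973.PlDiv

/-!
# Divisors of a global function field: product formula, classes and units
-/

namespace Vale.Agent.P011.H973.PF

open Vale.Agent.P011.H738 Vale.Agent.P011.H271

set_option linter.unusedSectionVars false

noncomputable section

variable {F : Type} [Field F] [GFF F]

theorem ml_one (v : Place F) {x : F} (hx : x ≠ 0) : ml v x = 0 ↔ v.abv x = 1 := by
  rw [ml_spec v hx, ← zpow_zero (qq v : ℝ)]
  exact (zpow_right_injective₀ (qq_pos v) (one_lt_qq' v).ne').eq_iff.symm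

theorem ml_mul (v : Place F) {x y : F} (hx : x ≠ 0) (hy : y ≠ 0) :
    ml v (x * y) = ml v x + ml v y := by
  refine ml_unique v (mul_ne_zero hx hy) ?_
  rw [map_mul, ml_spec v hx, ml_spec v hy, zpow_add₀ (qq_pos v).ne']

open Classical in
/-- the divisor of an element, with the sign of the absolute values -/
def lg (x : F) : Dv F := if hx : x = 0 then 0 else
  Finsupp.ofSupportFinite (fun v => ml v x) (by
    refine (place_finite hx).subset fun v hv => ?_
    intro h
    exact hv ((ml_one v hx).2 h))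

theorem lg_apply {x : F} (hx : x ≠ 0) (v : Place F) : lg x v = ml v x := by
  rw [lg, dif_neg hx]
  rfl

theorem abv_eq {x : F} (hx : x ≠ 0) (v : Place F) : v.abv x = (qq v : ℝ) ^ lg x v := by
  rw [lg_apply hx, ml_spec v hx]

theorem lg_mul {x y : F} (hx : x ≠ 0) (hy : y ≠ 0) : lg (x * y) = lg x + lg y := by
  ext v
  rw [Finsupp.add_apply, lg_apply hx, lg_apply hy, lg_apply (mul_ne_zero hx hy), ml_mul v hx hy]

theorem lg_one : lg (1 : F) = 0 := by
  have h : lg (1 * 1 : F) = lg 1 + lg 1 := lg_mul one_ne_zero one_ne_zero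
  rw [mul_one] at h
  exact left_eq_add.1 h

theorem lg_inv {x : F} (hx : x ≠ 0) : lg x⁻¹ = -lg x := by
  rw [eq_neg_iff_add_eq_zero, ← lg_mul (inv_ne_zero hx) hx, inv_mul_cancel₀ hx, lg_one]

theorem lg_apply_eq_zero {x : F} (hx : x ≠ 0) (v : Place F) : lg x v = 0 ↔ v.abv x = 1 := by
  rw [lg_apply hx, ml_one v hx]

theorem mem_LD_iff {x : F} (hx : x ≠ 0) {D : Dv F} : x ∈ LD D ↔ lg x ≤ D := by
  rw [mem_LD]
  refine forall_congr' fun v => ?_
  rw [abv_eq hx, zpow_le_zpow_iff_right₀ (one_lt_qq' v)]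

theorem mul_mem_LD {x : F} (hx : x ≠ 0) {D : Dv F} {y : F} :
    x * y ∈ LD (D + lg x) ↔ y ∈ LD D := by
  rw [mem_LD, mem_LD]
  refine forall_congr' fun v => ?_
  rw [map_mul, Finsupp.add_apply, zpow_add₀ (qq_pos v).ne', abv_eq hx,
    mul_comm ((qq v : ℝ) ^ D v)]
  exact mul_le_mul_iff_right₀ (zpow_pos (qq_pos v) _)

theorem cD_add_lg {x : F} (hx : x ≠ 0) (D : Dv F) : cD (D + lg x) = cD D := by
  refine (Nat.card_congr ?_).symm
  refine Equiv.subtypeEquiv (Equiv.mulLeft₀ x hx) fun y => ?_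
  exact (mul_mem_LD hx).symm

/-- **the product formula** -/
theorem nD_lg {x : F} (hx : x ≠ 0) : nD (lg x) = 1 := by
  obtain ⟨κ, hκ, D0, h1, -⟩ := riemann (F := F)
  set D : Dv F := D0 ⊔ (D0 - lg x)
  have h2 := h1 D le_sup_left
  have h3 := h1 (D + lg x) (by
    rw [← sub_le_iff_le_add]
    exact le_sup_right)
  rw [cD_add_lg hx, h2, nD_add] at h3
  have h4 : κ * nD D ≠ 0 := (mul_pos hκ (nD_pos D)).ne'
  have h5 : κ * nD D * 1 = κ * nD D * nD (lg x) := by rw [mul_one, mul_assoc]; exact h3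
  exact (mul_left_cancel₀ h4 h5).symm

/-- **the product formula**, as a product over the places -/
theorem prod_formula {x : F} (hx : x ≠ 0) : ∏ᶠ v : Place F, v.abv x = 1 := by
  rw [finprod_eq_prod_of_mulSupport_subset (s := (lg x).support)]
  · rw [← nD_lg hx, nD, Finsupp.prod]
    exact Finset.prod_congr rfl fun v _ => abv_eq hx v
  · intro v hv
    rw [Finset.mem_coe, Finsupp.mem_support_iff, Ne, lg_apply_eq_zero hx]
    exact hv

/-- **the theorem of Minkowski**: elements with a prescribed divisor up to a bounded one -/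
theorem mink (v0 : Place F) : ∃ C : ℝ, ∀ D : Dv F, ∃ (n : ℤ) (x : F) (E : Dv F), x ≠ 0 ∧ 0 ≤ E ∧
    nD E ≤ C ∧ lg x = D + Finsupp.single v0 n - E := by
  obtain ⟨κ, hκ, D0, -, h1⟩ := riemann (F := F)
  refine ⟨qq v0 / κ, fun D => ?_⟩
  obtain ⟨n, hn1, hn2⟩ := exists_mem_Ico_zpow (x := (κ * nD D)⁻¹) (y := (qq v0 : ℝ))
    (inv_pos.2 (mul_pos hκ (nD_pos D))) (one_lt_qq' v0)
  have h2 : nD (D + Finsupp.single v0 (n + 1)) = nD D * (qq v0 : ℝ) ^ (n + 1) := by
    rw [nD_add, nD_single]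
  have hp := mul_pos hκ (nD_pos D)
  have h3 : 1 < κ * nD (D + Finsupp.single v0 (n + 1)) := by
    rw [h2, ← mul_assoc]
    rwa [inv_lt_iff_one_lt_mul₀' hp] at hn2
  have h4 : nD (D + Finsupp.single v0 (n + 1)) ≤ qq v0 / κ := by
    rw [h2, le_div_iff₀ hκ, zpow_add_one₀ (qq_pos v0).ne']
    have h5 : κ * nD D * (qq v0 : ℝ) ^ n ≤ 1 := by
      calc _ ≤ κ * nD D * (κ * nD D)⁻¹ := mul_le_mul_of_nonneg_left hn1 hp.le
        _ = 1 := mul_inv_cancel₀ hp.ne'
    calc _ = (κ * nD D * (qq v0 : ℝ) ^ n) * qq v0 := by ring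
      _ ≤ 1 * qq v0 := mul_le_mul_of_nonneg_right h5 (qq_pos v0).le
      _ = _ := one_mul _
  have h5 : (1 : ℝ) < cD (D + Finsupp.single v0 (n + 1)) := h3.trans_le (h1 _)
  have h6 : 1 < Nat.card (LD (D + Finsupp.single v0 (n + 1))) := by exact_mod_cast h5
  rw [Finite.one_lt_card_iff_nontrivial] at h6
  obtain ⟨x, hx⟩ := exists_ne (0 : LD (D + Finsupp.single v0 (n + 1)))
  have hx0 : (x : F) ≠ 0 := fun h => hx (Subtype.ext h)
  refine ⟨n + 1, x, D + Finsupp.single v0 (n + 1) - lg (x : F), hx0, ?_, ?_, by abel⟩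
  · rw [sub_nonneg]
    exact (mem_LD_iff hx0).1 x.2
  · rw [sub_eq_add_neg, nD_add, nD_neg, nD_lg hx0, inv_one, mul_one]
    exact h4

/-- the places with a residue field of bounded order are finite in number -/
theorem finite_qq (B : ℝ) : {v : Place F | (qq v : ℝ) ≤ B}.Finite := by
  obtain ⟨N, hN⟩ := exists_nat_ge B
  obtain ⟨v0⟩ := nonempty_place (F := F)
  obtain ⟨V, hV⟩ : ∃ V, V = toPl v0 := ⟨_, rfl⟩
  obtain ⟨f, hf1, -⟩ := exists_pole V
  rw [hV] at hf1
  have hf2 : 1 < v0.abv f := by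
    by_contra h
    exact absurd ((toPl_le_one v0 f).2 (not_lt.1 h)) (not_le.2 hf1)
  have hf0 : f ≠ 0 := by
    rintro rfl
    rw [map_zero] at hf2
    linarith
  have hne : ∀ j : ℕ, 2 ≤ j → f ^ j - f ≠ 0 := by
    intro j hj h
    have h1 : f ^ (j - 1) = 1 := by
      have e : j = j - 1 + 1 := by omega
      rw [e, pow_succ] at h
      have : (f ^ (j - 1) - 1) * f = 0 := by rw [sub_mul, one_mul]; exact h
      exact sub_eq_zero.1 ((mul_eq_zero.1 this).resolve_right hf0)
    have h2 : v0.abv f ^ (j - 1) = 1 := by rw [← map_pow, h1, map_one]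
    exact absurd h2 (one_lt_pow₀ hf2 (by omega)).ne'
  refine ((place_finite hf0).union (Set.Finite.biUnion (Finset.finite_toSet (Finset.Icc 2 N))
    (fun j hj => place_finite (hne j (Finset.mem_Icc.1 hj).1)))).subset fun v hv => ?_
  rw [Set.mem_union]
  by_cases h : v.abv f = 1
  · right
    have hq : qq v ∈ Finset.Icc 2 N := by
      rw [Finset.mem_Icc]
      refine ⟨one_lt_qq v, ?_⟩
      have : (qq v : ℝ) ≤ N := le_trans hv hN
      exact_mod_cast this
    refine Set.mem_biUnion hq ?_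
    rw [Set.mem_ofPred_eq]
    intro h4
    have := v.normalized.1
    have hmax : (maxIdeal v.abv v.nonarch).IsMaximal := by
      refine Ideal.isMaximal_iff.2 ⟨?_, ?_⟩
      · intro h1
        have h1 : v.abv ((1 : integers v.abv v.nonarch) : F) < 1 := h1
        rw [OneMemClass.coe_one, map_one] at h1
        exact lt_irrefl _ h1
      · intro J x hJ hx hxJ
        have hx1 : v.abv (x : F) = 1 := le_antisymm x.2 (not_lt.1 hx)
        have hx0 : (x : F) ≠ 0 := by
          intro h0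
          rw [h0, map_zero] at hx1
          exact zero_ne_one hx1
        let y : integers v.abv v.nonarch := ⟨(x : F)⁻¹, by
          change v.abv _ ≤ 1
          rw [map_inv₀, hx1, inv_one]⟩
        have e : y * x = 1 := Subtype.ext (inv_mul_cancel₀ hx0)
        rw [← e]
        exact J.mul_mem_left y hxJ
    let := Ideal.Quotient.field (maxIdeal v.abv v.nonarch)
    have := Fintype.ofFinite (integers v.abv v.nonarch ⧸ maxIdeal v.abv v.nonarch)
    let g : integers v.abv v.nonarch := ⟨f, h.le⟩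
    have h5 : (Ideal.Quotient.mk (maxIdeal v.abv v.nonarch) g) ^ qq v =
        Ideal.Quotient.mk (maxIdeal v.abv v.nonarch) g := by
      rw [qq, Nat.card_eq_fintype_card]
      exact FiniteField.pow_card _
    rw [← map_pow, Ideal.Quotient.eq] at h5
    have h6 : v.abv (f ^ qq v - f) < 1 := h5
    rw [h4] at h6
    exact lt_irrefl _ h6
  · exact Or.inl h

/-- the effective divisors of bounded norm are finite in number -/
theorem finite_eff (C : ℝ) : {E : Dv F | 0 ≤ E ∧ nD E ≤ C}.Finite := by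
  classical
  obtain ⟨N, hN⟩ := pow_unbounded_of_one_lt C (one_lt_two : (1 : ℝ) < 2)
  set T : Finset (Place F) := (finite_qq (F := F) C).toFinset
  have hb : ∀ E : Dv F, 0 ≤ E → nD E ≤ C → ∀ v, E v ≤ N ∧ (v ∉ T → E v = 0) := by
    intro E hE hC v
    have h1 := (le_nD hE v).trans hC
    have h2q : (2 : ℝ) ≤ qq v := by exact_mod_cast one_lt_qq v
    constructor
    · by_contra h
      rw [not_le] at h
      have h3 : (2 : ℝ) ^ (N : ℤ) ≤ (qq v : ℝ) ^ E v := by
        calc (2 : ℝ) ^ (N : ℤ) ≤ (2 : ℝ) ^ E v := zpow_le_zpow_right₀ one_le_two h.le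
          _ ≤ _ := by
              obtain ⟨m, hm⟩ := Int.eq_ofNat_of_zero_le (hE v)
              have hm' : E v = (m : ℤ) := hm
              rw [hm', zpow_natCast, zpow_natCast]
              exact pow_le_pow_left₀ zero_le_two h2q m
      rw [zpow_natCast] at h3
      linarith
    · intro hvT
      by_contra h
      apply hvT
      rw [Set.Finite.mem_toFinset, Set.mem_ofPred_eq]
      refine le_trans ?_ h1
      have h3 : 1 ≤ E v := by
        have := hE v
        have h0 : (0 : Dv F) v = 0 := rfl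
        rw [h0] at this
        omega
      calc (qq v : ℝ) = (qq v : ℝ) ^ (1 : ℤ) := (zpow_one _).symm
        _ ≤ _ := zpow_le_zpow_right₀ (one_lt_qq' v).le h3
  refine Set.Finite.of_finite_image (f := fun E : Dv F => fun v : T => E v) ?_ ?_
  · refine (Set.Finite.pi' (ι := T) (fun _ => Set.finite_Icc (0 : ℤ) N)).subset ?_
    rintro _ ⟨E, ⟨hE, hC⟩, rfl⟩ v
    exact ⟨hE v, (hb E hE hC v).1⟩
  · intro E hE E' hE' h
    ext v
    by_cases hv : v ∈ T
    · exact congrFun h ⟨v, hv⟩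
    · rw [(hb E hE.1 hE.2 v).2 hv, (hb E' hE'.1 hE'.2 v).2 hv]

/-- **every place outside a finite set is principal up to the set** -/
theorem exists_PrF : ∃ S : Set (Place F), S.Finite ∧ ∀ v ∉ S, ∃ π : Fˣ,
    v.abv (π : F) = (qq v : ℝ)⁻¹ ∧ ∀ v' ∉ S, v' ≠ v → v'.abv (π : F) = 1 := by
  obtain ⟨v0⟩ := nonempty_place (F := F)
  obtain ⟨C, hC⟩ := mink v0
  refine ⟨insert v0 {v | (qq v : ℝ) ≤ C}, (finite_qq C).insert v0, fun v hv => ?_⟩
  obtain ⟨n, x, E, hx, hE, hEC, hlg⟩ := hC (-Finsupp.single v 1)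
  have hval : ∀ u ∉ insert v0 {v : Place F | (qq v : ℝ) ≤ C}, lg x u = -Finsupp.single v (1 : ℤ) u := by
    intro u hu
    rw [Set.mem_insert_iff, not_or, Set.mem_ofPred_eq, not_le] at hu
    have h1 : E u = 0 := by
      by_contra h
      have h3 : 1 ≤ E u := by
        have := hE u
        have h0 : (0 : Dv F) u = 0 := rfl
        rw [h0] at this
        omega
      have h4 : (qq u : ℝ) ≤ nD E := by
        refine le_trans ?_ (le_nD hE u)
        calc (qq u : ℝ) = (qq u : ℝ) ^ (1 : ℤ) := (zpow_one _).symm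
          _ ≤ _ := zpow_le_zpow_right₀ (one_lt_qq' u).le h3
      linarith
    rw [hlg, Finsupp.sub_apply, Finsupp.add_apply, h1, Finsupp.single_eq_of_ne hu.1,
      Finsupp.neg_apply]
    ring
  refine ⟨Units.mk0 x hx, ?_, fun v' hv' hne => ?_⟩
  · rw [Units.val_mk0, abv_eq hx, hval v hv, Finsupp.single_eq_same, zpow_neg_one]
  · rw [Units.val_mk0, ← lg_apply_eq_zero hx, hval v' hv', Finsupp.single_eq_of_ne hne, neg_zero]

/-- **units with two given places** -/
theorem exists_unit_pair {v0 v : Place F} (hv : v ≠ v0) : ∃ u : Fˣ, v.abv (u : F) ≠ 1 ∧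
    ∀ v' : Place F, v' ≠ v → v' ≠ v0 → v'.abv (u : F) = 1 := by
  obtain ⟨C, hC⟩ := mink v0
  choose n x E hx hE hEC hlg using fun j : ℕ => hC (Finsupp.single v (j : ℤ))
  obtain ⟨i, j, hij, h⟩ : ∃ i j : ℕ, i ≠ j ∧ E i = E j := by
    have hfin := (finite_eff (F := F) C).to_subtype
    obtain ⟨i, j, hij, h⟩ := Finite.exists_ne_map_eq_of_infinite
      (fun j : ℕ => (⟨E j, hE j, hEC j⟩ : {E : Dv F | 0 ≤ E ∧ nD E ≤ C}))
    exact ⟨i, j, hij, congrArg Subtype.val h⟩
  have hz : x i * (x j)⁻¹ ≠ 0 := mul_ne_zero (hx i) (inv_ne_zero (hx j))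
  have hl : ∀ u : Place F, u ≠ v0 → lg (x i * (x j)⁻¹) u =
      Finsupp.single v (i : ℤ) u - Finsupp.single v (j : ℤ) u := by
    intro u hu
    rw [lg_mul (hx i) (inv_ne_zero (hx j)), lg_inv (hx j), hlg, hlg, h]
    simp only [Finsupp.add_apply, Finsupp.sub_apply, Finsupp.neg_apply,
      Finsupp.single_eq_of_ne hu]
    ring
  refine ⟨Units.mk0 _ hz, ?_, fun v' h1 h2 => ?_⟩
  · rw [Units.val_mk0, Ne, ← lg_apply_eq_zero hz, hl v hv, Finsupp.single_eq_same,
      Finsupp.single_eq_same]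
    intro h3
    apply hij
    exact_mod_cast sub_eq_zero.1 h3
  · rw [Units.val_mk0, ← lg_apply_eq_zero hz, hl v' h2, Finsupp.single_eq_of_ne h1,
      Finsupp.single_eq_of_ne h1, sub_zero]

end

end Vale.Agent.P011.H973.PF
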