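import Vale.Agent.P011.H271.KSF

/-!
# Divisors of a global function field

The inequality of Riemann, the product formula, the finiteness of the class group and the existence
of units, from the strong approximation theorem (elementary, by counting).
-/

namespace Vale.Agent.P011.H973.PF

open Vale.Agent.P011.H738 Vale.Agent.P011.H271

set_option linter.unusedSectionVars false

noncomputable section

variable {F : Type} [Field F]

/-- divisors -/
abbrev Dv (F : Type) [Field F] : Type := Place F →₀ ℤ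

/-- the space of a divisor -/
def LD (D : Dv F) : AddSubgroup F where
  carrier := {x | ∀ v, v.abv x ≤ (qq v : ℝ) ^ D v}
  zero_mem' v := by
    rw [map_zero]
    exact (zpow_pos (qq_pos v) _).le
  add_mem' hx hy v := (v.nonarch _ _).trans (max_le (hx v) (hy v))
  neg_mem' hx v := by
    rw [v.abv.map_neg]
    exact hx v

theorem mem_LD {D : Dv F} {x : F} : x ∈ LD D ↔ ∀ v, v.abv x ≤ (qq v : ℝ) ^ D v := Iff.rfl

theorem LD_mono {D E : Dv F} (h : D ≤ E) : LD D ≤ LD E := fun x hx v =>
  (hx v).trans (zpow_le_zpow_right₀ (one_lt_qq' v).le (h v))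

/-- the norm of a divisor -/
def nD (D : Dv F) : ℝ := D.prod fun v n => (qq v : ℝ) ^ n

theorem nD_add (D E : Dv F) : nD (D + E) = nD D * nD E := by
  classical
  exact Finsupp.prod_add_index' (fun v => zpow_zero _) fun v m n => zpow_add₀ (qq_pos v).ne' m n

theorem nD_single (v : Place F) (n : ℤ) : nD (Finsupp.single v n) = (qq v : ℝ) ^ n :=
  Finsupp.prod_single_index (zpow_zero _)

theorem nD_pos (D : Dv F) : 0 < nD D := Finset.prod_pos fun v _ => zpow_pos (qq_pos v) _

theorem nD_zero : nD (0 : Dv F) = 1 := Finsupp.prod_zero_index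

theorem nD_neg (D : Dv F) : nD (-D) = (nD D)⁻¹ := by
  have h : nD D * nD (-D) = 1 := by rw [← nD_add, add_neg_cancel, nD_zero]
  exact eq_inv_of_mul_eq_one_right h

theorem le_nD {E : Dv F} (hE : 0 ≤ E) (v : Place F) : (qq v : ℝ) ^ E v ≤ nD E := by
  classical
  have h1 : E = Finsupp.single v (E v) + E.erase v := (Finsupp.single_add_erase v E).symm
  have h2 : 1 ≤ nD (E.erase v) := by
    refine Finset.prod_induction _ (fun x : ℝ => 1 ≤ x)
      (fun a b ha hb => one_le_mul_of_one_le_of_one_le ha hb) le_rfl fun u _ => ?_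
    refine one_le_zpow₀ (one_lt_qq' u).le ?_
    by_cases hu : u = v
    · subst hu
      rw [Finsupp.erase_same]
    · rw [Finsupp.erase_ne hu]
      exact hE u
  calc (qq v : ℝ) ^ E v = (qq v : ℝ) ^ E v * 1 := (mul_one _).symm
    _ ≤ (qq v : ℝ) ^ E v * nD (E.erase v) :=
        mul_le_mul_of_nonneg_left h2 (zpow_pos (qq_pos v) _).le
    _ = nD E := by
        conv_rhs => rw [h1]
        rw [nD_add, nD_single]

section step

variable (D : Dv F) (v : Place F) (z : F) (hz : v.abv z = (qq v : ℝ) ^ (-(D v + 1)))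

include hz in
theorem step_mem {x : F} (hx : x ∈ LD (D + Finsupp.single v 1)) : v.abv (z * x) ≤ 1 := by
  have h := hx v
  rw [Finsupp.add_apply, Finsupp.single_eq_same] at h
  rw [map_mul, hz]
  calc _ ≤ (qq v : ℝ) ^ (-(D v + 1)) * (qq v : ℝ) ^ (D v + 1) :=
        mul_le_mul_of_nonneg_left h (zpow_pos (qq_pos v) _).le
    _ = 1 := by rw [← zpow_add₀ (qq_pos v).ne', neg_add_cancel, zpow_zero]

/-- the leading coefficient -/
def lead : LD (D + Finsupp.single v 1) →+
    integers v.abv v.nonarch ⧸ maxIdeal v.abv v.nonarch where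
  toFun x := Ideal.Quotient.mk _ ⟨z * (x : F), step_mem D v z hz x.2⟩
  map_zero' := by
    rw [← map_zero (Ideal.Quotient.mk (maxIdeal v.abv v.nonarch))]
    congr 1
    exact Subtype.ext (mul_zero z)
  map_add' x y := by
    rw [← map_add]
    congr 1
    exact Subtype.ext (mul_add z _ _)

theorem lead_apply (x : LD (D + Finsupp.single v 1)) :
    lead D v z hz x = Ideal.Quotient.mk _ ⟨z * (x : F), step_mem D v z hz x.2⟩ := rfl

theorem lead_ker : (lead D v z hz).ker = (LD D).addSubgroupOf (LD (D + Finsupp.single v 1)) := by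
  ext x
  rw [AddMonoidHom.mem_ker, lead_apply, Ideal.Quotient.eq_zero_iff_mem, AddSubgroup.mem_addSubgroupOf]
  change v.abv (z * (x : F)) < 1 ↔ _
  have h0 : (0 : ℝ) < (qq v : ℝ) ^ (D v + 1) := zpow_pos (qq_pos v) _
  have h1 : v.abv (z * (x : F)) < 1 ↔ v.abv (x : F) < (qq v : ℝ) ^ (D v + 1) := by
    rw [map_mul, hz, zpow_neg, inv_mul_lt_iff₀ h0, mul_one]
  have h2 : v.abv (x : F) < (qq v : ℝ) ^ (D v + 1) ↔ v.abv (x : F) ≤ (qq v : ℝ) ^ (D v) := by
    by_cases hx : (x : F) = 0
    · rw [hx, map_zero]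
      exact iff_of_true h0 (zpow_pos (qq_pos v) _).le
    · rw [ml_spec v hx, zpow_lt_zpow_iff_right₀ (one_lt_qq' v),
        zpow_le_zpow_iff_right₀ (one_lt_qq' v), Int.lt_add_one_iff]
  rw [h1, h2]
  constructor
  · intro h u
    by_cases hu : u = v
    · rw [hu]; exact h
    · have := x.2 u
      rwa [Finsupp.add_apply, Finsupp.single_eq_of_ne hu, add_zero] at this
  · intro h
    exact h v

end step

variable [GFF F]

theorem LD_finite (D : Dv F) : (LD D : Set F).Finite := by
  refine place_finite_le (fun v => (qq v : ℝ) ^ D v) ?_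
  refine D.support.finite_toSet.subset fun v hv => ?_
  rw [Finset.mem_coe, Finsupp.mem_support_iff]
  intro h
  rw [Set.mem_ofPred_eq, h, zpow_zero] at hv
  exact lt_irrefl _ hv

instance (D : Dv F) : Finite (LD D) := (LD_finite D).to_subtype

/-- the number of elements -/
def cD (D : Dv F) : ℕ := Nat.card (LD D)

theorem cD_pos (D : Dv F) : 0 < cD D := Nat.card_pos

theorem cD_pos' (D : Dv F) : (0 : ℝ) < cD D := by exact_mod_cast cD_pos D

theorem exists_abv (v : Place F) (n : ℤ) : ∃ z : F, v.abv z = (qq v : ℝ) ^ n := by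
  obtain ⟨x, hx⟩ := v.normalized.2.1
  refine ⟨x ^ n, ?_⟩
  rw [map_zpow₀, hx]
  rfl

theorem card_step (D : Dv F) (v : Place F) (z : F) (hz : v.abv z = (qq v : ℝ) ^ (-(D v + 1))) :
    cD (D + Finsupp.single v 1) = cD D * Nat.card (lead D v z hz).range := by
  have h1 := (lead D v z hz).ker.card_mul_index
  rw [AddSubgroup.index_ker, lead_ker] at h1
  have hle : LD D ≤ LD (D + Finsupp.single v 1) := by
    refine LD_mono ?_
    intro u
    rw [Finsupp.add_apply]
    have : 0 ≤ (Finsupp.single v (1 : ℤ)) u := by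
      by_cases hu : u = v
      · rw [hu, Finsupp.single_eq_same]; exact zero_le_one
      · rw [Finsupp.single_eq_of_ne hu]
    linarith
  rw [Nat.card_congr (AddSubgroup.addSubgroupOfEquivOfLe hle).toEquiv] at h1
  exact h1.symm

theorem cD_step_le (D : Dv F) (v : Place F) : cD (D + Finsupp.single v 1) ≤ cD D * qq v := by
  obtain ⟨z, hz⟩ := exists_abv v (-(D v + 1))
  have := v.normalized.1
  rw [card_step D v z hz]
  exact Nat.mul_le_mul_left _ (Nat.card_le_card_of_injective _ Subtype.val_injective)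

theorem cD_step_eq (D : Dv F) (v : Place F)
    (h : ∀ x : F, ∃ y : F, v.abv (x - y) ≤ (qq v : ℝ) ^ D v ∧
      ∀ u, u ≠ v → u.abv y ≤ (qq u : ℝ) ^ D u) : cD (D + Finsupp.single v 1) = cD D * qq v := by
  obtain ⟨z, hz⟩ := exists_abv v (-(D v + 1))
  have := v.normalized.1
  rw [card_step D v z hz]
  congr 1
  have h1 : (lead D v z hz).range = ⊤ := by
    rw [AddMonoidHom.range_eq_top]
    intro r
    obtain ⟨⟨t, ht⟩, rfl⟩ := Ideal.Quotient.mk_surjective r
    have ht' : v.abv t ≤ 1 := ht
    have hz0 : z ≠ 0 := by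
      rintro rfl
      rw [map_zero] at hz
      exact (zpow_pos (qq_pos v) _).ne hz
    obtain ⟨y, hy1, hy2⟩ := h (z⁻¹ * t)
    have hzi : v.abv z⁻¹ = (qq v : ℝ) ^ (D v + 1) := by rw [map_inv₀, hz, zpow_neg, inv_inv]
    have h3 : v.abv y ≤ (qq v : ℝ) ^ (D v + 1) := by
      have e : y = z⁻¹ * t - (z⁻¹ * t - y) := by ring
      rw [e]
      have h4 := v.nonarch (z⁻¹ * t) (-(z⁻¹ * t - y))
      rw [← sub_eq_add_neg, v.abv.map_neg] at h4
      refine h4.trans (max_le ?_ ?_)
      · rw [map_mul, hzi]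
        exact mul_le_of_le_one_right (zpow_pos (qq_pos v) _).le ht'
      · exact hy1.trans (zpow_le_zpow_right₀ (one_lt_qq' v).le (by linarith))
    have hyL : y ∈ LD (D + Finsupp.single v 1) := by
      intro u
      by_cases hu : u = v
      · subst hu
        rw [Finsupp.add_apply, Finsupp.single_eq_same]
        exact h3
      · rw [Finsupp.add_apply, Finsupp.single_eq_of_ne hu, add_zero]
        exact hy2 u hu
    refine ⟨⟨y, hyL⟩, ?_⟩
    rw [lead_apply, Ideal.Quotient.eq]
    change v.abv (z * y - t) < 1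
    have e : z * y - t = -(z * (z⁻¹ * t - y)) := by field_simp; ring
    rw [e, v.abv.map_neg, map_mul, hz]
    calc _ ≤ (qq v : ℝ) ^ (-(D v + 1)) * (qq v : ℝ) ^ D v :=
          mul_le_mul_of_nonneg_left hy1 (zpow_pos (qq_pos v) _).le
      _ = (qq v : ℝ) ^ (-1 : ℤ) := by rw [← zpow_add₀ (qq_pos v).ne']; congr 1; ring
      _ < 1 := zpow_lt_one_of_neg₀ (one_lt_qq' v) (by norm_num)
  rw [h1, qq]
  exact Nat.card_congr AddSubgroup.topEquiv.toEquiv

/-- from a divisor to a larger one, one place at a time -/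
theorem chain {P : Dv F → Prop} {D : Dv F} (h0 : P D)
    (hs : ∀ E, D ≤ E → P E → ∀ v, P (E + Finsupp.single v 1)) {E : Dv F} (hE : D ≤ E) : P E := by
  classical
  let c : (Place F →₀ ℕ) →+ Dv F := Finsupp.mapRange.addMonoidHom (Nat.castAddMonoidHom ℤ)
  have hc : ∀ (f : Place F →₀ ℕ) v, c f v = f v := fun f v => rfl
  have key : ∀ s : Multiset (Place F), P (D + c (Multiset.toFinsupp s)) := by
    intro s
    induction s using Multiset.induction with
    | empty => simpa using h0
    | cons a s ih =>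
      rw [← Multiset.singleton_add, map_add, map_add, Multiset.toFinsupp_singleton,
        add_comm (c _), ← add_assoc]
      have e : c (Finsupp.single a 1) = Finsupp.single a 1 := by
        ext u
        rw [hc]
        by_cases hu : u = a
        · rw [hu, Finsupp.single_eq_same, Finsupp.single_eq_same, Nat.cast_one]
        · rw [Finsupp.single_eq_of_ne hu, Finsupp.single_eq_of_ne hu, Nat.cast_zero]
      rw [e]
      refine hs _ ?_ ih a
      intro v
      rw [Finsupp.add_apply, hc]
      have : (0 : ℤ) ≤ (Multiset.toFinsupp s v : ℤ) := Int.natCast_nonneg _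
      linarith
  let f : Place F →₀ ℕ := (E - D).mapRange Int.toNat Int.toNat_zero
  have hf : D + c f = E := by
    ext v
    rw [Finsupp.add_apply, hc, Finsupp.mapRange_apply, Finsupp.sub_apply,
      Int.toNat_of_nonneg (by linarith [hE v])]
    ring
  have := key (Finsupp.toMultiset f)
  rwa [Finsupp.toMultiset_toFinsupp, hf] at this

/-- the normalised number of elements -/
def rD (D : Dv F) : ℝ := cD D / nD D

theorem rD_pos (D : Dv F) : 0 < rD D := div_pos (cD_pos' D) (nD_pos D)

theorem rD_step_le (D : Dv F) (v : Place F) : rD (D + Finsupp.single v 1) ≤ rD D := by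
  have h : (cD (D + Finsupp.single v 1) : ℝ) ≤ cD D * qq v := by exact_mod_cast cD_step_le D v
  rw [rD, rD, nD_add, nD_single, zpow_one]
  rw [div_le_div_iff₀ (mul_pos (nD_pos D) (qq_pos v)) (nD_pos D)]
  calc _ ≤ (cD D * qq v : ℝ) * nD D := mul_le_mul_of_nonneg_right h (nD_pos D).le
    _ = _ := by ring

theorem rD_anti {D E : Dv F} (h : D ≤ E) : rD E ≤ rD D :=
  chain (P := fun E => rD E ≤ rD D) le_rfl (fun E _ hE v => (rD_step_le E v).trans hE) h

theorem infinite_F : Infinite F := by
  obtain ⟨K, iK, iFin, φ, hφ⟩ := GFF.out (k := F)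
  have h1 : Function.Injective
      (fun p : Polynomial K => φ (algebraMap (Polynomial K) (RatFunc K) p)) :=
    φ.injective.comp (IsFractionRing.injective (Polynomial K) (RatFunc K))
  exact Infinite.of_injective _ h1

theorem nonempty_place : Nonempty (Place F) := by
  by_contra hcon
  rw [not_nonempty_iff] at hcon
  have h1 : {x : F | ∀ v : Place F, v.abv x ≤ (fun _ : Place F => (1 : ℝ)) v}.Finite :=
    place_finite_le _ (Set.toFinite _)
  have h2 : {x : F | ∀ v : Place F, v.abv x ≤ (fun _ : Place F => (1 : ℝ)) v} = Set.univ :=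
    Set.eq_univ_of_forall fun x v => (hcon.false v).elim
  rw [h2] at h1
  have := infinite_F (F := F)
  exact Set.infinite_univ h1

theorem exists_D0 (v0 : Place F) : ∃ D0 : Dv F, ∀ D : Dv F, D0 ≤ D → rD D = rD D0 := by
  classical
  obtain ⟨C, hC⟩ := place_strong v0 ∅ (by simp) one_pos
  obtain ⟨n, hn⟩ := exists_le_pow v0 C
  refine ⟨Finsupp.single v0 (n : ℤ), fun D hD => ?_⟩
  refine chain (P := fun E => rD E = rD (Finsupp.single v0 (n : ℤ))) rfl
    (fun E hE hr v => ?_) hD
  have h0 : ∀ u, 0 ≤ E u := by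
    intro u
    refine le_trans ?_ (hE u)
    by_cases hu : u = v0
    · rw [hu, Finsupp.single_eq_same]; exact Int.natCast_nonneg _
    · rw [Finsupp.single_eq_of_ne hu]
  have hv0 : C ≤ (qq v0 : ℝ) ^ E v0 := by
    refine hn.trans (zpow_le_zpow_right₀ (one_lt_qq' v0).le ?_)
    have := hE v0
    rwa [Finsupp.single_eq_same] at this
  have h1 : cD (E + Finsupp.single v 1) = cD E * qq v := by
    refine cD_step_eq E v fun x => ?_
    obtain ⟨y, -, hy2, hy3⟩ := hC (fun u => if u = v then x else 0) (by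
      refine (Set.finite_singleton v).subset fun u hu => ?_
      by_contra hne
      rw [Set.mem_singleton_iff] at hne
      rw [Set.mem_ofPred_eq, if_neg hne, map_zero] at hu
      exact absurd hu (not_lt.2 zero_le_one))
    have key : ∀ u, u.abv ((if u = v then x else 0) - y) ≤ (qq u : ℝ) ^ E u := by
      intro u
      by_cases hu : u = v0
      · subst hu
        exact hy3.trans hv0
      · exact (hy2 u hu).trans (one_le_zpow₀ (one_lt_qq' u).le (h0 u))
    refine ⟨y, ?_, fun u hu => ?_⟩
    · have := key v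
      rwa [if_pos rfl] at this
    · have := key u
      rwa [if_neg hu, zero_sub, u.abv.map_neg] at this
  rw [← hr, rD, rD, nD_add, nD_single, zpow_one, h1]
  push_cast
  exact mul_div_mul_right _ _ (qq_pos v).ne'

/-- **the inequality of Riemann** -/
theorem riemann : ∃ κ : ℝ, 0 < κ ∧ ∃ D0 : Dv F, (∀ D, D0 ≤ D → (cD D : ℝ) = κ * nD D) ∧
    ∀ D : Dv F, κ * nD D ≤ cD D := by
  obtain ⟨v0⟩ := nonempty_place (F := F)
  obtain ⟨D0, h⟩ := exists_D0 v0
  refine ⟨rD D0, rD_pos D0, D0, fun D hD => ?_, fun D => ?_⟩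
  · rw [← h D hD, rD, div_mul_cancel₀ _ (nD_pos D).ne']
  · have h1 : rD D0 ≤ rD D := by
      rw [← h (D ⊔ D0) le_sup_right]
      exact rD_anti le_sup_left
    calc _ ≤ rD D * nD D := mul_le_mul_of_nonneg_right h1 (nD_pos D).le
      _ = _ := by rw [rD, div_mul_cancel₀ _ (nD_pos D).ne']

end

end Vale.Agent.P011.H973.PF
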